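import Vale.Agent.P352X.Api2b
import Vale.Agent.P352X.R.GRP.C

/-!
# P352L: closed sources (vocabulary of route W, no context)

`T(h) = ∑ T^{mn}(h_mn)`.  `RR h` is the linearized scalar curvature; `h` is closed if `RR h = 0`.
`hW F = η ∂_a² F + 3 a a □ F`, `hA κ f` are the sources of the Cotton components.  The operators
`hD, aD, nD, rD` are the same operators acting on the slot `e` of a test function of several points.
-/

set_option linter.all false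

open scoped SchwartzMap ContDiff LineDeriv

namespace Vale.Agent.P352L

open Vale.Agent.P352 Vale.Agent.P352.GF Vale.Agent.P352.H246 Vale.Agent.P352X

noncomputable section

/-- triples of indices -/
abbrev I3 := Ix × Ix × Ix

/-- the metric -/
def gm (I : I2) : ℝ := bas I.1 (eta I.1) I.2
/-- the lower components of `a` -/
def la (m : Ix) : ℝ := eta m * va m
/-- `S^{mn} = T^{mn} - η^{mn} Θ / 3 = ∑ sS m n I T^I` -/
def sS (m n : Ix) (I : I2) : ℝ :=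
  (bas m 1 I.1 * bas n 1 I.2 + bas n 1 I.1 * bas m 1 I.2) / 2 - gm (m, n) * gm I / 3

/-- the source of `W F = Θ(∂_a² F) + 3 T_aa(□ F)` -/
def hW (F : Fn) : Ix → Ix → Fn := fun m n x =>
  (gm (m, n) : ℂ) * dv va (dv va F) x + ((3 * (la m * la n) : ℝ) : ℂ) * box F x
/-- the source of `C(k,m,n) f = η_k S^{mn}(∂_k f) - η_m S^{kn}(∂_m f)` -/
def hA (κ : I3) (f : Fn) : Ix → Ix → Fn := fun r s x =>
  ((eta κ.1 * sS κ.2.1 κ.2.2 (r, s) : ℝ) : ℂ) * pd κ.1 f x -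
    ((eta κ.2.1 * sS κ.1 κ.2.2 (r, s) : ℝ) : ℂ) * pd κ.2.1 f x
/-- `∂^m ∂^n h_mn - □ tr h` -/
def RR (h : Ix → Ix → Fn) : Fn := fun x => ∑ m, ∑ n,
  (((eta m * eta n : ℝ) : ℂ) * pd m (pd n (h m n)) x - (gm (m, n) : ℂ) * box (h m n) x)
/-- `∂_a` and the potential of `hW` -/
def nW (κ : I3) (F : Fn) : Fn := fun x => ((3 * (la κ.2.1 * la κ.2.2) : ℝ) : ℂ) * pd κ.1 F x -
  ((3 * (la κ.1 * gm κ.2) : ℝ) : ℂ) * dv va F x

section slots

variable {E : Type*} [NormedAddCommGroup E] [NormedSpace ℝ E]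

/-- directional derivatives -/
def dD (v : E) : 𝓢(E, ℂ) →L[ℂ] 𝓢(E, ℂ) := LineDeriv.lineDerivOpCLM ℂ 𝓢(E, ℂ) v

variable (e : V →L[ℝ] E)

/-- the partial derivatives in the slot `e` -/
def pD (m : Ix) : 𝓢(E, ℂ) →L[ℂ] 𝓢(E, ℂ) := dD (e (bas m 1))
/-- the wave operator in the slot `e` -/
def bD : 𝓢(E, ℂ) →L[ℂ] 𝓢(E, ℂ) := ∑ m, (eta m : ℂ) • (pD e m * pD e m)
/-- `hW` in the slot `e` -/
def hD (I : I2) : 𝓢(E, ℂ) →L[ℂ] 𝓢(E, ℂ) :=
  (gm I : ℂ) • (dD (e va) * dD (e va)) + ((3 * (la I.1 * la I.2) : ℝ) : ℂ) • bD e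
/-- `hA` in the slot `e` -/
def aD (κ : I3) (I : I2) : 𝓢(E, ℂ) →L[ℂ] 𝓢(E, ℂ) :=
  ((eta κ.1 * sS κ.2.1 κ.2.2 I : ℝ) : ℂ) • pD e κ.1 -
    ((eta κ.2.1 * sS κ.1 κ.2.2 I : ℝ) : ℂ) • pD e κ.2.1
/-- `nW` in the slot `e` -/
def nD (κ : I3) : 𝓢(E, ℂ) →L[ℂ] 𝓢(E, ℂ) :=
  ((3 * (la κ.2.1 * la κ.2.2) : ℝ) : ℂ) • pD e κ.1 - ((3 * (la κ.1 * gm κ.2) : ℝ) : ℂ) • dD (e va)
/-- `RR` in the slot `e` -/
def rD (I : I2) : 𝓢(E, ℂ) →L[ℂ] 𝓢(E, ℂ) :=
  ((eta I.1 * eta I.2 : ℝ) : ℂ) • (pD e I.1 * pD e I.2) - (gm I : ℂ) • bD e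

lemma dD_apply (v : E) (F : 𝓢(E, ℂ)) : dD v F = ∂_{v} F := rfl

lemma dD_eq (v : E) (F : 𝓢(E, ℂ)) (x : E) : dD v F x = fderiv ℝ F x v :=
  SchwartzMap.lineDerivOp_apply_eq_fderiv v F x

lemma dD_comm (v w : E) : dD v * dD w = dD w * dD v := by
  ext F x
  have h : ∀ v : E, (dD v F : E → ℂ) = fun y => fderiv ℝ F y v := fun v => funext (dD_eq v F)
  have d : DifferentiableAt ℝ (fderiv ℝ F) x :=
    ((F.smooth 2).fderiv_right (m := 1) le_rfl).differentiable one_ne_zero x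
  simp only [ContinuousLinearMap.mul_apply, dD_eq, h, fderiv_clm_apply d (differentiableAt_const _)]
  simpa using ((F.smooth 2).contDiffAt.isSymmSndFDerivAt (by simp)).eq v w

lemma dD_add (v w : E) : dD (v + w) = dD v + dD w := by
  ext F x
  simp [dD_eq]

lemma dD_smul (t : ℝ) (v : E) : dD (t • v) = (t : ℂ) • dD v := by
  ext F x
  simp [dD_eq]

lemma dD_sum {ι : Type*} (s : Finset ι) (v : ι → E) : dD (∑ i ∈ s, v i) = ∑ i ∈ s, dD (v i) := by
  ext F x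
  simp [dD_eq, ContinuousLinearMap.sum_apply, SchwartzMap.sum_apply]

lemma dD_slot (h : V) : dD (e h) = ∑ m, (h m : ℂ) • pD e m := by
  have : h = ∑ m, h m • (bas m 1 : V) := funext fun n => by simp [bas, Finset.sum_apply]
  conv_lhs => rw [this, map_sum, dD_sum]
  simp only [map_smul, dD_smul, pD]

lemma pD_comm {e' : V →L[ℝ] E} (m n : Ix) : pD e m * pD e' n = pD e' n * pD e m := dD_comm _ _

lemma dD_a : dD (e va) = pD e 0 + pD e 1 := by
  simp [dD_slot, Fin.sum_univ_four, va]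

open MvPolynomial in
/-- operators with constant coefficients in the slot `e` -/
def sy : MvPolynomial Ix ℂ →ₐ[ℂ] (𝓢(E, ℂ) →L[ℂ] 𝓢(E, ℂ)) :=
  letI := Algebra.adjoinCommRingOfComm ℂ (s := Set.range (pD e)) (by
    rintro _ ⟨m, rfl⟩ _ ⟨n, rfl⟩
    exact pD_comm e m n)
  (Algebra.adjoin ℂ (Set.range (pD e))).val.comp
    (aeval fun m => (⟨pD e m, Algebra.subset_adjoin ⟨m, rfl⟩⟩ : Algebra.adjoin ℂ (Set.range (pD e))))

lemma sy_X (m : Ix) : sy e (MvPolynomial.X m) = pD e m := by simp [sy]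

lemma sy_ext {P Q : MvPolynomial Ix ℂ}
    (h : ∀ p : Ix → ℂ, MvPolynomial.aeval p P = MvPolynomial.aeval p Q) : sy e P = sy e Q :=
  congrArg _ (MvPolynomial.funext fun p => h p)

lemma s_h (r s : Ix) (p : Ix → ℂ) : (gm (r, s) : ℂ) * ((p 0 + p 1) * (p 0 + p 1)) +
    ((3 * (la r * la s) : ℝ) : ℂ) * ∑ m, (eta m : ℂ) * (p m * p m) = ∑ k, ∑ m, ∑ n,
    (((eta k * sS m n (r, s) : ℝ) : ℂ) * p k - ((eta m * sS k n (r, s) : ℝ) : ℂ) * p m) *
      (((3 * (la m * la n) : ℝ) : ℂ) * p k - ((3 * (la k * gm (m, n)) : ℝ) : ℂ) * (p 0 + p 1)) := by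
  simp only [Fin.sum_univ_four]
  fin_cases r <;> fin_cases s <;> simp [sS, gm, la, bas, eta, o, va] <;> ring

lemma s_t (n r s : Ix) (p : Ix → ℂ) : ∑ k, (eta k : ℂ) *
    (((eta n * sS k k (r, s) : ℝ) : ℂ) * p n - ((eta k * sS n k (r, s) : ℝ) : ℂ) * p k) =
    -((bas n (1 / 2) r : ℂ) * p s + (bas n (1 / 2) s : ℂ) * p r) := by
  have h1 : ∑ k, (eta k : ℂ) * (sS k k (r, s) : ℝ) = -(gm (r, s) : ℂ) / 3 := by
    fin_cases r <;> fin_cases s <;> simp [Fin.sum_univ_four, sS, gm, bas, eta, o] <;> norm_num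
  have h2 : ∑ k, (sS n k (r, s) : ℝ) * p k = (bas n (1 / 2) r : ℂ) * p s +
      (bas n (1 / 2) s : ℂ) * p r - eta n * gm (r, s) / 3 * p n := by
    have a : ∀ m, ∑ k, (bas k 1 m : ℂ) * p k = p m := fun m => by
      fin_cases m <;> simp [Fin.sum_univ_four, bas]
    have b : ∑ k, (gm (n, k) : ℂ) * p k = eta n * p n := by
      fin_cases n <;> simp [Fin.sum_univ_four, bas, gm]
    have c : ∀ m, (bas n (1 / 2) m : ℂ) = bas n 1 m / 2 := fun m => by
      simp only [bas]; split_ifs <;> simp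
    rw [c, c, ← a s, ← a r, mul_comm (eta n : ℂ), mul_div_right_comm, mul_assoc, ← b]
    simp only [sS, Finset.mul_sum, ← Finset.sum_add_distrib, ← Finset.sum_sub_distrib]
    refine Finset.sum_congr rfl fun k _ => ?_
    push_cast
    ring
  have h3 : ∀ k, (eta k : ℂ) * eta k = 1 := fun k => by fin_cases k <;> simp [eta, o]
  calc _ = eta n * p n * ∑ k, (eta k : ℂ) * (sS k k (r, s) : ℝ) -
      ∑ k, (sS n k (r, s) : ℝ) * p k := by
        simp only [Finset.mul_sum, ← Finset.sum_sub_distrib]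
        refine Finset.sum_congr rfl fun k _ => ?_
        push_cast
        linear_combination (-(sS n k (r, s) : ℂ) * p k) * h3 k
    _ = _ := by rw [h1, h2]; ring

lemma s_r (m n : Ix) (p : Ix → ℂ) : ∑ r, ∑ s, (((eta r * eta s : ℝ) : ℂ) * (p r * p s) -
    (gm (r, s) : ℂ) * ∑ m, (eta m : ℂ) * (p m * p m)) * (sS m n (r, s) : ℝ) =
    eta m * eta n * (p m * p n) := by
  simp only [Fin.sum_univ_four]
  fin_cases m <;> fin_cases n <;> simp [sS, gm, bas, eta, o] <;> ring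

open MvPolynomial (X)

lemma bD_sy : bD e = sy e (∑ m, (eta m : ℂ) • (X m * X m)) := by
  simp only [bD, map_sum, map_smul, map_mul, sy_X]

lemma aD_sy (κ : I3) (I : I2) : aD e κ I = sy e (((eta κ.1 * sS κ.2.1 κ.2.2 I : ℝ) : ℂ) • X κ.1 -
    ((eta κ.2.1 * sS κ.1 κ.2.2 I : ℝ) : ℂ) • X κ.2.1) := by
  simp only [aD, map_sub, map_smul, sy_X]

lemma nD_sy (κ : I3) : nD e κ = sy e (((3 * (la κ.2.1 * la κ.2.2) : ℝ) : ℂ) • X κ.1 -
    ((3 * (la κ.1 * gm κ.2) : ℝ) : ℂ) • (X 0 + X 1)) := by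
  simp only [nD, map_sub, map_smul, map_add, sy_X, dD_a]

lemma hD_sy (I : I2) : hD e I = sy e ((gm I : ℂ) • ((X 0 + X 1) * (X 0 + X 1)) +
    ((3 * (la I.1 * la I.2) : ℝ) : ℂ) • ∑ m, (eta m : ℂ) • (X m * X m)) := by
  simp only [hD, map_add, map_smul, map_mul, sy_X, dD_a, ← bD_sy]

lemma rD_sy (I : I2) : rD e I = sy e (((eta I.1 * eta I.2 : ℝ) : ℂ) • (X I.1 * X I.2) -
    (gm I : ℂ) • ∑ m, (eta m : ℂ) • (X m * X m)) := by
  simp only [rD, map_sub, map_smul, map_mul, sy_X, ← bD_sy]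

/-- `hW = A ∘ n` -/
theorem hD_eq (I : I2) : hD e I = ∑ κ, aD e κ I * nD e κ := by
  simp only [hD_sy, aD_sy, nD_sy, ← map_mul, ← map_sum]
  refine sy_ext e fun p => ?_
  simpa only [map_add, map_smul, map_mul, map_sum, map_sub, MvPolynomial.aeval_X, smul_eq_mul,
    Fintype.sum_prod_type] using s_h I.1 I.2 p

/-- pure gauge sources -/
theorem aD_tr (n : Ix) (I : I2) : ∑ r, (eta r : ℂ) • aD e (n, r, r) I =
    -((bas n (1 / 2) I.1 : ℂ) • pD e I.2 + (bas n (1 / 2) I.2 : ℂ) • pD e I.1) := by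
  simp only [aD_sy, ← sy_X, ← map_smul, ← map_sum, ← map_add, ← map_neg]
  refine sy_ext e fun p => ?_
  simpa only [map_add, map_smul, map_neg, map_sum, map_sub, MvPolynomial.aeval_X, smul_eq_mul]
    using s_t n I.1 I.2 p

/-- the sources `A N` are closed -/
theorem rD_aD (κ : I3) : ∑ I, rD e I * aD e κ I = 0 := by
  simp only [rD_sy, aD_sy, ← map_mul, ← map_sum]
  refine (sy_ext e (Q := 0) fun p => ?_).trans (map_zero _)
  simp only [map_add, map_smul, map_mul, map_sum, map_sub, MvPolynomial.aeval_X, smul_eq_mul,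
    Fintype.sum_prod_type, map_zero]
  calc _ = eta κ.1 * p κ.1 * (eta κ.2.1 * eta κ.2.2 * (p κ.2.1 * p κ.2.2)) -
      eta κ.2.1 * p κ.2.1 * (eta κ.1 * eta κ.2.2 * (p κ.1 * p κ.2.2)) := by
        simp only [← s_r, Finset.mul_sum _ _ (_ * p _), ← Finset.sum_sub_distrib]
        refine Finset.sum_congr rfl fun r _ => Finset.sum_congr rfl fun s _ => ?_
        push_cast
        ring
    _ = 0 := by ring

lemma sS_swap (m n : Ix) (I : I2) : sS m n I.swap = sS m n I := by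
  obtain ⟨r, s⟩ := I
  have : gm (s, r) = gm (r, s) := by
    simp only [gm, bas]
    by_cases h : r = s <;> simp [h, eq_comm]
  simp only [sS, Prod.swap, this]
  ring

lemma aD_swap (κ : I3) (I : I2) : aD e κ I.swap = aD e κ I := by simp only [aD, sS_swap]

end slots

/-- the slots of test functions of two points -/
def i1 : V →L[ℝ] V × V := .inl ℝ V V
def i2 : V →L[ℝ] V × V := .inr ℝ V V
/-- the slots of test functions of three points -/
def j1 : V →L[ℝ] V × V × V := .inl ℝ V (V × V)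
def j2 : V →L[ℝ] V × V × V := .inr ℝ V (V × V) ∘L i1
def j3 : V →L[ℝ] V × V × V := .inr ℝ V (V × V) ∘L i2
/-- one point -/
abbrev i0 : V →L[ℝ] V := .id ℝ V

lemma ev_pD (m : Ix) (f : Sch) : ev (pD i0 m f) = pd m (ev f) := (Grp.pd_ev m f).symm

lemma ev_dD (h : V) (f : Sch) : ev (dD h f) = dv h (ev f) := funext fun x =>
  (dD_eq h f x).trans (Ap.dv_eq (f := ev f) f.differentiableAt h).symm

lemma ev_bD (f : Sch) : ev (bD i0 f) = box (ev f) := funext fun x => by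
  simp only [box, ← ev_pD]
  simp [bD, ev, ContinuousLinearMap.sum_apply, SchwartzMap.sum_apply]

lemma ev_hD (I : I2) (f : Sch) : ev (hD i0 I f) = hW (ev f) I.1 I.2 := funext fun x => by
  simp only [hW, ← ev_bD, ← ev_dD]
  simp [hD, ev]

lemma ev_aD (κ : I3) (I : I2) (f : Sch) : ev (aD i0 κ I f) = hA κ (ev f) I.1 I.2 :=
  funext fun x => by
    simp only [hA, ← ev_pD]
    simp [aD, ev]

lemma ev_nD (κ : I3) (f : Sch) : ev (nD i0 κ f) = nW κ (ev f) := funext fun x => by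
  simp only [nW, ← ev_pD, ← ev_dD]
  simp [nD, ev]

lemma ev_RR (h : I2 → Sch) : ev (∑ I, rD i0 I (h I)) = RR fun m n => ev (h (m, n)) :=
  funext fun x => by
    simp only [RR, ← ev_pD, ← ev_bD]
    simp [rD, ev, SchwartzMap.sum_apply, Fintype.sum_prod_type]

lemma test_hW {F : Fn} (h : IsTest F) (m n : Ix) : IsTest (hW F m n) := by
  obtain ⟨f, rfl⟩ := h
  exact ⟨_, ev_hD (m, n) f⟩

lemma test_hA {F : Fn} (h : IsTest F) (κ : I3) (m n : Ix) : IsTest (hA κ F m n) := by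
  obtain ⟨f, rfl⟩ := h
  exact ⟨_, ev_aD κ (m, n) f⟩

lemma test_nW {F : Fn} (h : IsTest F) (κ : I3) : IsTest (nW κ F) := by
  obtain ⟨f, rfl⟩ := h
  exact ⟨_, ev_nD κ f⟩

theorem RR_hA {F : Fn} (h : IsTest F) (κ : I3) : RR (hA κ F) = 0 := by
  obtain ⟨f, rfl⟩ := h
  have := ev_RR fun I => aD i0 κ I f
  simp only [ev_aD] at this
  rw [← this, show ∑ I, rD i0 I (aD i0 κ I f) = (∑ I, rD i0 I * aD i0 κ I) f by
    simp [ContinuousLinearMap.sum_apply], rD_aD]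
  rfl

theorem hW_eq {F : Fn} (h : IsTest F) (m n : Ix) (x : V) :
    hW F m n x = ∑ κ, hA κ (nW κ F) m n x := by
  obtain ⟨f, rfl⟩ := h
  simp only [← ev_nD, ← ev_hD (m, n), fun κ g => (ev_aD κ (m, n) g).symm, hD_eq]
  simp [ev, ContinuousLinearMap.sum_apply, SchwartzMap.sum_apply]

theorem RR_hW {F : Fn} (h : IsTest F) : RR (hW F) = 0 := by
  obtain ⟨f, rfl⟩ := h
  have := ev_RR fun I => hD i0 I f
  simp only [ev_hD] at this
  rw [← this, show ∑ I, rD i0 I (hD i0 I f) = (∑ κ, (∑ I, rD i0 I * aD i0 κ I) * nD i0 κ) f by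
    simp only [hD_eq, Finset.sum_mul, ContinuousLinearMap.sum_apply, map_sum,
      ContinuousLinearMap.mul_apply]
    exact Finset.sum_comm]
  simp only [rD_aD, zero_mul, Finset.sum_const_zero]
  rfl

end

end Vale.Agent.P352L
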