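import Vale.Agent.P352L.Spec
import Vale.Agent.P352L.W
import Vale.Agent.P352L.Z.Ell0

/-!
# P352L: the rows of route W
-/

set_option linter.all false

open MeasureTheory Filter Topology
open scoped SchwartzMap ComplexConjugate ENNReal ContDiff

namespace Vale.Agent.P352L

open Vale.Agent.P352X
open Vale.Agent.P352 Vale.Agent.P352.GF Vale.Agent.P352.BW Vale.Agent.P352.H246
open Vale.Agent.P352.H496 Vale.Agent.P352.H755 Vale.Agent.P352.H15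
open Vale.Agent.P132 (ModData jconj)
open UniformSpace (Completion)
open Complex (I)

noncomputable section

variable {D : Type*} [NormedAddCommGroup D] [InnerProductSpace ℂ D]

/-! ## vocabulary -/

/-- `(x2 - x1).(x2 - x3) (al1 - al3)^6` -/
def Ph6 (z1 z2 z3 : V) : ℝ := d2 (tx z2 - tx z1) (tx z2 - tx z3) * (al z1 - al z3) ^ 6
/-- `Re (u^2 conj(v)^2)`; the Laplacian of `x ↦ q4 (x - y) (x - z)` is `16 (x - y).(x - z)` -/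
def q4 (u v : R2) : ℝ := (u 0 ^ 2 - u 1 ^ 2) * (v 0 ^ 2 - v 1 ^ 2) + 4 * (u 0 * u 1 * (v 0 * v 1))
/-- the potential of the source `η ⊗ a a ⊗ η Φ0` -/
def PhW (z1 z2 z3 : V) : ℝ := q4 (tx z2 - tx z1) (tx z2 - tx z3) * (al z1 - al z3) ^ 6

/-- `w(T_aa, W)` -/
def ww0 (w : I2 → I2 → S2 →L[ℂ] Completion D) : S2 →L[ℂ] Completion D :=
  ∑ I, ∑ J, ((la I.1 * la I.2 : ℝ) : ℂ) • w I J ∘L hD i2 J
/-- `w(W, W)` -/
def www (w : I2 → I2 → S2 →L[ℂ] Completion D) : S2 →L[ℂ] Completion D :=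
  ∑ I, ∑ J, w I J ∘L (hD i1 I * hD i2 J)
/-- `w(C κ, C κ')` -/
def wcc (w : I2 → I2 → S2 →L[ℂ] Completion D) (κ κ' : I3) : S2 →L[ℂ] Completion D :=
  ∑ I, ∑ J, w I J ∘L (aD i1 κ I * aD i2 κ' J)

/-- families of multiplets that are covariant up to shifts and multiples of the vacuum -/
structure CovL (Q : Theory D) (k : ℕ) (d : ℝ) (J : ℕ)
    (O : ℝ → (Fin k → Ix) → Sch →L[ℂ] Completion D) : Prop where
  cov : ∀ τ μ s L a (f g : Sch), 0 < s → IsLor L → (∀ x, g x = f (sim s L a x)) → ∃ κ : ℂ,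
    O (τ + Real.log s) μ f = ∑ ν : Fin k → Ix, ((s ^ (4 - d) * ∏ i, L (ν i) (μ i) : ℝ) : ℂ) •
      Ue Q s L a (O τ ν g) + κ • om Q
  pol : ∀ μ f, IsPol J fun τ => O τ μ f - inner ℂ (om Q) (O τ μ f) • om Q

/-- the algebraic properties of the overlaps -/
structure Pi6 (N : ℕ) (d : ℤ) (π : Ix → Ix → (Fin N → Ix) → MvPolynomial Ix ℂ) : Prop where
  hom : ∀ r s μ, (π r s μ).IsHomogeneous d.toNat ∧ (d < 0 → π r s μ = 0)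
  sym : ∀ r s μ, π r s μ = π s r μ
  con : ∀ s μ, ∑ r, MvPolynomial.C (eta r : ℂ) * MvPolynomial.X r * π r s μ = 0
  dvd : ∀ r s k μ, mup ∣ π r s μ * MvPolynomial.X k - π k s μ * MvPolynomial.X r
  cov : ∀ r s μ L p, IsLor L → evp (π r s μ) (sim 1 L 0 p) = ∑ k, ∑ l, ∑ ν : Fin N → Ix,
    ((L k r * L l s * ∏ i, L (ν i) (μ i) : ℝ) : ℂ) * evp (π k l ν) p

namespace Ctx

variable (c : Ctx D)

/-- `W F = Θ(∂_a² F) + 3 T_aa(□ F)` -/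
def Wf (F : Fn) (v : D) : D := c.Tf (hW F) v
def Wv (F : Fn) : Completion D := (c.Wf F c.Q.vac : D)
/-- the Cotton components -/
def Cf (κ : I3) (f : Fn) (v : D) : D := c.Tf (hA κ f) v
def Cv (κ : I3) (f : Fn) : Completion D := (c.Cf κ f c.Q.vac : D)
/-- `⟨T(W T^J W)⟩` -/
def tw (J : I2) : S3 →L[ℂ] ℂ := ∑ I, ∑ K, c.t I J K ∘L (hD j1 I * hD j3 K)
/-- `⟨T(W T_aa W)⟩` -/
def tw0 : S3 →L[ℂ] ℂ := ∑ J, ((la J.1 * la J.2 : ℝ) : ℂ) • c.tw J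
/-- `⟨T(W Θ W)⟩` -/
def twh : S3 →L[ℂ] ℂ := ∑ J, (gm J : ℂ) • c.tw J
/-- `⟨T(W W W)⟩` -/
def tww : S3 →L[ℂ] ℂ := ∑ J, c.tw J ∘L hD j2 J
/-- the plane form for the legs `W` -/
abbrev PFW : Fn → Fn → ℂ := Z.PFg c.Q c.SK c.Wv
/-- the form of `K - 2 x.M + |x|^2 P` -/
def AbW (f : P3 → ℝ) (φ : ℝ → ℝ) (ψ : Completion D) : ℂ :=
  inner ℂ (c.Wv (pr f φ)) (gen c.SK ψ) -
    2 * ∑ i, inner ℂ (c.Wv (pr (fun y => y.2 i * f y) φ)) (gen (Mi c.Q i) ψ) +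
    inner ℂ (c.Wv (pr (fun y => d2 y.2 y.2 * f y) φ)) (gen (Pa c.Q) ψ)

/-- on closed sources the products do not depend on the member -/
def Clo (w : ℝ → ℝ → I2 → I2 → S2 →L[ℂ] Completion D) : Prop := ∀ α β κ κ' κ'' f N, IsTest f →
  inner ℂ (c.Cv κ f) (wcc (w α α) κ' κ'' N) = inner ℂ (c.Cv κ f) (wcc (w β β) κ' κ'' N)

/-- locality of the pair `wp`, `wm` relative to `T` -/
def Cmp (wp wm : ℝ → ℝ → I2 → I2 → S2 →L[ℂ] Completion D) : Prop :=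
  ∀ α, ∀ x y : V, mdot (x - y) (x - y) < 0 → ∃ d > 0,
  ∀ (I J K : I2) (f : Sch) (G G' : S2), tsupport f ⊆ Metric.ball x d →
    tsupport G ⊆ Metric.ball (y, y) d → (∀ z, G' z = star (G z)) →
    inner ℂ ((c.TT α I.1 I.2 (bar (ev f)) c.Q.vac : D) : Completion D) (wp α α J K G) =
      inner ℂ (wm α α J K G') ((c.TT α I.1 I.2 (ev f) c.Q.vac : D) : Completion D)

/-- `ell` is the isometry of the traceless part: `ell (ft (∂_a² g)) = t_aa(g) Ω` -/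
structure Elt (ell : (V → ℂ) → Completion D) (c0 : ℝ) : Prop where
  el : Z.Ell0 c.Q c.bt c.S0 ell c0
  taa : ∀ x g, IsTest g →
    ell (ft (Z.daa g)) = (c.sh x).Tv (hk va va g) + (c.sh x).l (Z.daa g)

end Ctx

variable (c : Ctx D)

/-! ## level 2 -/

/-- row TWO: the two point function, uniformly in the member (helper89) -/
def TWO : Prop := ∀ d : ℝ, 0 < d → ∃ C : ℝ, 0 ≤ C ∧ ∀ x h k f, IsTest f →
  c.nu ((c.sh x).Tv (hk h k f)) ≤ (volume.restrict Fc).withDensity fun p => ENNReal.ofReal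
    (C * ((Real.exp (2 * (c.tau + x)) * mu p) ^ d + (Real.exp (2 * (c.tau + x)) * mu p) ^ (-d)) *
      nn p h * nn p k * ‖ft f p‖ ^ 2)

/-- row POLY: overlaps of `T` with covariant families (helper89) -/
def POLY : Prop := ∀ (N : ℕ) (d : ℤ) (J : ℕ) (O : ℝ → (Fin N → Ix) → Sch →L[ℂ] Completion D),
  CovL c.Q N d J O → Even (d - N) → ∀ τ, ∃ (n : ℕ)
    (π : ℕ → Ix → Ix → (Fin N → Ix) → MvPolynomial Ix ℂ), (∀ j, Pi6 N d (π j)) ∧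
  ∀ r s μ (f' f : Sch), inner ℂ ((c.T r s (ev f') c.Q.vac : D) : Completion D) (O τ μ f) =
    ∫ p in Fc, (∑ j ∈ Finset.range n, (Real.log (mu p) : ℂ) ^ j * evp (π j r s μ) p) *
      (conj (ft (ev f') p) * ft (ev f) p)

/-- row NS2: families of dimension at most three are orthogonal to closed sources (helper89) -/
def NS2 : Prop := ∀ (N : ℕ) (d : ℤ) (J : ℕ) (O : ℝ → (Fin N → Ix) → Sch →L[ℂ] Completion D),
  CovL c.Q N d J O → d ≤ 3 → Even (d - N) → ∀ F τ μ f, (∀ m n, IsTest (F m n)) → RR F = 0 →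
    inner ℂ (c.Tv F) (O τ μ f) = 0

/-- row STRUCT: the contact terms of the divergence (helper92) -/
def STRUCT : Prop := ∀ e w, TP2 c.Q c.TT e w → ∀ a b : ℝ, ∃ (k0 J : ℕ)
  (O : (k : ℕ) → ℝ → (Fin (k + 3) → Ix) → Sch →L[ℂ] Completion D),
  (∀ k, CovL c.Q (k + 3) (5 - k) J (O k)) ∧
  (∀ k τ n J (γ : Fin k → Ix) (σ : Equiv.Perm (Fin k)),
    O k τ (ix3 n J (γ ∘ σ)) = O k τ (ix3 n J γ) ∧ O k τ (ix3 n J.swap γ) = O k τ (ix3 n J γ)) ∧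
  ∀ τ n J (G : S2), HasCompactSupport G → ∃ κ : ℂ, dv1 (w (τ + a) (τ + b)) n J G =
    ∑ k ∈ Finset.range (k0 + 1), ∑ γ : Fin k → Ix, ((k.factorial : ℂ)⁻¹) •
      O k τ (ix3 n J γ) (dg γ G) + κ • c.Om

/-- level 2 -/
structure T2 : Prop extends TA c where
  two : TWO c
  poly : POLY c
  ns2 : NS2 c
  struct : STRUCT c

/-! ## level 3 -/

/-- row TP0: time ordered products with mixed legs exist (helper14) -/
def TP0 : Prop := ∃ w, TP2 c.Q c.TT true w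

/-- row PART: the members differ by improvement terms (helper97) -/
def PART : Prop := ∀ x F, (∀ m n, IsTest (F m n)) →
  (c.sh x).Tv F - c.Tv F = c.l (RR F) - (c.sh x).l (RR F)

/-- row WX: on closed sources the field does not depend on the member (helper97) -/
def WX : Prop := ∀ x F v, (∀ m n, IsTest (F m n)) → RR F = 0 → (c.sh x).Tf F v = c.Tf F v

/-- row ELT (helper89) -/
def ELT : Prop := ∃ ell c0, c.Elt ell c0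

/-- row GOODW: not needed (replaced by `CK.goodt`) -/
def GOODW (c : Ctx D) : Prop := True

/-- all tools for one member -/
structure T3' : Prop extends T2 c where
  part : PART c
  wx : WX c
  elt : ELT c
  goodw : GOODW c

/-- all tools: for `c` and for all members -/
structure T3 : Prop extends T3' c where
  all : All T3' c

theorem T3.sh {c : Ctx D} (t : T3 c) (x : ℝ) : T3 (c.sh x) := ⟨t.all x, t.all.sh x⟩

/-- row TP1: products of two components, compatible with closed sources (helper14) -/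
def TP1 : Prop := ∃ wp wm, TP2 c.Q c.TT true wp ∧ TP2 c.Q c.TT false wm ∧ c.Cmp wp wm ∧
  c.Clo wp ∧ c.Clo wm

/-- row T3P (helper15) -/
def T3P : Prop := ∀ wp wm, TP2 c.Q c.TT true wp → TP2 c.Q c.TT false wm → c.Cmp wp wm →
  ∃ t, TP c.Q c.TT wp wm t

/-- the products of the context are compatible with closed sources -/
def KK : Prop := c.Clo c.Wp ∧ c.Clo c.Wm

/-! ## block B (helper68) -/

/-- `K` is the second moment of the null energy, for the member `τ L` -/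
def BBg (τ : ℝ → ℝ) : Prop := ∀ (u0 d0 : ℝ) y1 r1 y2 r2 X X' (χ : ℝ → ℝ) κ ρ (y : R2), 0 < d0 →
  0 < r1 → 0 < r2 → dc y1 r1 ⊆ {z | be z < -u0 ∧ d0 < al z} →
  dc y2 r2 ⊆ {z | be z < -u0 ∧ d0 < al z} →
  X ∈ c.N (dc y1 r1) → c.Good X → X' ∈ c.N (dc y2 r2) → c.Good X' → ContDiff ℝ ∞ χ →
  (∀ t, t ≤ -d0 / 2 → χ t = 0) → (∀ t, d0 / 2 ≤ t → χ t = 1) → Cut κ → Tst ρ →
  tsupport ρ ⊆ Set.Ioo (-u0) u0 →
  Tendsto (fun L => (c.sh (τ L)).om2 (jconj c.J X' (X c.Om)) (star X (star (jconj c.J X') c.Om)) χ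
      (hk va va (pr (fun q => d2 (q.2 - y) (q.2 - y) * kL κ L q) ρ))) atTop
    (𝓝 (∫ u, (ρ u : ℂ) * inner ℂ (star (jconj c.J X') c.Om)
      (gen (c.Ky (tv y + u • vb)) (X c.Om))))

/-- row BB, fixed member -/
abbrev BB : Prop := BBg c fun _ => 0
/-- row BB, running member -/
abbrev BBrun : Prop := BBg c fun L => Real.log L / 2

/-- row BPW: the same with the field `W` above the plane -/
def BPW : Prop := ∀ (u0 d0 : ℝ) y1 r1 X f1 κ ρ (y : R2), 0 < d0 → 0 < r1 →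
  dc y1 r1 ⊆ {z | be z < -u0 ∧ d0 < al z} → X ∈ c.N (dc y1 r1) → c.Good X →
  In {z | u0 < be z ∧ al z < -d0} f1 → Cut κ → Tst ρ → tsupport ρ ⊆ Set.Ioo (-u0) u0 →
  Tendsto (fun L => inner ℂ ((c.Tf (hk va va (pr (fun q => d2 (q.2 - y) (q.2 - y) * kL κ L q) ρ))
      (c.Wf (bar f1) c.Q.vac) : D) : Completion D) (X c.Om)) atTop
    (𝓝 (∫ u, (ρ u : ℂ) * inner ℂ (c.Wv (bar f1)) (gen (c.Ky (tv y + u • vb)) (X c.Om))))

/-! ## block RES (helper15, helper92) -/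

/-- row RESW: the residue of `⟨T(W W W)⟩` on `PhW` vanishes -/
def RESW : Prop := ∀ (ρ1 κ2 κ3 : P3 → ℝ) (ρ2 θ1 θ3 : ℝ → ℝ) (G : S3), Tst ρ1 → Tst κ2 → Tst κ3 →
  Tst ρ2 → Tst θ1 → Tst θ3 → (∀ y ∈ tsupport ρ1, (∀ᶠ x in 𝓝 y, κ2 x = 1) ∧ ∀ᶠ x in 𝓝 y, κ3 x = 1) →
  (∀ t ∈ tsupport ρ2, (∀ᶠ x in 𝓝 t, θ1 x = 1) ∧ ∀ᶠ x in 𝓝 t, θ3 x = 1) →
  (∀ z1 z2 z3, G (z1, z2, z3) = ((PhW z1 z2 z3 * ρ1 (pl z1) * ρ2 (be z2) *
    (2 * (be z1 - be z2) * deriv θ1 (be z1) * θ3 (be z3) * κ2 (pl z2) * κ3 (pl z3) +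
      2 * (be z3 - be z2) * θ1 (be z1) * deriv θ3 (be z3) * κ2 (pl z2) * κ3 (pl z3) +
      θ1 (be z1) * θ3 (be z3) * dx κ2 (pl z2) (tx z2 - tx z1) * κ3 (pl z3) +
      θ1 (be z1) * θ3 (be z3) * κ2 (pl z2) * dx κ3 (pl z3) (tx z3 - tx z1)) : ℝ) : ℂ)) →
  c.tww G = 0

/-! ## block EV (helper72: FAR, RESL, IX, CONT; helper57: CONM, CONK) -/

/-- row FAR: far parts of the plane, and both legs on one side -/
structure FAR : Prop where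
  far : ∀ (κ : P3 → ℝ) (ρ : ℝ → ℝ) (Ψ : V × V → ℂ), Tst κ → (0 : P3) ∉ tsupport κ → Tst ρ → Dc Ψ →
    Tendsto (fun L : ℝ => (L : ℂ) * c.tw0 (sch fun z : V × V × V =>
      Ψ (z.1, z.2.2) * pr (kL κ L) ρ z.2.1)) atTop (𝓝 0)
  farh : ∀ (κ : P3 → ℝ) (ρ : ℝ → ℝ) (Ψ : V × V → ℂ), Tst κ → (0 : P3) ∉ tsupport κ → Tst ρ → Dc Ψ →
    Tendsto (fun L : ℝ => c.twh (sch fun z : V × V × V =>
      Ψ (z.1, z.2.2) * pr (kL κ L) ρ z.2.1)) atTop (𝓝 0)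
  side : ∀ (u0 : ℝ) (κ : P3 → ℝ) (ρ : ℝ → ℝ) (Ψ : V × V → ℂ), Tst κ → Tst ρ → Dc Ψ →
    tsupport ρ ⊆ Set.Ioo (-u0) u0 →
    (tsupport Ψ ⊆ {z | be z.1 < -u0 ∧ be z.2 < -u0} ∨ tsupport Ψ ⊆ {z | u0 < be z.1 ∧ u0 < be z.2}) →
    Tendsto (fun L : ℝ => (L : ℂ) * c.tw0 (sch fun z : V × V × V =>
      Ψ (z.1, z.2.2) * pr (kL κ L) ρ z.2.1)) atTop (𝓝 0)

/-- row RESL (from RESW and FAR): the residue with the middle leg `T_aa` on the whole plane -/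
def RESL : Prop := ∀ (ρ1 κ κ3 : P3 → ℝ) (ρ2 θ1 θ3 : ℝ → ℝ), Tst ρ1 → Cut κ → Tst κ3 →
  Tst ρ2 → Tst θ1 → Tst θ3 → (∀ y ∈ tsupport ρ1, ∀ᶠ x in 𝓝 y, κ3 x = 1) →
  (∀ t ∈ tsupport ρ2, (∀ᶠ x in 𝓝 t, θ1 x = 1) ∧ ∀ᶠ x in 𝓝 t, θ3 x = 1) →
  Tendsto (fun L : ℝ => c.tw0 (sch fun z : V × V × V => ((Ph6 z.1 z.2.1 z.2.2 * ρ1 (pl z.1) *
    ρ2 (be z.2.1) * kL κ L (pl z.2.1) *
    (2 * (be z.1 - be z.2.1) * deriv θ1 (be z.1) * θ3 (be z.2.2) * κ3 (pl z.2.2) +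
      2 * (be z.2.2 - be z.2.1) * θ1 (be z.1) * deriv θ3 (be z.2.2) * κ3 (pl z.2.2) +
      θ1 (be z.1) * θ3 (be z.2.2) * dx κ3 (pl z.2.2) (tx z.2.2 - tx z.1)) : ℝ) : ℂ))) atTop (𝓝 0)

/-- row IX: the transverse boundary of the third leg -/
def IX : Prop := ∃ N : ℕ, ∀ (ρ1 κ : P3 → ℝ) (k θ ρ : ℝ → ℝ) (k' : R2 → ℝ), Tst ρ1 → Cut κ →
  Tst k → Tst θ → Tst ρ → Tst k' → (∀ j ≤ N, ∫ t, t ^ j * k t = 0) →
  (∀ y ∈ tsupport ρ1, ∀ᶠ x in 𝓝 y.2, k' x = 1) → tsupport ρ ⊆ Set.Icc (-1) 1 →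
  ∀ η > 0, ∀ᶠ ε in 𝓝[>] (0 : ℝ), ∀ δ ∈ Set.Ioc 0 ε, ∀ᶠ L in atTop,
    ‖c.tw0 (sch fun z : V × V × V => ((Ph6 z.1 z.2.1 z.2.2 * ρ1 (pl z.1) * dlt δ ρ (be z.2.1) *
      (dil ε θ (be z.1) * dil ε θ (be z.2.2) * kL κ L (pl z.2.1) *
        dx (k3 k k') (pl z.2.2) (tx z.2.2 - tx z.1)) : ℝ) : ℂ))‖ ≤ η

/-- row CONM: the first moments -/
def CONM : Prop := ∀ w (κ f : P3 → ℝ) (ρ θ1 θ : ℝ → ℝ) (f3 : Fn) (i : Fin 2),
  TP2 c.Q c.TT false w → Cut κ → Tst f → Tst ρ → tsupport ρ ⊆ Set.Icc (-1 / 2) (1 / 2) → Tst θ1 →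
  Bump θ → In {z | be z < 0} f3 → ∀ η > 0, ∀ᶠ δ in 𝓝[>] (0 : ℝ), ∀ᶠ L in atTop,
    ‖inner ℂ (ww0 (w c.tau c.tau) (pairF (fun x => x i) κ f ρ θ1 δ L)) (c.Wv f3) - (∫ t, ρ t : ℝ) *
      (inner ℂ (c.Wv (pr f (abv θ1 θ δ))) (gen (Mi c.Q i) (c.Wv f3)) -
        inner ℂ (c.Wv (pr (fun y => y.2 i * f y) (abv θ1 θ δ))) (gen (Pa c.Q) (c.Wv f3)))‖ ≤ η

/-- row CONK: the second moment -/
def CONK : Prop := ∀ w (κ f : P3 → ℝ) (ρ θ1 θ : ℝ → ℝ) (f3 : Fn),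
  TP2 c.Q c.TT false w → Cut κ → Tst f → Tst ρ → tsupport ρ ⊆ Set.Icc (-1 / 2) (1 / 2) → Tst θ1 →
  Bump θ → In {z | be z < 0} f3 → ∀ η > 0, ∀ᶠ δ in 𝓝[>] (0 : ℝ), ∀ᶠ L in atTop,
    ‖inner ℂ (ww0 (w c.tau c.tau) (pairF (fun x => d2 x x) κ f ρ θ1 δ L)) (c.Wv f3) -
      (∫ t, ρ t : ℝ) * c.AbW f (abv θ1 θ δ) (c.Wv f3)‖ ≤ η

/-- row CONT: the faces -/
structure CONT : Prop where
  lo : ∀ (κ f g : P3 → ℝ) (ρ θ1 θ φ : ℝ → ℝ), Cut κ → Tst f → Tst g → Tst ρ →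
    tsupport ρ ⊆ Set.Icc (-1 / 2) (1 / 2) → Tst θ1 → Bump θ → Tst φ → tsupport φ ⊆ Set.Iio 0 →
    (∀ η > 0, ∀ᶠ δ in 𝓝[>] (0 : ℝ), ∀ᶠ L in atTop, ‖c.tw0 (triF κ f g ρ θ1 φ δ L) -
      (∫ t, ρ t : ℝ) * c.PFW (pr f (abv θ1 θ δ)) (pr g φ)‖ ≤ η) ∧
    Tendsto (fun δ : ℝ => (δ : ℂ) * c.PFW (pr f (abv θ1 θ δ)) (pr g φ)) (𝓝[>] 0) (𝓝 0)
  hi : ∀ (κ f g : P3 → ℝ) (ρ θ1 θ φ : ℝ → ℝ), Cut κ → Tst f → Tst g → Tst ρ →
    tsupport ρ ⊆ Set.Icc (-1 / 2) (1 / 2) → Tst θ1 → Bump θ → Tst φ → tsupport φ ⊆ Set.Ioi 0 →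
    (∀ η > 0, ∀ᶠ δ in 𝓝[>] (0 : ℝ), ∀ᶠ L in atTop, ‖c.tw0 (triF κ f g ρ θ1 φ δ L) -
      (∫ t, ρ t : ℝ) * c.PFW (pr g φ) (pr f (blw θ1 θ δ))‖ ≤ η) ∧
    Tendsto (fun δ : ℝ => (δ : ℂ) * c.PFW (pr g φ) (pr f (blw θ1 θ δ))) (𝓝[>] 0) (𝓝 0)

/-! ## block Z (helper55) and block GEO (helper69) -/

/-- row FZ: the faces tend to zero -/
abbrev FZ : Prop := Z.FZ c.PFW

/-- the defect of locality of `ell ∘ ft` -/
def bbt (c : Base D) (ell : (V → ℂ) → Completion D) (Z : Completion D →L[ℂ] Completion D)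
    (f : Fn) : ℂ := inner ℂ (star Z c.Om) (ell (ft f)) - inner ℂ (ell (ft (bar f))) (Z c.Om)

/-- row D1: the trace of the defect of `ell ∘ ft` on the null plane vanishes -/
def D1 : Prop := ∀ ell c0, c.Elt ell c0 → ∃ (Φ : ℕ → ℝ → ℝ) (C : ℝ), (∀ n, Tst (Φ n) ∧
    tsupport (Φ n) ⊆ Set.Ioo (-(1 / ((n : ℝ) + 1))) 0 ∧ ∫ t, Φ n t = 1 ∧ ∫ t, |Φ n t| ≤ C) ∧
  Tendsto (fun n => ∫ t, (t * Φ n t) ^ 2) atTop (𝓝 0) ∧
  ∀ r, 0 ≤ r → ∀ Z ∈ (c.N (Rc r 0)).commutant, ∀ g : P3 → ℂ, Dc g →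
    tsupport g ⊆ {y | r * d2 y.2 y.2 < y.1} →
    Tendsto (fun n => bbt c ell Z (dv va (pf g (cx (Φ n))))) atTop (𝓝 0)

/-- row DD: the potential is local in forward cut cones -/
def DD : Prop := ∀ a b r y f, IsNull a → IsNull b → mdot a b = 1 → 0 < r →
  In {z | z - y ∈ HM.Rg a b r} f →
  Pr (c.N {z | z - y ∈ HM.Rg a b r}) c.Om (c.l f) (c.l (bar f))

/-- row EE: `K(u) - 2 u^2 P_b` is affine -/
def EE (c : Base D) : Prop := ∀ (lo hi : ℝ) ψ, (∀ u ∈ Set.Ioo lo hi, Dm (c.Ky (u • vb)) ψ) →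
  Dm (Pb c.Q) ψ → ∃ k0 k1, ∀ u ∈ Set.Ioo lo hi,
    gen (c.Ky (u • vb)) ψ = k0 + (u : ℂ) • k1 + ((2 * u ^ 2 : ℝ) : ℂ) • gen (Pb c.Q) ψ

/-! ## the dependency graph -/

/-- the rows; every row is stated for all contexts -/
structure Rows (D : Type*) [NormedAddCommGroup D] [InnerProductSpace ℂ D] : Prop where
  ta : ∀ c : Ctx D, TA c
  two : ∀ c : Ctx D, All TA c → TWO c
  poly : ∀ c : Ctx D, All TA c → POLY c
  ns2 : ∀ c : Ctx D, All TA c → NS2 c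
  struct : ∀ c : Ctx D, All TA c → STRUCT c
  tp0 : ∀ c : Ctx D, All T2 c → TP0 c
  part : ∀ c : Ctx D, All T2 c → TP0 c → PART c
  wx : ∀ c : Ctx D, All T2 c → PART c → WX c
  elt : ∀ c : Ctx D, All T2 c → PART c → ELT c
  goodw : ∀ c : Ctx D, All T2 c → GOODW c
  tp1 : ∀ c : Ctx D, T3 c → TP1 c
  t3p : ∀ c : Ctx D, T3 c → T3P c
  bb : ∀ c : Ctx D, T3 c → BB c
  bbrun : ∀ c : Ctx D, T3 c → BBrun c
  bpw : ∀ c : Ctx D, T3 c → BB c → BPW c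
  resw : ∀ (c : Ctx D) [Fact c.tp], T3 c → KK c → RESW c
  far : ∀ (c : Ctx D) [Fact c.tp], T3 c → FAR c
  resl : ∀ (c : Ctx D) [Fact c.tp], T3 c → FAR c → RESW c → RESL c
  ix : ∀ (c : Ctx D) [Fact c.tp], T3 c → FAR c → IX c
  conm : ∀ c : Ctx D, T3 c → CONM c
  conk : ∀ c : Ctx D, T3 c → All BPW c → CONK c
  cont : ∀ (c : Ctx D) [Fact c.tp], T3 c → FAR c → CONM c → CONK c → CONT c
  fz : ∀ (c : Ctx D) [Fact c.tp], T3 c → RESL c → IX c → CONT c → FZ c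
  d1 : ∀ c : Ctx D, T3 c → FZ c → D1 c
  dd : ∀ c : Ctx D, T3 c → D1 c → All DD c
  ee : ∀ c : Ctx D, T3 c → BBrun c → All DD c → EE c.toBase

variable {c}

theorem Rows.t2 (r : Rows D) (c : Ctx D) : T2 c :=
  have a : All TA c := fun x => r.ta _
  ⟨r.ta c, r.two c a, r.poly c a, r.ns2 c a, r.struct c a⟩

theorem Rows.t3' (r : Rows D) (c : Ctx D) : T3' c :=
  have a : All T2 c := fun x => r.t2 _
  have p := r.part c a (r.tp0 c a)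
  ⟨r.t2 c, p, r.wx c a p, r.elt c a p, r.goodw c a⟩

theorem Rows.t3 (r : Rows D) (c : Ctx D) : T3 c := ⟨r.t3' c, fun x => r.t3' _⟩

theorem Rows.ee0 (r : Rows D) (c : Ctx D) [Fact c.tp] (k : KK c) : EE c.toBase :=
  have t := r.t3 c
  have far := r.far c t
  r.ee c t (r.bbrun c t) (r.dd c t (r.d1 c t (r.fz c t (r.resl c t far (r.resw c t k))
    (r.ix c t far) (r.cont c t far (r.conm c t)
      (r.conk c t fun x => r.bpw _ (r.t3 _) (r.bb _ (r.t3 _)))))))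

/-- **the rows give EE** -/
theorem Rows.main (r : Rows D) (c : Ctx D) : EE c.toBase := by
  obtain ⟨wp, wm, h1, h2, h3, h4, h5⟩ := r.tp1 c (r.t3 c)
  obtain ⟨t, ht⟩ := r.t3p c (r.t3 c) wp wm h1 h2 h3
  let c' : Ctx D := { c with Wp := wp, Wm := wm, Tt := t, tp := True, hTP0 := fun _ => ht }
  haveI : Fact c'.tp := ⟨trivial⟩
  exact r.ee0 c' ⟨h4, h5⟩

end

end Vale.Agent.P352L
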