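import Vale.Agent.P352X.Api3b
import Mathlib.Analysis.SpecialFunctions.Pow.Integral
import Mathlib.Analysis.SpecialFunctions.JapaneseBracket
import Mathlib.Analysis.SpecialFunctions.ImproperIntegrals

/-!
# P352L: integrals over the forward cone with the weight `x ^ (1/4) + x ^ (-1/4)` (helper98)
-/

set_option linter.all false

open MeasureTheory Filter Topology Set

namespace Vale.Agent.P352L.Wt

open Vale.Agent.P352 Vale.Agent.P352.GF Vale.Agent.P352.BW Vale.Agent.P352.H496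
open Vale.Agent.P352.H755 Vale.Agent.P352X

noncomputable section

/-- the weight that dominates all powers of the logarithm -/
def Lm (x : ℝ) : ℝ := x ^ (1 / 4 : ℝ) + x ^ (-(1 / 4) : ℝ)

variable {x y s t : ℝ}

theorem Lm_pos (hx : 0 < x) : 0 < Lm x :=
  add_pos (Real.rpow_pos_of_pos hx _) (Real.rpow_pos_of_pos hx _)

theorem Lm_nonneg (hx : 0 ≤ x) : 0 ≤ Lm x :=
  add_nonneg (Real.rpow_nonneg hx _) (Real.rpow_nonneg hx _)

@[fun_prop] theorem meas_Lm : Measurable Lm := by unfold Lm; fun_prop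

theorem Lm_mul (hx : 0 < x) (hy : 0 < y) : Lm (x * y) ≤ Lm x * Lm y := by
  have a1 := Real.rpow_pos_of_pos hx (1 / 4)
  have a2 := Real.rpow_pos_of_pos hx (-(1 / 4))
  have a3 := Real.rpow_pos_of_pos hy (1 / 4)
  have a4 := Real.rpow_pos_of_pos hy (-(1 / 4))
  rw [Lm, Lm, Lm, Real.mul_rpow hx.le hy.le, Real.mul_rpow hx.le hy.le]
  nlinarith [mul_pos a1 a4, mul_pos a2 a3]

theorem Lm_small (hx : 0 < x) (h : x ≤ 1) : Lm x ≤ 2 * x ^ (-(1 / 4) : ℝ) := by
  have := Real.rpow_le_rpow_of_exponent_ge hx h (show (-(1 / 4) : ℝ) ≤ 1 / 4 by norm_num)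
  rw [Lm]
  linarith

theorem Lm_large (h : 1 ≤ x) : Lm x ≤ 2 * x ^ (1 / 4 : ℝ) := by
  have := Real.rpow_le_rpow_of_exponent_le h (show (-(1 / 4) : ℝ) ≤ 1 / 4 by norm_num)
  rw [Lm]
  linarith

theorem Lm_inv (hx : 0 < x) : Lm x⁻¹ = Lm x := by
  rw [Lm, Lm, Real.inv_rpow hx.le, Real.inv_rpow hx.le, ← Real.rpow_neg hx.le,
    ← Real.rpow_neg hx.le, neg_neg, add_comm]

theorem Lm_le (hx : 0 < x) : Lm x ≤ 2 * (1 + x) * x ^ (-(1 / 4) : ℝ) := by
  have p := Real.rpow_pos_of_pos hx (-(1 / 4))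
  rcases le_total x 1 with h | h
  · exact (Lm_small hx h).trans (by nlinarith [mul_pos hx p])
  · have e : x ^ (1 / 4 : ℝ) ≤ x * x ^ (-(1 / 4) : ℝ) := by
      rw [← Real.rpow_one_add' hx.le (by norm_num)]
      exact Real.rpow_le_rpow_of_exponent_le h (by norm_num)
    exact (Lm_large h).trans (by nlinarith)

/-- the weight of a fixed member against the weight of the running member -/
theorem Lm_fix (hs : 0 < s) (h1 : s ≤ 1) (hx : 0 < x) :
    Lm x ≤ (2 * s ^ (-(1 / 8) : ℝ)) ^ 2 * Lm (s * x) := by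
  have h := Lm_mul (inv_pos.2 hs) (mul_pos hs hx)
  rw [inv_mul_cancel_left₀ hs.ne', Lm_inv hs] at h
  refine h.trans (mul_le_mul_of_nonneg_right ((Lm_small hs h1).trans ?_)
    (Lm_pos (mul_pos hs hx)).le)
  rw [mul_pow, ← Real.rpow_natCast (s ^ _), ← Real.rpow_mul hs.le]
  have := Real.rpow_pos_of_pos hs (-(1 / 4))
  norm_num
  norm_num at this
  linarith

/-- the profile -/
def B1 (t : ℝ) : ℝ := Lm t * ((1 + t) ^ 2)⁻¹

theorem B1_nonneg (ht : 0 ≤ t) : 0 ≤ B1 t := mul_nonneg (Lm_nonneg ht) (by positivity)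

@[fun_prop] theorem meas_B1 : Measurable B1 := by unfold B1; fun_prop

theorem int_B1 : IntegrableOn B1 (Ioi 0) := by
  rw [← Ioc_union_Ioi_eq_Ioi zero_le_one]
  refine IntegrableOn.union ?_ ?_
  · have := ((intervalIntegrable_iff_integrableOn_Ioc_of_le zero_le_one).1
      (intervalIntegral.intervalIntegrable_rpow' (a := 0) (b := 1)
        (show (-1 : ℝ) < -(1 / 4) by norm_num))).const_mul 2
    refine this.mono' meas_B1.aestronglyMeasurable ((ae_restrict_mem measurableSet_Ioc).mono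
      fun t ht => ?_)
    rw [Real.norm_of_nonneg (B1_nonneg ht.1.le)]
    refine (mul_le_of_le_one_right (Lm_nonneg ht.1.le) (inv_le_one_of_one_le₀
      (one_le_pow₀ (by linarith [ht.1])))).trans (Lm_small ht.1 ht.2)
  · have := (integrableOn_Ioi_rpow_of_lt (show (1 / 4 - 2 : ℝ) < -1 by norm_num) one_pos).const_mul 2
    refine this.mono' meas_B1.aestronglyMeasurable ((ae_restrict_mem measurableSet_Ioi).mono
      fun t (ht : 1 < t) => ?_)
    have t0 : 0 < t := by linarith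
    rw [Real.norm_of_nonneg (B1_nonneg t0.le), Real.rpow_sub t0, div_eq_mul_inv, ← mul_assoc,
      Real.rpow_two]
    exact mul_le_mul (Lm_large ht.le) (inv_anti₀ (by positivity)
      (pow_le_pow_left₀ t0.le (by linarith) 2)) (by positivity) (by positivity)

/-- the transverse weight -/
def w3 (q : R2) : ℝ := ((1 + ‖q‖) ^ 3)⁻¹

/-- the singular transverse weight -/
def ws (q : R2) : ℝ := ‖q‖ ^ (-(1 / 2) : ℝ) * w3 q

theorem w3_pos (q : R2) : 0 < w3 q := by unfold w3; positivity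

theorem ws_nonneg (q : R2) : 0 ≤ ws q := mul_nonneg (Real.rpow_nonneg (norm_nonneg _) _) (w3_pos q).le

@[fun_prop] theorem meas_w3 : Measurable w3 := by unfold w3; fun_prop

@[fun_prop] theorem meas_ws : Measurable ws := by unfold ws; fun_prop

theorem int_w3 : Integrable w3 := by
  have := integrable_one_add_norm (E := R2) (μ := volume) (r := (3 : ℕ)) (by simp; norm_num)
  refine this.congr (.of_forall fun y => ?_)
  simp only [w3]
  rw [Real.rpow_neg (by positivity), Real.rpow_natCast]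

theorem int_ws : Integrable ws := by
  rw [← integrableOn_univ, ← union_compl_self (Metric.ball (0 : R2) 1)]
  refine IntegrableOn.union (integrableOn_ball_of_norm_le_rpow (by simp) (C := 1) (α := 1 / 2)
    (by simp; norm_num) (.of_forall fun q => ?_) meas_ws.aestronglyMeasurable) ?_
  · rw [Real.norm_of_nonneg (ws_nonneg q), one_mul]
    exact mul_le_of_le_one_right (Real.rpow_nonneg (norm_nonneg _) _)
      (inv_le_one_of_one_le₀ (one_le_pow₀ (by linarith [norm_nonneg q])))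
  · refine int_w3.integrableOn.mono' meas_ws.aestronglyMeasurable
      ((ae_restrict_mem measurableSet_ball.compl).mono fun q hq => ?_)
    rw [Real.norm_of_nonneg (ws_nonneg q)]
    rw [mem_compl_iff, mem_ball_zero_iff, not_lt] at hq
    exact mul_le_of_le_one_left (w3_pos q).le (Real.rpow_le_one_of_one_le_of_nonpos hq (by norm_num))

/-! ## the cone -/

variable {p : V} {σ : ℝ}

theorem int_B1s (hs : 0 < s) : IntegrableOn (fun t => s * B1 (s * t)) (Ioi 0) ∧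
    ∫ t in Ioi 0, s * B1 (s * t) = ∫ t in Ioi 0, B1 t := by
  refine ⟨Integrable.const_mul ((integrableOn_Ioi_comp_mul_left_iff B1 0 hs).2
    (by simpa using int_B1)) s, ?_⟩
  rw [integral_const_mul, integral_comp_mul_left_Ioi B1 0 hs, mul_zero, smul_eq_mul,
    mul_inv_cancel_left₀ hs.ne']

theorem int_Fc_mul {g : P3 → ℝ} {φ : ℝ → ℝ} (hg : IntegrableOn g Pp) (hφ : IntegrableOn φ (Ioi 0)) :
    IntegrableOn (fun p => g (pm p) * φ (mu p / (2 * be p))) Fc :=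
  sc_pc.mul_int (ae_pc fun k hk t => by simp [mu_pc' _ hk.ne']) hg hφ

theorem y_pos (hp : p ∈ Fc) : 0 < mu p / (2 * be p) ∧ mu p / (2 * be p) ≤ al p := by
  obtain ⟨a, b⟩ := (mem_Fc p).1 hp
  refine ⟨by positivity, ?_⟩
  rw [al_eq_mu a.ne']
  exact sub_le_self _ (div_nonneg (d2_nonneg _) (by positivity))

/-- **thin slabs** -/
theorem thinI : ∃ K, 0 ≤ K ∧ ∀ s, 0 < s → ∃ F : V → ℝ, IntegrableOn F Fc ∧ ∫ p in Fc, F p = K ∧
    ∀ p ∈ Fc, s * Lm (s * mu p) * ((1 + ‖pm p‖) ^ 5)⁻¹ * ((1 + s * al p) ^ 2)⁻¹ ≤ F p := by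
  have i1 : IntegrableOn (fun k : P3 => Lm 2 * (B1 k.1 * w3 k.2)) Pp := by
    refine Integrable.const_mul ?_ _
    rw [vol_Pp]
    exact Integrable.mul_prod int_B1 int_w3
  refine ⟨(∫ k in Pp, Lm 2 * (B1 k.1 * w3 k.2)) * ∫ t in Ioi 0, B1 t, mul_nonneg
    (setIntegral_nonneg meas_Pp fun k (hk : 0 < k.1) => mul_nonneg (Lm_nonneg zero_le_two)
      (mul_nonneg (B1_nonneg hk.le) (w3_pos _).le))
    (setIntegral_nonneg measurableSet_Ioi fun t (ht : 0 < t) => B1_nonneg ht.le), fun s hs =>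
    ⟨_, int_Fc_mul i1 (int_B1s hs).1, ?_, fun p hp => ?_⟩⟩
  · rw [integral_Fc_mul (fun k : P3 => Lm 2 * (B1 k.1 * w3 k.2)) fun t => s * B1 (s * t),
      (int_B1s hs).2]
  obtain ⟨a, b⟩ := (mem_Fc p).1 hp
  obtain ⟨y0, y1⟩ := y_pos hp
  set y := mu p / (2 * be p) with hy
  have e : s * mu p = 2 * (be p * (s * y)) := by
    rw [hy]
    field_simp
  have sy := mul_pos hs y0
  have h1 : Lm (s * mu p) ≤ Lm 2 * (Lm (be p) * Lm (s * y)) := by
    rw [e]
    exact (Lm_mul two_pos (mul_pos a sy)).trans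
      (mul_le_mul_of_nonneg_left (Lm_mul a sy) (Lm_nonneg zero_le_two))
  have h2 : ((1 + ‖pm p‖) ^ 5)⁻¹ ≤ ((1 + be p) ^ 2)⁻¹ * w3 (tx p) := by
    rw [w3, ← mul_inv]
    refine inv_anti₀ (by positivity) ?_
    have k1 : be p ≤ ‖pm p‖ := (le_abs_self _).trans (norm_fst_le (pm p))
    have k2 : ‖tx p‖ ≤ ‖pm p‖ := norm_snd_le (pm p)
    calc _ ≤ (1 + ‖pm p‖) ^ 2 * (1 + ‖pm p‖) ^ 3 := by gcongr
      _ = _ := by ring
  have h3 : ((1 + s * al p) ^ 2)⁻¹ ≤ ((1 + s * y) ^ 2)⁻¹ :=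
    inv_anti₀ (by positivity) (by gcongr)
  have l1 := Lm_pos a
  have l2 := Lm_pos sy
  have l3 := Lm_pos two_pos
  have l4 := w3_pos (tx p)
  calc _ ≤ s * (Lm 2 * (Lm (be p) * Lm (s * y))) * (((1 + be p) ^ 2)⁻¹ * w3 (tx p)) *
        ((1 + s * y) ^ 2)⁻¹ := by gcongr
    _ = _ := by
      simp only [B1, pm_1, pm_2]
      ring

theorem ae_tx : ∀ᵐ p : V, tx p ≠ 0 := by
  have : volume (LinearMap.ker txL.toLinearMap : Set V) = 0 :=
    Measure.addHaar_submodule volume _ fun h => by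
      have : ex 0 ∈ LinearMap.ker txL.toLinearMap := h ▸ Submodule.mem_top
      have := congrFun ((tx_ex 0).symm.trans (show tx (ex 0) = 0 from this)) 0
      rw [e2_self] at this
      exact one_ne_zero this
  exact compl_mem_ae_iff.2 this

theorem lowA : ∃ K, 0 ≤ K ∧ ∀ σ, 0 < σ → ∃ F : V → ℝ, IntegrableOn F Fc ∧
    ∫ p in Fc, F p = K * σ ∧ (∀ p ∈ Fc, 0 ≤ F p) ∧ ∀ p ∈ Fc, tx p ≠ 0 → be p < σ →
      mu p ^ (-(1 / 4) : ℝ) * ((1 + al p) ^ 3)⁻¹ * w3 (tx p) ≤ F p := by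
  refine ⟨(∫ q, ws q) * ∫ t in Ioi 0, B1 t, mul_nonneg (integral_nonneg ws_nonneg)
    (setIntegral_nonneg measurableSet_Ioi fun t (ht : 0 < t) => B1_nonneg ht.le), fun σ hσ => ?_⟩
  have i0 : Integrable ((Iio σ).indicator (1 : ℝ → ℝ)) (volume.restrict (Ioi 0)) := by
    rw [integrable_indicator_iff measurableSet_Iio, IntegrableOn,
      Measure.restrict_restrict measurableSet_Iio, Iio_inter_Ioi]
    exact integrableOn_const (by simp)
  have i1 : IntegrableOn (fun k : P3 => (Iio σ).indicator (1 : ℝ → ℝ) k.1 * ws k.2) Pp := by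
    rw [IntegrableOn, vol_Pp]
    exact Integrable.mul_prod i0 int_ws
  refine ⟨_, int_Fc_mul i1 int_B1, ?_, fun p hp => mul_nonneg (mul_nonneg
    (indicator_nonneg (fun _ _ => zero_le_one) _) (ws_nonneg _)) (B1_nonneg (y_pos hp).1.le),
    fun p hp hq h => ?_⟩
  · rw [integral_Fc_mul (fun k : P3 => (Iio σ).indicator (1 : ℝ → ℝ) k.1 * ws k.2) B1, vol_Pp,
      integral_prod_mul ((Iio σ).indicator (1 : ℝ → ℝ)) ws,
      integral_indicator_one measurableSet_Iio, measureReal_restrict_apply measurableSet_Iio,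
      Iio_inter_Ioi, Real.volume_real_Ioo_of_le hσ.le]
    ring
  obtain ⟨a, b⟩ := (mem_Fc p).1 hp
  have a' := ((mem_Fc' p).1 hp).1
  obtain ⟨y0, y1⟩ := y_pos hp
  set y := mu p / (2 * be p) with hy
  have q0 : 0 < ‖tx p‖ := norm_pos_iff.2 hq
  have e : mu p = 2 * be p * y := by
    rw [hy]
    field_simp
  have h0 : ‖tx p‖ ^ 2 ≤ 2 * al p * be p := by linarith [norm_sq_le_d2 (tx p), mu_eq p]
  have h1 : y * (‖tx p‖ ^ 2 * (al p)⁻¹) ≤ mu p := by
    rw [e, mul_comm _ y, ← div_eq_mul_inv]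
    exact mul_le_mul_of_nonneg_left ((div_le_iff₀ a').2 (by linarith)) y0.le
  have h2 := Real.rpow_le_rpow_of_nonpos (by positivity) h1 (show (-(1 / 4) : ℝ) ≤ 0 by norm_num)
  rw [Real.mul_rpow y0.le (by positivity), Real.mul_rpow (by positivity) (by positivity),
    Real.inv_rpow a'.le, ← Real.rpow_neg a'.le, neg_neg, ← Real.rpow_natCast,
    ← Real.rpow_mul q0.le, show ((2 : ℕ) : ℝ) * -(1 / 4) = -(1 / 2) by norm_num] at h2
  have h3 : al p ^ (1 / 4 : ℝ) ≤ 1 + al p := by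
    rcases le_total (al p) 1 with k | k
    · linarith [Real.rpow_le_one a'.le k (show (0 : ℝ) ≤ 1 / 4 by norm_num)]
    · have := Real.rpow_le_rpow_of_exponent_le k (show (1 / 4 : ℝ) ≤ 1 by norm_num)
      rw [Real.rpow_one] at this
      linarith
  have h4 : y ^ (-(1 / 4) : ℝ) ≤ Lm y := le_add_of_nonneg_left (Real.rpow_nonneg y0.le _)
  have h5 : ((1 + al p) ^ 2)⁻¹ ≤ ((1 + y) ^ 2)⁻¹ := inv_anti₀ (by positivity) (by gcongr)
  have l1 := Lm_pos y0
  have l2 := w3_pos (tx p)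
  have l3 := Real.rpow_pos_of_pos q0 (-(1 / 2))
  calc _ ≤ Lm y * (‖tx p‖ ^ (-(1 / 2) : ℝ) * (1 + al p)) * ((1 + al p) ^ 3)⁻¹ * w3 (tx p) := by
        gcongr
        exact h2.trans (by gcongr)
    _ = Lm y * ‖tx p‖ ^ (-(1 / 2) : ℝ) * ((1 + al p) ^ 2)⁻¹ * w3 (tx p) := by
        field_simp
    _ ≤ Lm y * ‖tx p‖ ^ (-(1 / 2) : ℝ) * ((1 + y) ^ 2)⁻¹ * w3 (tx p) := by gcongr
    _ = _ := by
        simp only [pm_1, pm_2, indicator_of_mem (show be p ∈ Iio σ from h), Pi.one_apply, ws, B1]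
        ring

/-- the exchange of the two null directions -/
def sw (p : V) : V := pt (be p) (al p) (tx p)

theorem conf_sw : Conf sw 1 :=
  ⟨⟨fun x y => null_ext (by simp [sw]) (by simp [sw]) (by simp [sw]),
    fun t x => null_ext (by simp [sw]) (by simp [sw]) (by simp [sw])⟩, one_pos, fun x y => by
      simp only [mdot_null, sw, al_pt, be_pt, tx_pt]
      ring⟩

theorem mu_sw (p : V) : mu (sw p) = mu p := by simpa using conf_sw.mu_map p

theorem Fc_sw (p : V) : sw p ∈ Fc ↔ p ∈ Fc := by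
  rw [mem_Fc, mem_Fc', mu_sw, sw, be_pt]

theorem low_pt (hp : p ∈ Fc) {l : ℝ} (l0 : 0 ≤ l) (hl : l ≤ 2 * ‖p‖) :
    Lm (mu p) * ((1 + ‖p‖) ^ 8)⁻¹ ≤
      64 * (mu p ^ (-(1 / 4) : ℝ) * ((1 + l) ^ 3)⁻¹ * w3 (tx p)) := by
  have b := ((mem_Fc p).1 hp).2
  have n := norm_nonneg p
  have h1 : 1 + mu p ≤ 4 * (1 + ‖p‖) ^ 2 := by
    have := (le_abs_self _).trans (abs_mdot_le p p)
    rw [mu]
    nlinarith
  have h2 : ((1 + ‖p‖) ^ 3)⁻¹ ≤ 8 * ((1 + l) ^ 3)⁻¹ := by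
    rw [← div_eq_mul_inv, le_div_iff₀ (by positivity), inv_mul_le_iff₀ (by positivity)]
    calc _ ≤ (2 * (1 + ‖p‖)) ^ 3 := by gcongr; linarith
      _ = _ := by ring
  have h3 : ((1 + ‖p‖) ^ 3)⁻¹ ≤ w3 (tx p) :=
    inv_anti₀ (by positivity) (by gcongr; exact norm_tx_le p)
  have l1 := Real.rpow_pos_of_pos b (-(1 / 4))
  have l2 := w3_pos (tx p)
  calc _ ≤ 2 * (4 * (1 + ‖p‖) ^ 2) * mu p ^ (-(1 / 4) : ℝ) * ((1 + ‖p‖) ^ 8)⁻¹ := by
        gcongr
        exact (Lm_le b).trans (by gcongr)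
    _ = 8 * mu p ^ (-(1 / 4) : ℝ) * ((1 + ‖p‖) ^ 3)⁻¹ * ((1 + ‖p‖) ^ 3)⁻¹ := by
        field_simp
        ring
    _ ≤ 8 * mu p ^ (-(1 / 4) : ℝ) * (8 * ((1 + l) ^ 3)⁻¹) * w3 (tx p) := by gcongr
    _ = _ := by ring

/-- **small light cone momenta** -/
theorem lowI {l : V → ℝ} (hl : l = al ∨ l = be) : ∃ K, 0 ≤ K ∧ ∀ σ, 0 < σ → ∃ F : V → ℝ,
    IntegrableOn F Fc ∧ ∫ p in Fc, F p = K * σ ∧ (∀ p ∈ Fc, 0 ≤ F p) ∧
      ∀ p ∈ Fc, tx p ≠ 0 → l p < σ → Lm (mu p) * ((1 + ‖p‖) ^ 8)⁻¹ ≤ F p := by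
  obtain ⟨K, K0, h⟩ := lowA
  refine ⟨64 * K, by positivity, fun σ hσ => ?_⟩
  obtain ⟨F, h1, h2, h3, h4⟩ := h σ hσ
  rcases hl with rfl | rfl
  · have S := conf_sw.scF Fc_sw
    refine ⟨fun p => 64 * F (sw p), Integrable.const_mul (S.integrable.2 h1) _, ?_,
      fun p hp => mul_nonneg (by norm_num) (h3 _ ((Fc_sw p).2 hp)), fun p hp hq k => ?_⟩
    · rw [integral_const_mul, S.integral, h2]
      simp [mul_assoc]
    · have := h4 _ ((Fc_sw p).2 hp) (by simpa [sw] using hq) (by simpa [sw] using k)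
      rw [mu_sw] at this
      simp only [sw, al_pt, tx_pt] at this
      exact (low_pt hp ((mem_Fc p).1 hp).1.le ((le_abs_self _).trans (abs_be_le p))).trans
        (mul_le_mul_of_nonneg_left this (by norm_num))
  · refine ⟨fun p => 64 * F p, Integrable.const_mul h1 _, ?_,
      fun p hp => mul_nonneg (by norm_num) (h3 _ hp), fun p hp hq k => ?_⟩
    · rw [integral_const_mul, h2, mul_assoc]
    · exact (low_pt hp ((mem_Fc' p).1 hp).1.le ((le_abs_self _).trans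
        ((abs_al_le p).trans (by linarith [norm_nonneg p])))).trans
        (mul_le_mul_of_nonneg_left (h4 p hp hq k) (by norm_num))

end

end Vale.Agent.P352L.Wt
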