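import Vale.Agent.P352L.Mul
import Vale.Agent.P352L.Wt

/-!
# P352L: overlaps of conserved symmetric tensors with multiplets, with logarithms (helper89)
-/

set_option linter.all false

open MeasureTheory Measure Set Filter Topology
open scoped SchwartzMap ComplexConjugate NNReal ENNReal

namespace Vale.Agent.P352L.Two

open Vale.Agent.P352.GF Vale.Agent.P352.BW Vale.Agent.P352.H496 Vale.Agent.P352.H755
open Vale.Agent.P352.H246 (In linv isLor_linv)
open Vale.Agent.P352X Vale.Agent.P352X.Two Vale.Agent.P352X.Poly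
open UniformSpace (Completion)
open Finset (range)

noncomputable section

/-! ## integrals with logarithms -/

theorem int_Lm {F : V → ℂ} (hF : IsTest F) : IntegrableOn (fun p => Wt.Lm (mu p) * ‖F p‖) Fc := by
  obtain ⟨K, -, h⟩ := Wt.thinI
  obtain ⟨F0, h1, -, h2⟩ := h 1 one_pos
  obtain ⟨g, rfl⟩ := hF
  obtain ⟨C, hC⟩ : ∃ C, ∀ p, (1 + ‖p‖) ^ 7 * ‖g p‖ ≤ C := ⟨_, fun p => by
    simpa only [norm_iteratedFDeriv_zero] using Lie.dec le_rfl (Nat.zero_le 7) g p⟩
  have := g.continuous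
  refine (h1.const_mul (C * 32)).mono' (Measurable.aestronglyMeasurable (by
    unfold ev; fun_prop)) ((ae_fc _).mono fun p hp => ?_)
  have a1 := Wt.Lm_pos ((mem_Fc p).1 hp).2
  have a2 := ((mem_Fc' p).1 hp).1
  have a3 := h2 p hp
  have a4 := hC p
  have n := norm_nonneg p
  have a5 : ‖pm p‖ ≤ 2 * ‖p‖ := max_le (abs_be_le p) ((norm_tx_le p).trans (by linarith))
  have a6 : al p ≤ ‖p‖ := (le_abs_self _).trans (abs_al_le p)
  simp only [one_mul] at a3
  rw [Real.norm_of_nonneg (by positivity)]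
  calc _ ≤ C * 32 * (Wt.Lm (mu p) * ((1 + ‖pm p‖) ^ 5)⁻¹ * ((1 + al p) ^ 2)⁻¹) := by
        rw [mul_assoc (Wt.Lm _), mul_left_comm _ (Wt.Lm _), ← mul_inv, ← div_eq_mul_inv]
        gcongr
        rw [le_div_iff₀ (by positivity)]
        calc _ ≤ ‖g p‖ * ((2 * (1 + ‖p‖)) ^ 5 * (1 + ‖p‖) ^ 2) := by
              unfold ev; gcongr; linarith
          _ = (1 + ‖p‖) ^ 7 * ‖g p‖ * 32 := by ring
          _ ≤ _ := by gcongr
    _ ≤ _ := mul_le_mul_of_nonneg_left a3
      (mul_nonneg (le_trans (by positivity) a4) (by norm_num))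

theorem int_log {F : V → ℂ} (hF : IsTest F) {r : V → ℂ} (hr : Measurable r) {C a : ℝ} {n : ℕ}
    (h : ∀ p ∈ Fc, ‖r p‖ ≤ C * (1 + |a + lm p|) ^ n) : IntegrableOn (fun p => r p * F p) Fc := by
  obtain ⟨C', C0, hC⟩ := log_le_rpow n (1 / 2) a (show (0 : ℝ) < 1 / 4 by norm_num)
  refine ((int_Lm hF).const_mul (|C| * C')).mono' (hr.aestronglyMeasurable.mul
    (test_int hF).1.restrict) ((ae_fc _).mono fun p hp => ?_)
  have := hC (mu p) ((mem_Fc p).1 hp).2
  rw [show 1 / 2 * Real.log (mu p) = lm p by rw [lm]; ring] at this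
  rw [norm_mul, ← mul_assoc, mul_assoc |C|]
  gcongr
  exact (h p hp).trans (mul_le_mul (le_abs_self C) this (by positivity) (abs_nonneg C))

theorem pol_bd {n : ℕ} {q : ℝ → ℝ} (hq : IsPol n q) : ∃ C, 0 ≤ C ∧ ∀ t, |q t| ≤ C * (1 + |t|) ^ n := by
  obtain ⟨C, C0, hC⟩ := IsPol.unif (F := fun _ : Unit => q) (r := fun _ => 1) (P := fun _ => True)
    (fun _ _ => hq) (fun _ _ => zero_le_one) fun τ => ⟨‖q τ‖, fun _ _ => by simp⟩
  exact ⟨C, C0, fun t => by simpa using hC () trivial t⟩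

theorem pol_cont {n : ℕ} {q : ℝ → ℝ} (hq : IsPol n q) : Continuous q := by
  obtain ⟨a, h⟩ := hq
  rw [funext h]
  fun_prop

/-- polynomials in the logarithm times polynomials times test functions are integrable -/
theorem int_pol {n : ℕ} {q : ℝ → ℝ} (hq : IsPol n q) (π : MvPolynomial Ix ℂ) {f g : Fn}
    (hf : IsTest f) (hg : IsTest g) :
    IntegrableOn (fun p => (q (lm p) : ℝ) * evp π p * (conj (ft f p) * ft g p)) Fc := by
  obtain ⟨C, C0, hC⟩ := pol_bd hq
  obtain ⟨B, -, hB⟩ := (bd_ft hf).cj.nonneg_bound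
  have m := (pol_cont hq).measurable
  have m' := (bd_ft hf).cj.1
  have := int_log (test_mul (Api4.temperate_evp π (ContinuousLinearMap.id ℝ V)) (test_ft hg))
    (r := fun p => conj (ft f p) * (q (lm p) : ℝ)) (by fun_prop) (C := B * C) (a := 0) (n := n)
    fun p _ => by
      rw [norm_mul, Complex.norm_real, mul_assoc, zero_add]
      exact mul_le_mul (hB p) (hC _) (norm_nonneg _) ((norm_nonneg _).trans (hB p))
  exact this.congr (.of_forall fun p => by simp only [ContinuousLinearMap.id_apply]; ring)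

theorem int_logs (n : ℕ) (π : ℕ → MvPolynomial Ix ℂ) {f g : Fn} (hf : IsTest f) (hg : IsTest g) :
    IntegrableOn (fun p => (∑ j ∈ range n, ((Real.log (mu p) ^ j : ℝ) : ℂ) * evp (π j) p) *
      (conj (ft f p) * ft g p)) Fc := by
  simp only [Finset.sum_mul]
  refine integrable_finsetSum _ fun j hj => ?_
  have := int_pol (n := j) (q := fun t => (2 * t) ^ j) (IsPol.of_poly {0}
    (fun _ : ℕ => Polynomial.X ^ j) (fun _ => (2 : ℝ) ^ j) (by simp) (by simp [mul_pow, mul_comm]))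
    (π j) hf hg
  simpa only [lm, mul_div_cancel₀ _ (two_ne_zero' ℝ), IntegrableOn] using this

/-! ## densities -/

variable {D : Type*} [NormedAddCommGroup D] [InnerProductSpace ℂ D] {c : Bs D} {W K : V → ℂ}
  {k l : ℕ} {d d' : ℝ} {w : (Fin k → Ix) → Completion D} {w' : (Fin l → Ix) → Completion D}

/-- `|W| ^ 2 F` is the density of the overlap of `v` and `w` in the open cone -/
def Den (c : Bs D) (W : V → ℂ) (v w : Completion D) (F : V → ℂ) : Prop := ∀ G, Cp Fc G →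
  inner ℂ v (c.bt.Phi G w) = ∫ p in Fc, G p * (conj (W p) * W p * F p)

theorem cont_gg (hW : Wt W Fc) : ContinuousOn (fun p => conj (W p) * W p) Fc :=
  (Complex.continuous_conj.comp_continuousOn hW.cont).mul hW.cont

theorem gg_ne (hW : Wt W Fc) (p : V) : conj (W p) * W p ≠ 0 :=
  mul_ne_zero (by simpa using hW.ne p) (hW.ne p)

theorem uni (hW : Wt W Fc) {v w : Completion D} {F F' : V → ℂ} (h : Den c W v w F)
    (h' : Den c W v w F') (a : ContinuousOn F Fc) (a' : ContinuousOn F' Fc) (p : V) (hp : p ∈ Fc) :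
    F p = F' p := by
  have b : ContinuousOn (fun p => conj (W p) * W p * F p) Fc := (cont_gg hW).mul a
  have b' : ContinuousOn (fun p => conj (W p) * W p * F' p) Fc :=
    (cont_gg hW).mul a'
  have := van (H := fun p => conj (W p) * W p * F p - conj (W p) * W p * F' p)
    (b.sub b') (fun G hG => by
    simp only [mul_sub]
    rw [integral_sub (cp_int hG b) (cp_int hG b'), ← h G hG, ← h' G hG, sub_self]) p hp
  exact mul_left_cancel₀ (gg_ne hW p) (sub_eq_zero.1 this)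

theorem con (hW : Wt W Fc) {v : Ix → Completion D} {w : Completion D} {F : Ix → V → ℂ}
    (h0 : ∀ G, Cp Fc G → ∑ m, c.bt.Phi (fun p => G p * (eta m * p m : ℝ)) (v m) = 0)
    (h : ∀ m, Den c W (v m) w (F m)) (a : ∀ m, ContinuousOn (F m) Fc) (p : V) (hp : p ∈ Fc) :
    ∑ m, ((eta m * p m : ℝ) : ℂ) * F m p = 0 := by
  have e : ∀ m, Continuous fun p : V => ((eta m * p m : ℝ) : ℂ) := fun m => by fun_prop
  have b : ∀ m, ContinuousOn (fun p => conj (W p) * W p * F m p) Fc :=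
    fun m => (cont_gg hW).mul (a m)
  have := van (H := fun p => ∑ m, ((eta m * p m : ℝ) : ℂ) * (conj (W p) * W p * F m p))
    (continuousOn_finset_sum _ fun m _ => (e m).continuousOn.mul (b m))
    (fun G hG => by
      have k : ∀ m, Cp Fc fun p => G p * ((eta m * p m : ℝ) : ℂ) :=
        fun m => hG.mul (e m).measurable (e m).continuousOn
      simp only [Finset.mul_sum, fun p m x => (mul_assoc (G p) ((eta m * p m : ℝ) : ℂ) x).symm]
      rw [integral_finset_sum _ fun m _ => cp_int (k m) (b m)]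
      simp only [← h _ _ (k _), c.bt.adj' (k _).1, map_mul, Complex.conj_ofReal, ← sum_inner,
        h0 _ (cp_cj hG), inner_zero_left]) p hp
  refine mul_left_cancel₀ (gg_ne hW p) ?_
  rw [mul_zero, ← this, Finset.mul_sum]
  exact Finset.sum_congr rfl fun m _ => mul_left_comm _ _ _

theorem cov (hW : Wt W Fc) {F : (Fin k → Ix) → (Fin l → Ix) → V → ℂ} (h : Mv c d W w)
    (h' : Mv c d' W w') (hF : ∀ J μ, Den c W (w J) (w' μ) (F J μ))
    (hc : ∀ J μ, ContinuousOn (F J μ) Fc) (J : Fin k → Ix) (μ : Fin l → Ix) {t : ℝ} {L : Ix → V}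
    {p : V} (ht : 0 < t) (hL : IsLor L) (hp : p ∈ Fc) :
    F J μ (sim t L 0 p) = ((t ^ (d + d' - 4) : ℝ) : ℂ) * ∑ J' : Fin k → Ix, ∑ ν : Fin l → Ix,
      (((∏ i, L (J' i) (J i)) * ∏ i, L (ν i) (μ i) : ℝ) : ℂ) * F J' ν p := by
  have hs := inv_pos.2 ht
  have hk := Kin.du_meas t⁻¹ L
  have hA := Kin.du_pair t⁻¹ hL
  have h1 : ∀ p, Kin.du t⁻¹ L (sim t L 0 p) = p := fun p => by
    rw [Kin.du, sim_smul (s := t), (conf_lor (P352.H246.isLor_linv hL)).lin.map_smul, linv_sim _ hL,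
      inv_smul_smul₀ ht.ne']
  have h2 : ∀ p, sim t L 0 (Kin.du t⁻¹ L p) = p := fun p => by
    obtain ⟨q, rfl⟩ := (conf_sim ht hL).cle.surjective p
    rw [Conf.cle_apply, h1]
  have cs := (conf_sim ht hL).cont
  have ms : MapsTo (sim t L 0) Fc Fc := fun q hq => (Fc_sim ht hL q).2 hq
  have b := hW.bd
  set a : (Fin k → Ix) → (Fin l → Ix) → ℂ := fun J' ν =>
    ((t⁻¹ ^ (-d) * ∏ i, L (J' i) (J i) : ℝ) : ℂ) * ((t⁻¹ ^ (-d') * ∏ i, L (ν i) (μ i) : ℝ) : ℂ)
  have g1 : ContinuousOn (fun p => conj (W (sim t L 0 p)) * W (sim t L 0 p)) Fc :=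
    (cont_gg hW).comp cs.continuousOn ms
  have c1 : ContinuousOn (fun p => t ^ 4 • (conj (W p) * W p * (conj (W (sim t L 0 p)) *
      W (sim t L 0 p) * F J μ (sim t L 0 p)))) Fc :=
    ((cont_gg hW).mul (g1.mul ((hc J μ).comp cs.continuousOn ms))).const_smul (t ^ 4)
  have c2 : ∀ J' ν, ContinuousOn (fun p => conj (W p) * W p * F J' ν p) Fc :=
    fun J' ν => (cont_gg hW).mul (hc J' ν)
  have c3 : ContinuousOn (fun p => conj (W (sim t L 0 p)) * W (sim t L 0 p) *
      ∑ J', ∑ ν, a J' ν * (conj (W p) * W p * F J' ν p)) Fc :=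
    g1.mul (continuousOn_finset_sum Finset.univ fun J' _ =>
      continuousOn_finset_sum Finset.univ fun ν _ => (continuousOn_const (c := a J' ν)).mul
        (c2 J' ν))
  have := van (c1.fun_sub c3) (fun G hG => ?_) p hp
  · simp only [sub_eq_zero, Complex.real_smul] at this
    refine mul_left_cancel₀ (mul_ne_zero (Complex.ofReal_ne_zero.2 (pow_pos ht 4).ne')
      (mul_ne_zero (gg_ne hW p) (gg_ne hW (sim t L 0 p)))) ?_
    rw [mul_assoc, mul_assoc _ _ (F _ _ _), this]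
    simp only [Finset.mul_sum]
    refine Finset.sum_congr rfl fun J' _ => Finset.sum_congr rfl fun ν _ => ?_
    have e : t⁻¹ ^ (-d) * t⁻¹ ^ (-d') = t ^ 4 * t ^ (d + d' - 4) := by
      rw [Real.inv_rpow ht.le, Real.inv_rpow ht.le, Real.rpow_neg ht.le, Real.rpow_neg ht.le,
        inv_inv, inv_inv, ← Real.rpow_add ht, ← Real.rpow_natCast, ← Real.rpow_add ht]
      congr 1
      push_cast
      ring
    have e' := congrArg (fun x : ℝ => (x : ℂ)) e
    simp only [a]
    push_cast at e' ⊢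
    linear_combination (conj (W (sim t L 0 p)) * W (sim t L 0 p) *
      (conj (W p) * W p) * F J' ν p * (∏ i, (L (J' i) (J i) : ℂ)) *
        ∏ i, (L (ν i) (μ i) : ℂ)) * e'
  · have k1 : Cp Fc fun q => G (Kin.du t⁻¹ L q) := ⟨hG.1.comp hk, hG.2.elim fun B hB =>
      ⟨_, hB.1.image cs, image_subset_iff.2 fun q hq => ms (hB.2.1 hq), fun q hq =>
        hB.2.2 _ fun e => hq ⟨_, e, h2 q⟩⟩⟩
    have k2 : Cp Fc fun q => G (Kin.du t⁻¹ L q) *
        (conj (W (Kin.du t⁻¹ L q)) * W (Kin.du t⁻¹ L q)) :=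
      k1.mul ((b.cj.mul b).comp hk).1 ((cont_gg hW).comp (Kin.du_cont _ _).continuousOn
        fun q hq => (du_Fc hs hL q).2 hq)
    have k3 : Cp Fc fun p => G p * (conj (W (sim t L 0 p)) * W (sim t L 0 p)) :=
      hG.mul ((b.cj.mul b).comp cs.measurable).1 g1
    have A1 := hF J μ _ k2
    have A2 : inner ℂ (w J) (c.bt.Phi (fun q => G (Kin.du t⁻¹ L q) *
        (conj (W (Kin.du t⁻¹ L q)) * W (Kin.du t⁻¹ L q))) (w' μ)) =
        ∑ J', ∑ ν, a J' ν * inner ℂ (w J') (c.bt.Phi (fun p => G p *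
          (conj (W (sim t L 0 p)) * W (sim t L 0 p))) (w' ν)) := by
      simp only [mul_left_comm (G (Kin.du t⁻¹ L _))]
      rw [c.bt.mul_apply (b.comp hk).cj (k1.1.mul (b.comp hk)), ← c.bt.adj (b.comp hk),
        c.bt.mul_apply k1.1 (b.comp hk), h.key 0 _ _ _ J hs hL hk hA,
        h'.key 0 _ _ _ μ hs hL hk hA]
      simp only [_root_.map_sum, map_smul, sum_inner, inner_sum, inner_smul_left, inner_smul_right,
        Complex.conj_ofReal, Finset.mul_sum]
      rw [Finset.sum_comm]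
      refine Finset.sum_congr rfl fun J' _ => Finset.sum_congr rfl fun ν _ => ?_
      rw [← inner_unitary (Grp.uni c.bR t⁻¹ L 0) (w J'), Phi_W hk (ug_ut hs hL) hA k3.1,
        c.bt.adj b, ← c.bt.mul_apply k1.1 b, ← c.bt.mul_apply b.cj (k1.1.mul b)]
      simp only [h2, a, mul_left_comm (G (Kin.du t⁻¹ L _))]
      ring
    rw [A2, (scF_sim ht hL).integral', inv_inv] at A1
    simp only [h1, hF _ _ _ k3] at A1
    simp only [mul_sub]
    have i2 : ∀ J' ν, IntegrableOn (fun p => a J' ν * (G p * (conj (W (sim t L 0 p)) *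
        W (sim t L 0 p)) * (conj (W p) * W p * F J' ν p))) Fc :=
      fun J' ν => (cp_int k3 (c2 J' ν)).const_mul _
    rw [integral_sub (cp_int hG c1) (cp_int hG c3), sub_eq_zero]
    simp only [← integral_const_mul, ← integral_smul] at A1
    simp only [← integral_finset_sum _ fun ν _ => i2 _ ν] at A1
    rw [← integral_finset_sum _ fun J' _ => integrable_finset_sum _ fun ν _ => i2 J' ν] at A1
    refine (integral_congr_ae (.of_forall fun q => ?_)).trans
      (A1.symm.trans (integral_congr_ae (.of_forall fun q => ?_)))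
    · simp only [Complex.real_smul]
      ring
    · simp only [Finset.mul_sum]
      exact Finset.sum_congr rfl fun _ _ => Finset.sum_congr rfl fun _ _ => by ring

lemma zf_rL (hW : SN.Bd W) (h : Mv c d W w) (hK : Ad k K) (A : Fin k → Fin 4) :
    c.bt.Phi (fun p => K (sim 1 rL 0 p) * W (sim 1 rL 0 p)) (Zf c w K A) = ((-1) ^ nU A : ℂ) •
      Ug c.Q 1 rL 0 (c.bt.Phi (fun p => K (sim 1 rL 0 p) * W (sim 1 rL 0 p)) (Zf c w K A)) := by
  have := zs_cov hW one_pos isLor_rL meas_rL md_rL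
    (fun μ => h.key 0 _ _ _ μ one_pos isLor_rL meas_rL md_rL) (u := fun j => fr (A j))
    (t := fun j => sg (A j)) (fun j p => fr_rL (A j) p) hK.wt.bd (hK.ok A)
  rw [Phi_W meas_rL (ug_ut one_pos isLor_rL) md_rL ((hK.wt.bd.mul hW).comp meas_rL)]
  simp only [rL_rL]
  rw [Two.Zf, this, prod_sg]
  simp

/-- **the parity rule** -/
theorem par (hW : Wt W Fc) {A : Fin k → Fin 4} {C : Fin l → Fin 4} {κ : ℂ} {a b : ℝ}
    (h : Mv c d W w) (h' : Mv c d' W w') (hK : Ad k K) (hK' : Ad l K)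
    (hi : IntegrableOn (fun p => κ * dn (fun p => K p * W p) a b p) Fc)
    (e : ∀ G, SN.Bd G → inner ℂ (Zf c w K A) (c.bt.Phi G (Zf c w' K C)) =
      ∫ p in Fc, G p * (κ * dn (fun p => K p * W p) a b p)) (hκ : κ ≠ 0) :
    Even (nU A + nU C) := by
  have b1 : SN.Bd fun p => K (sim 1 rL 0 p) * W (sim 1 rL 0 p) :=
    (hK.wt.bd.mul hW.bd).comp meas_rL
  set F : V → ℂ := fun p => K (sim 1 rL 0 p) * W (sim 1 rL 0 p) with hF
  have n1 : ∀ p, F p ≠ 0 := fun p => mul_ne_zero (hK.wt.ne _) (hW.ne _)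
  have e1 : inner ℂ (c.bt.Phi F (Zf c w K A)) (c.bt.Phi F (Zf c w' K C)) =
      (-1) ^ (nU A + nU C) * inner ℂ (c.bt.Phi F (Zf c w K A)) (c.bt.Phi F (Zf c w' K C)) := by
    conv_lhs => rw [hF, zf_rL hW.bd h hK A, zf_rL hW.bd h' hK' C]
    rw [inner_smul_left, inner_smul_right, inner_unitary (Grp.uni c.bR _ _ _), pow_add]
    simp [mul_assoc, hF]
  have e2 : inner ℂ (c.bt.Phi F (Zf c w K A)) (c.bt.Phi F (Zf c w' K C)) =
      κ * ((∫ p in Fc, ‖F p‖ ^ 2 * dn (fun p => K p * W p) a b p : ℝ) : ℂ) := by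
    rw [c.bt.adj b1, ← c.bt.mul_apply b1.cj b1, e _ (b1.cj.mul b1), ← integral_complex_ofReal,
      ← integral_const_mul]
    refine integral_congr_ae (.of_forall fun p => ?_)
    simp only [SN.conj_mul_self]
    push_cast
    ring
  have i1 : IntegrableOn (dn (fun p => K p * W p) a b) Fc := by
    have := (hi.const_mul κ⁻¹).re
    simpa [← mul_assoc, hκ, IntegrableOn] using this
  have i2 : IntegrableOn (fun p => ‖F p‖ ^ 2 * dn (fun p => K p * W p) a b p) Fc := by
    obtain ⟨M, -, hM⟩ := b1.nonneg_bound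
    exact i1.bdd_mul (c := M ^ 2) (b1.1.norm.pow_const 2).aestronglyMeasurable
      (.of_forall fun p => by
        rw [Real.norm_of_nonneg (sq_nonneg _)]
        exact pow_le_pow_left₀ (norm_nonneg _) (hM p) 2)
  have pos : ∀ p ∈ Fc, 0 < ‖F p‖ ^ 2 * dn (fun p => K p * W p) a b p := fun p hp => by
    obtain ⟨h1, h2⟩ := (mem_Fc p).1 hp
    have := norm_pos_iff.2 (n1 p)
    have := norm_pos_iff.2 (mul_ne_zero (hK.wt.ne p) (hW.ne p))
    unfold dn
    positivity
  have n2 : (∫ p in Fc, ‖F p‖ ^ 2 * dn (fun p => K p * W p) a b p) ≠ 0 := fun hz => by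
    have := (integral_eq_zero_iff_of_nonneg_ae ((ae_fc _).mono fun p hp => (pos p hp).le) i2).1 hz
    have h0 : ∀ᵐ p ∂(volume : Measure V).restrict Fc, False := by
      filter_upwards [this, ae_fc _] with p h1 h2 using (pos p h2).ne' h1
    rw [eventually_false_iff_eq_bot, ae_eq_bot, restrict_eq_zero] at h0
    exact isOpen_Fc.measure_ne_zero volume ⟨_, thi_mem 0⟩ h0
  by_contra hn
  rw [(Nat.not_even_iff_odd.1 hn).neg_one_pow, e2] at e1
  exact mul_ne_zero hκ (Complex.ofReal_ne_zero.2 n2) (by linear_combination e1 / 2)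

/-- existence of the densities -/
theorem dex (hW : Wt W Fc) {w : (Fin 2 → Ix) → Completion D} (hT : Mv c 4 W w) (hs : Sv c w)
    (ha : ∀ K, Ad 2 K → ∀ A, ∀ᵐ p ∂c.nu (Zf c w K A), p ∈ Fc) (h : Mv c d W w')
    (hl : ∀ K, Ad l K → ∀ C, d / 2 + ∑ j, yw (C j) ≤ 1 / 2 → Zf c w' K C = 0) :
    ∃ κ, Sel d κ ∧ ∀ J μ, Den c W (w J) (w' μ) (FF (d / 2) κ J μ) := by
  obtain ⟨K1, h1⟩ := ex_ad 2
  obtain ⟨K2, h2⟩ := ex_ad l
  have hK := h1.mul h2.wt
  have hK' := h2.mul h1.wt
  simp only [mul_comm (K1 _)] at hK'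
  generalize (fun p => K2 p * K1 p) = K at hK hK'
  have : ∀ (A : Fin 2 → Fin 4) (C : Fin l → Fin 4), ∃ κ : ℂ, (κ ≠ 0 → A 0 ≠ 3 ∧ A 1 ≠ 3 ∧
      Even (nU A + nU C) ∧ 1 / 2 < d / 2 + ∑ j, yw (C j)) ∧ ∃ F : V → ℝ, (∀ p, F p =
        dn (fun p => K p * W p) (∑ j, (xw (A j) - yw (A j)) + ∑ j, (xw (C j) - yw (C j)))
        (d / 2 + ∑ j, yw (A j) + ∑ j, yw (C j)) p) ∧ IntegrableOn (fun p => κ * F p) Fc ∧
      ∀ G, SN.Bd G → inner ℂ (Zf c w K A) (c.bt.Phi G (Zf c w' K C)) =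
        ∫ p in Fc, G p * (κ * F p) := fun A C => by
    by_cases hA : A 0 = 3 ∨ A 1 = 3
    · exact ⟨0, fun h => absurd rfl h, _, fun _ => rfl, by simp, fun G _ => by simp [hs.zero hK hA]⟩
    · obtain ⟨κ, a1, a2, a3⟩ := overlap' (hT.vc hW.bd hK A) (h.vc hW.bd hK' C)
        ((hK.wt.mono (subset_univ _)).mul hW) (ha K hK A)
      refine ⟨κ, fun h0 => ⟨(not_or.1 hA).1, (not_or.1 hA).2,
        par hW hT h hK hK' a2 a3 h0, lt_of_not_ge fun hy => (a1 h0).2 (by
          rw [hl K hK' C hy, Bs.nu, c.bt.nu_zero, restrict_zero])⟩, _, fun p => ?_, a2, a3⟩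
      congr 1
      · simp only [Finset.sum_sub_distrib]
        ring
      · ring
  choose κ a1 F a2 a3 a4 using this
  refine ⟨κ, a1, fun J μ G hG => ?_⟩
  have hS : Fc ⊆ {p | 0 < be p} := fun p hp => ((mem_Fc p).1 hp).1
  have m := minv hK.wt.bd.1
  have ci := (hK.wt.cont.mono (subset_univ Fc)).inv₀ fun p _ => hK.wt.ne p
  obtain ⟨-, B, b1, b2, b3⟩ := id hG
  have g1 := (cp_ind b1 b2 (.const 1)).mul m ci
  have g2 := hG.mul m ci
  have e1 := expand (c := c) (w := w) hK g1 hS (eb J)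
  have e2 := expand (c := c) (w := w') hK' g2 hS (eb μ)
  have bb := fun A C => (g1.cfs hS (eb J) A).1.cj.mul (g2.cfs hS (eb μ) C).1
  have hB : ∀ p, conj (B.indicator (fun _ => (1 : ℂ)) p) * G p = G p := fun p => by
    by_cases hp : p ∈ B <;> simp [hp, b3 p]
  simp only [inv_mul_cancel_right₀ (hK.wt.ne _), sum_eb J w,
    sum_eb μ w'] at e1 e2
  have e := congrArg₂ (inner ℂ) e1 e2
  rw [c.bt.adj (.ind b1.measurableSet), ← c.bt.mul_apply (SN.Bd.ind b1.measurableSet).cj hG.1,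
    sum_inner] at e
  simp only [hB, _root_.map_sum, inner_sum, c.bt.adj (g1.cfs hS _ _).1,
    ← c.bt.mul_apply (g1.cfs hS _ _).1.cj (g2.cfs hS _ _).1, a4 _ _ _ (bb _ _)] at e
  have ii := fun A C => (a3 A C).bdd_mul (bb A C).1.aestronglyMeasurable
    (.of_forall (bb A C).2.choose_spec)
  rw [e, Finset.sum_congr rfl fun A _ => (integral_finsetSum _ fun C _ => ii A C).symm,
    ← integral_finsetSum _ fun A _ => integrable_finsetSum _ fun C _ => ii A C]
  refine integral_congr_ae (.of_forall fun p => ?_)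
  simp only [FF, Finset.mul_sum]
  refine Finset.sum_congr rfl fun A _ => Finset.sum_congr rfl fun C _ => ?_
  have k0 := hK.wt.ne p
  have k1 : conj (K p) ≠ 0 := by simpa using k0
  rw [a2, dn, Complex.ofReal_mul, ← SN.conj_mul_self, cfs_eb, cfs_eb]
  conv_rhs => rw [← hB p]
  simp only [map_mul, map_inv₀, Complex.conj_ofReal, Complex.ofReal_mul]
  field_simp

/-- from compactly supported functions to bounded functions -/
lemma all_bd {v w : Completion D} {F : V → ℂ} (hF : IntegrableOn F Fc)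
    (h : ∀ G, Cp Fc G → inner ℂ v (c.bt.Phi G w) = ∫ p in Fc, G p * F p)
    (h1 : ∀ᵐ p ∂c.nu v, p ∈ Fc) {G : V → ℂ} (hG : SN.Bd G) :
    inner ℂ v (c.bt.Phi G w) = ∫ p in Fc, G p * F p := by
  obtain ⟨C, hC0, hC⟩ := hG.nonneg_bound
  let A : ℕ → Set V := fun n => {p | 1 / ((n : ℝ) + 1) ≤ rc p}
  have hc : ∀ n, IsCompact (A n) := fun n => Metric.isCompact_of_isClosed_isBounded
    (isClosed_le continuous_const cont_rc) ((Metric.isBounded_closedBall (x := 0) (r := n)).subset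
      fun p hp => mem_closedBall_zero_iff.2 (by
        have := (inv_le_inv₀ (by positivity) (by positivity)).1
          (((one_div _).symm.trans_le hp).trans (rc_le p))
        linarith))
  have hA := fun n => (hc n).measurableSet
  have e : ∀ n, inner ℂ (c.bt.Phi (fun p => conj ((A n).indicator G p)) v) w =
      ∫ p in Fc, (A n).indicator G p * F p := fun n => by
    rw [← h _ (cp_ind (hc n) (fun p hp => rc_pos.1 (lt_of_lt_of_le Nat.one_div_pos_of_nat hp)) hG),
      c.bt.adj' (hG.indicator (hA n))]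
  have lim : ∀ p ∈ Fc, Tendsto (fun n => (A n).indicator G p) atTop (𝓝 (G p)) := fun p hp =>
    tendsto_const_nhds.congr' (((tendsto_one_div_add_atTop_nhds_zero_nat (𝕜 := ℝ)).eventually
      (eventually_le_nhds (rc_pos.2 hp))).mono fun n hn =>
        (indicator_of_mem (show p ∈ A n from hn) G).symm)
  have bd : ∀ n p, ‖(A n).indicator G p‖ ≤ C := fun n p =>
    (norm_indicator_le_norm_self _ _).trans (hC p)
  have t1 := (c.bt.tendsto_Phi (fun n => (hG.indicator (hA n)).cj) hG.cj (K := C) (v := v)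
    (.of_forall fun n => .of_forall fun p => by simpa using bd n p)
    (h1.mono fun p hp => (Complex.continuous_conj.tendsto _).comp (lim p hp))).inner
    (𝕜 := ℂ) (tendsto_const_nhds (x := w))
  have t2 := tendsto_integral_of_dominated_convergence (μ := volume.restrict Fc)
    (F := fun n p => (A n).indicator G p * F p) (f := fun p => G p * F p) (fun p => C * ‖F p‖)
    (fun n => (hG.indicator (hA n)).1.aestronglyMeasurable.mul hF.1) (hF.norm.const_mul C)
    (fun n => .of_forall fun p => by rw [norm_mul]; gcongr; exact bd n p)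
    ((ae_fc _).mono fun p hp => (lim p hp).mul_const _)
  rw [c.bt.adj' hG]
  exact tendsto_nhds_unique t1 (by simpa only [e] using t2)

/-! ## the overlaps -/

/-- the algebraic properties of the polynomials -/
def Pi6 (N : ℕ) (d : ℤ) (π : Ix → Ix → (Fin N → Ix) → MvPolynomial Ix ℂ) : Prop :=
  (∀ r s μ, (π r s μ).IsHomogeneous d.toNat ∧ (d < 0 → π r s μ = 0)) ∧
  (∀ r s μ, π r s μ = π s r μ) ∧
  (∀ s μ, ∑ r, MvPolynomial.C (eta r : ℂ) * MvPolynomial.X r * π r s μ = 0) ∧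
  (∀ r s k μ, mup ∣ π r s μ * MvPolynomial.X k - π k s μ * MvPolynomial.X r) ∧
  ∀ r s μ L p, IsLor L → evp (π r s μ) (sim 1 L 0 p) = ∑ k, ∑ l, ∑ ν : Fin N → Ix,
    ((L k r * L l s * ∏ i, L (ν i) (μ i) : ℝ) : ℂ) * evp (π k l ν) p

lemma evp_lin {ι : Type*} (S : Finset ι) (a : ι → ℂ) (q : ι → MvPolynomial Ix ℂ) (p : V) :
    evp (∑ i ∈ S, MvPolynomial.C (a i) * q i) p = ∑ i ∈ S, a i * evp (q i) p := by
  simp [evp]

theorem Pi6.sum {N : ℕ} {d : ℤ} {ι : Type*} (S : Finset ι) (a : ι → ℂ)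
    {π : ι → Ix → Ix → (Fin N → Ix) → MvPolynomial Ix ℂ} (h : ∀ i, Pi6 N d (π i)) :
    Pi6 N d fun r s μ => ∑ i ∈ S, MvPolynomial.C (a i) * π i r s μ := by
  refine ⟨fun r s μ => ⟨MvPolynomial.IsHomogeneous.sum _ _ _ fun i _ =>
    ((h i).1 r s μ).1.C_mul _, fun hd => by simp [((h _).1 r s μ).2 hd]⟩,
    fun r s μ => by simp only [(h _).2.1 r s μ], fun s μ => ?_, fun r s k μ => ?_,
    fun r s μ L p hL => ?_⟩
  · simp only [Finset.mul_sum]
    rw [Finset.sum_comm]
    refine Finset.sum_eq_zero fun i _ => ?_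
    simp only [mul_left_comm _ (MvPolynomial.C (a i)), ← Finset.mul_sum, (h i).2.2.1 s μ, mul_zero]
  · simp only [Finset.sum_mul, ← Finset.sum_sub_distrib, mul_assoc, ← mul_sub]
    exact Finset.dvd_sum fun i _ => ((h i).2.2.2.1 r s k μ).mul_left _
  · simp only [evp_lin, (h _).2.2.2.2 r s μ L p hL, Finset.mul_sum]
    rw [Finset.sum_comm]
    refine Finset.sum_congr rfl fun k _ => ?_
    rw [Finset.sum_comm]
    refine Finset.sum_congr rfl fun l _ => ?_
    rw [Finset.sum_comm]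
    exact Finset.sum_congr rfl fun ν _ => Finset.sum_congr rfl fun i _ => mul_left_comm _ _ _

variable {J N : ℕ} {Λ : ℝ → (Fin 2 → Ix) → Sch →L[ℂ] Completion D}
  {O : ℝ → (Fin N → Ix) → Sch →L[ℂ] Completion D}

theorem St.mono (h : St c J Λ) {J' : ℕ} (e : J ≤ J') : St c J' Λ :=
  ⟨h.mul.mono e, h.perp, h.sym, h.con⟩

/-- the overlaps of the running multiplets are polynomials -/
theorem St.runp (hT : St c J Λ) {d : ℤ} (hO : Mul c d J O) (he : Even (d - N)) (σ σ' : ℝ) :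
    ∃ π, Pi6 N d π ∧ ∀ r s μ, Den c (fun p => ft g0 p * Nw J p)
      (run c J (fun τ => Λ τ ![r, s] gS) σ) (run c J (fun τ => O τ μ gS) σ') (evp (π r s μ)) := by
  have hW := (wt_g0.mono (subset_univ Fc)).mul (wt_Nw J)
  have m1 := hT.mul.ml.run wt_g0.bd σ
  have m2 := hO.ml.run wt_g0.bd σ'
  have sv := Sv.run (J := J) hT.sv σ
  obtain ⟨κ, hS, hD⟩ := dex hW m1 sv (fun K hK A => by rw [zf_run hK]; exact run_ae σ) m2
    fun K hK C hy => by
      rw [zf_run hK]
      exact run_zero ((hO.ml.vl wt_g0.bd hK C).low hK.wt1 hy) σ'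
  have hc := pol.1 2 N (d / 2) κ
  obtain ⟨π, e, h⟩ := alg N d (fun r s => FF (d / 2) κ ![r, s]) ⟨fun r s μ t L p ht hL hp => by
      rw [cov hW m1 m2 hD hc _ μ ht hL hp, add_sub_cancel_left, Real.rpow_intCast, sum2]
      simp only [Fin.prod_univ_two, Matrix.cons_val_zero, Matrix.cons_val_one],
    fun r s μ => uni hW (hD _ μ) (sv.sym r s ▸ hD ![s, r] μ) (hc _ μ) (hc _ μ),
    fun s μ => Vale.Agent.P352L.Two.con hW (fun G hG => sv.con s G (fun m => (hG.mul (by fun_prop)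
      (by fun_prop)).1) hG.1) (fun r => hD ![r, s] μ) fun r => hc _ μ, pol.2 N d κ he hS⟩
  exact ⟨π, h, fun r s μ G hG => (hD _ μ G hG).trans
    (integral_congr_ae ((ae_fc _).mono fun p hp => by simp only [e r s μ p hp]))⟩

/-- from the running vectors to the members -/
theorem den_back (hW : Wt W Fc) {v v' : ℝ → Completion D} (h : IsPol J v) (h' : IsPol J v')
    {F : ℕ → ℕ → V → ℂ} (hc : ∀ i k, ContinuousOn (F i k) Fc)
    (hD : ∀ i k : ℕ, Den c (fun p => W p * Nw J p) (run c J v i) (run c J v' k) (F i k))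
    (τ τ' : ℝ) : Den c W (v τ) (v' τ') fun p => ∑ i ∈ range (J + 1), ∑ k ∈ range (J + 1),
      ((lag J i (τ + lm p) * lag J k (τ' + lm p) : ℝ) : ℂ) * F i k p := fun G hG => by
  obtain ⟨-, B, b1, b2, b3⟩ := id hG
  have g1 := cp_ind b1 b2 (.const 1)
  have e := congrArg₂ (inner ℂ) (run_cp (c := c) h τ g1) (run_cp (c := c) h' τ' hG)
  have a1 := fun i => cp_lag (J := J) (cp_Nw (J := J) g1) i τ
  have a2 := fun k => cp_lag (J := J) (cp_Nw (J := J) hG) k τ'
  have bb : ∀ i k, Cp Fc fun p => conj (B.indicator (fun _ => (1 : ℂ)) p * (Nw J p)⁻¹ *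
      (lag J i (τ + lm p) : ℝ)) * (G p * (Nw J p)⁻¹ * (lag J k (τ' + lm p) : ℝ)) := fun i k =>
    ⟨(a1 i).1.cj.mul (a2 k).1, B, b1, b2, fun p hp => by simp [b3 p hp]⟩
  have hB : ∀ p, conj (B.indicator (fun _ => (1 : ℂ)) p) * G p = G p := fun p => by
    by_cases hp : p ∈ B <;> simp [hp, b3 p]
  rw [c.bt.adj (.ind b1.measurableSet), ← c.bt.mul_apply (SN.Bd.ind b1.measurableSet).cj hG.1,
    sum_inner] at e
  simp only [hB, _root_.map_sum, inner_sum, c.bt.adj (a1 _).1, ← c.bt.mul_apply (a1 _).1.cj (a2 _).1,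
    hD _ _ _ (bb _ _)] at e
  have ii := fun i k => cp_int (bb i k) ((cont_gg (hW.mul (wt_Nw J))).mul (hc i k))
  simp only [Pi.mul_apply] at ii
  rw [e, Finset.sum_congr rfl fun i _ => (integral_finsetSum _ fun k _ => ii i k).symm,
    ← integral_finsetSum _ fun i _ => integrable_finsetSum _ fun k _ => ii i k]
  refine integral_congr_ae (.of_forall fun p => ?_)
  simp only [Finset.mul_sum]
  refine Finset.sum_congr rfl fun i _ => Finset.sum_congr rfl fun k _ => ?_
  have k0 := (wt_Nw J).ne p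
  have k1 : conj (Nw J p) ≠ 0 := by simpa using k0
  conv_rhs => rw [← hB p]
  simp only [map_mul, map_inv₀, Complex.conj_ofReal, Complex.ofReal_mul]
  field_simp

/-- **the overlaps are polynomials in the momentum and in the logarithm** -/
theorem St.poly {J' : ℕ} (hT : St c J Λ) {d : ℤ} (hO : Mul c d J' O) (he : Even (d - N))
    (τ τ' : ℝ) : ∃ (n : ℕ) (π : ℕ → Ix → Ix → (Fin N → Ix) → MvPolynomial Ix ℂ),
      (∀ j, Pi6 N d (π j)) ∧ ∀ r s μ (f' f : Sch), inner ℂ (Λ τ ![r, s] f') (O τ' μ f) =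
        ∫ p in Fc, (∑ j ∈ range n, ((Real.log (mu p) ^ j : ℝ) : ℂ) * evp (π j r s μ) p) *
          (conj (ft (ev f') p) * ft (ev f) p) := by
  replace hT := hT.mono (le_max_left J J')
  replace hO := hO.mono (le_max_right J J')
  generalize max J J' = M at hT hO
  choose π h1 h2 using fun i k : ℕ => hT.runp hO he i k
  have hp : ∀ i ∈ range (M + 1), ∀ k ∈ range (M + 1), IsPol (M + M) fun t =>
      lag M i (τ + t / 2) * lag M k (τ' + t / 2) := fun i hi k hk => by
    simpa only [div_eq_inv_mul, add_comm, LinearMap.mul_apply'] using ((isPol_lag hi).aff 2⁻¹ τ).map₂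
      ((isPol_lag hk).aff 2⁻¹ τ') (LinearMap.mul ℝ ℝ)
  choose! a ha using hp
  beta_reduce at ha
  refine ⟨M + M + 1, fun j r s μ => ∑ q ∈ range (M + 1) ×ˢ range (M + 1),
    MvPolynomial.C (a q.1 q.2 j : ℂ) * π q.1 q.2 r s μ, fun j => Pi6.sum _ _ fun q => h1 _ _,
    fun r s μ f' f => ?_⟩
  have hD := den_back (wt_g0.mono (subset_univ Fc)) (hT.mul.pol ![r, s] gS) (hO.pol μ gS)
    (fun i k => (Api4.temperate_evp (π i k r s μ) (ContinuousLinearMap.id ℝ V)).1.continuous.continuousOn)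
    (fun i k => h2 i k r s μ) τ τ'
  set H : V → ℂ := fun p => ∑ j ∈ range (M + M + 1), ((Real.log (mu p) ^ j : ℝ) : ℂ) *
    evp (∑ q ∈ range (M + 1) ×ˢ range (M + 1),
      MvPolynomial.C (a q.1 q.2 j : ℂ) * π q.1 q.2 r s μ) p with hH
  have e : (fun p => ∑ i ∈ range (M + 1), ∑ k ∈ range (M + 1), ((lag M i (τ + lm p) *
      lag M k (τ' + lm p) : ℝ) : ℂ) * evp (π i k r s μ) (ContinuousLinearMap.id ℝ V p)) = H :=
    funext fun p => by
      simp only [hH, evp_lin, Finset.mul_sum]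
      rw [← Finset.sum_product', Finset.sum_comm]
      refine Finset.sum_congr rfl fun q hq => ?_
      rw [lm, ha _ (Finset.mem_product.1 hq).1 _ (Finset.mem_product.1 hq).2, Complex.ofReal_sum,
        Finset.sum_mul]
      exact Finset.sum_congr rfl fun j _ => by simp [mul_assoc]
  rw [e] at hD
  have hi : ∀ {f g : Fn}, IsTest f → IsTest g →
      IntegrableOn (fun p => H p * (conj (ft f p) * ft g p)) Fc := fun hf hg =>
    int_logs _ _ hf hg
  have := transfer (H := H) wt_g0.bd g0_ne (bd_ft ⟨f', rfl⟩) (bd_ft ⟨f, rfl⟩)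
    (hT.mul.rel τ ![r, s] f') (hO.rel τ' μ f) (fun G hG => all_bd ((hi g0_in.1 g0_in.1).congr
      (.of_forall fun p => mul_comm _ _)) hD (hT.fc τ _ _) hG) (hi ⟨f', rfl⟩ ⟨f, rfl⟩) (.const 1)
  simpa only [c.bt.one, one_mul, ContinuousLinearMap.one_apply] using this

/-! ## removal of the vacuum -/

/-- the part orthogonal to the vacuum -/
def pO (Q : Theory D) (O : Sch →L[ℂ] Completion D) : Sch →L[ℂ] Completion D :=
  O - (innerSL ℂ (om Q) ∘L O).smulRight (om Q)

lemma pO_apply (Q : Theory D) (O : Sch →L[ℂ] Completion D) (f : Sch) :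
    pO Q O f = O f - inner ℂ (om Q) (O f) • om Q := rfl

/-- multiplets that are covariant up to a shift of the parameter and multiples of the vacuum -/
structure CovL (Q : Theory D) (k : ℕ) (d : ℝ) (J : ℕ)
    (O : ℝ → (Fin k → Ix) → Sch →L[ℂ] Completion D) : Prop where
  pol : ∀ μ f, IsPol J fun τ => O τ μ f - inner ℂ (om Q) (O τ μ f) • om Q
  cov : ∀ τ μ s L a (f g : Sch), 0 < s → IsLor L → (∀ x, g x = f (sim s L a x)) → ∃ κ : ℂ,
    O (τ + Real.log s) μ f = ∑ ν : Fin k → Ix, ((s ^ (4 - d) * ∏ i, L (ν i) (μ i) : ℝ) : ℂ) •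
      Ue Q s L a (O τ ν g) + κ • om Q

theorem CovL.red {d : ℝ} (h : CovL c.Q N d J O) : Mul c d J fun τ μ => pO c.Q (O τ μ) := by
  refine ⟨h.pol, fun τ μ s L a f g hs hL e => ?_⟩
  obtain ⟨κ, e⟩ := h.cov τ μ s L a f g hs hL e
  have h1 : inner ℂ (om c.Q) (om c.Q) = 1 := Kin.inner_om
  have h2 : ∀ v, inner ℂ (om c.Q) (Ug c.Q s L a v) = inner ℂ (om c.Q) v := fun v => by
    rw [Ug_apply _ hs hL]
    exact Kin.inner_om_U c.bR hs hL a v
  simp only [← Ug_apply _ hs hL] at e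
  simp only [pO_apply, e, map_sub, map_smul, Grp.vac c.bR, inner_add_right, inner_sum,
    inner_smul_right, h2, smul_sub, Finset.sum_sub_distrib, add_smul, Finset.sum_smul, smul_smul]
  rw [h1, mul_one]
  exact add_sub_add_right_eq_sub _ _ _

/-- **row POLY with logarithms** -/
theorem St.polyL {J' : ℕ} (hT : St c J Λ) {d : ℤ} (hO : CovL c.Q N d J' O) (he : Even (d - N))
    (τ τ' : ℝ) : ∃ (n : ℕ) (π : ℕ → Ix → Ix → (Fin N → Ix) → MvPolynomial Ix ℂ),
      (∀ j, Pi6 N d (π j)) ∧ ∀ r s μ (f' f : Sch), inner ℂ (Λ τ ![r, s] f') (O τ' μ f) =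
        ∫ p in Fc, (∑ j ∈ range n, ((Real.log (mu p) ^ j : ℝ) : ℂ) * evp (π j r s μ) p) *
          (conj (ft (ev f') p) * ft (ev f) p) := by
  obtain ⟨n, π, h1, h2⟩ := hT.poly hO.red he τ τ'
  refine ⟨n, π, h1, fun r s μ f' f => Eq.trans ?_ (h2 r s μ f' f)⟩
  rw [pO_apply, inner_sub_right, inner_smul_right,
    inner_eq_zero_symm.1 (show inner ℂ (om c.Q) _ = 0 from hT.perp τ ![r, s] f'), mul_zero, sub_zero]

end

end Vale.Agent.P352L.Two
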