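import Vale.Agent.P352L.Wire
import Vale.Agent.P352L.RES.An4
import Vale.Agent.P352L.RES.Cw85

/-!
# P352L: there are no logarithms in dimension four
-/

set_option linter.all false

namespace Vale.Agent.P352L

open Vale.Agent.P352X
open Vale.Agent.P352 Vale.Agent.P352.GF Vale.Agent.P352.BW Vale.Agent.P352.H246
open Vale.Agent.P352.H496 Vale.Agent.P352.H755 Vale.Agent.P352.H15
open UniformSpace (Completion)

theorem last (D : Type*) [NormedAddCommGroup D] [InnerProductSpace ℂ D] : Last D :=
  ⟨fun c _ => RA.resw_of RW.B85.cocw c⟩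

variable {D : Type*} [NormedAddCommGroup D] [InnerProductSpace ℂ D]

/-- **there are no logarithms in dimension four** -/
theorem nolog (Q : Theory D) (T : Ix → Ix → Fld D) (hT : Stress0 Q T)
    (A : (V → V) → D → D) (hA : ND.PCh Q T A) (hG : TfGen Q) (hF : FSL Q)
    (N : Set V → VonNeumannAlgebra (Completion D)) (hN : LNm Q A N) (hU : L.UVac Q) : NoLog Q T :=
  (last D).nolog Q T hT A hA hG hF N hN hU

end Vale.Agent.P352L
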