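import Vale.Agent.P352L.StB
import Vale.Agent.P352X.CL.FL
import Vale.Agent.P352X.R.CTX
import Vale.Agent.P352NA.MOM.A

/-!
# P352L: the start. The linear hull of a theory, the family of stress tensors, the base
-/

set_option linter.all false

open Filter Topology MeasureTheory
open scoped ComplexConjugate

namespace Vale.Agent.P352L

open Vale.Agent.P352X
open Vale.Agent.P352 Vale.Agent.P352.GF Vale.Agent.P352.BW Vale.Agent.P352.H246
open Vale.Agent.P352.H496 Vale.Agent.P352.H755 Vale.Agent.P352.H15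
open UniformSpace (Completion)

noncomputable section

variable {D : Type*} [NormedAddCommGroup D] [InnerProductSpace ℂ D]

namespace StA

variable {Q : Theory D} {A : (V → V) → D → D} {T : Ix → Ix → Fld D} {B : Fld D} {f g : Fn}

/-- finite linear combinations -/
abbrev Sp (P : Fld D → Prop) : Submodule ℂ (Fld D) := Submodule.span ℂ {B | P B}

theorem sp_of {P : Fld D → Prop} (h : P B) : B ∈ Sp P := Submodule.subset_span h

theorem sp_ind {P p : Fld D → Prop} (hB : B ∈ Sp P) (h : ∀ B, P B → p B) (h0 : p fun _ _ => 0)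
    (h1 : ∀ B C (a : ℂ), p B → p C → p fun f v => B f v + a • C f v) : p B := by
  induction hB using Submodule.span_induction with
  | mem B hB => exact h B hB
  | zero => exact h0
  | add B C _ _ hB hC =>
    have := h1 B C 1 hB hC
    simp only [one_smul] at this
    exact this
  | smul a B _ hB =>
    have := h1 _ B a h0 hB
    simp only [zero_add] at this
    exact this

theorem sp_fl (hB : B ∈ Sp Q.fld) (hf : IsTest f) : IsLinearMap ℂ (B f) :=
  sp_ind (p := fun B => IsLinearMap ℂ (B f)) hB (fun B hB => (Fss.fl hB hf).isLinear)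
    ⟨fun _ _ => (add_zero _).symm, fun _ _ => (smul_zero _).symm⟩ fun B C a h1 h2 =>
      ⟨fun x y => by simp only [h1.map_add, h2.map_add]; module,
        fun c x => by simp only [h1.map_smul, h2.map_smul]; module⟩

/-- the linear hull of a theory -/
def hull (Q : Theory D) : Theory D where
  vac := Q.vac
  fld B := B ∈ Sp Q.fld
  bose B := B ∈ Sp Q.bose
  U := Q.U
  norm_vac := Q.norm_vac
  cyclic S h0 h := Q.cyclic S h0 fun B f v hB => h B f v (sp_of hB)
  lin B f g c v hB hf hg :=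
    sp_ind (p := fun B => B (fun x => f x + c * g x) v = B f v + c • B g v) hB
      (fun B hB => Q.lin B f g c v hB hf hg) (by simp) fun B C a h1 h2 => by
        simp only [h1, h2]
        module
  cont B v hB := sp_ind (p := fun B => Continuous fun g => B (ev g) v) hB
    (fun B hB => Q.cont B v hB) continuous_const fun B C a h1 h2 => h1.add (h2.const_smul a)
  adj B hB := sp_ind (p := fun B => ∃ B', B' ∈ Sp Q.fld ∧ ∀ f v w, IsTest f →
      inner ℂ (B f v) w = inner ℂ v (B' (bar f) w)) hB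
    (fun B hB => (Q.adj B hB).imp fun _ h => ⟨sp_of h.1, h.2⟩)
    ⟨0, zero_mem _, fun _ _ _ _ => by simp⟩ fun B C a ⟨B', b, h1⟩ ⟨C', c, h2⟩ =>
      ⟨B' + conj a • C', add_mem b (Submodule.smul_mem _ _ c), fun f v w hf => by
        simp only [Pi.add_apply, Pi.smul_apply, inner_add_left, inner_smul_left, inner_add_right,
          inner_smul_right, h1 f v w hf, h2 f v w hf]⟩
  bose_fld B hB := Submodule.span_mono (fun B => Q.bose_fld B) hB
  loc B C f g v hB hC hf hg hs :=
    sp_ind (p := fun B => B f (C g v) = C g (B f v)) hB (fun B hB =>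
      sp_ind (p := fun C => B f (C g v) = C g (B f v)) hC
        (fun C hC => Q.loc B C f g v hB hC hf hg hs)
        (Fss.fl (Q.bose_fld B hB) hf).map_zero fun C E a h1 h2 => by
          have l := (Fss.fl (Q.bose_fld B hB) hf).isLinear
          exact (l.map_add _ _).trans (congrArg₂ _ h1 ((l.map_smul _ _).trans (congrArg _ h2))))
      (sp_fl hC hg).map_zero.symm fun B E a h1 h2 => by
        simp only [h1, h2, (sp_fl hC hg).map_add, (sp_fl hC hg).map_smul]
  U_inner := Q.U_inner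
  U_vac := Q.U_vac
  transl B a f v hB hf := sp_ind (p := fun B => B f (Q.U 1 GF.one a v) =
      Q.U 1 GF.one a (B (fun x => f (sim 1 GF.one a x)) v)) hB
    (fun B hB => Q.transl B a f v hB hf)
    (by simpa using (U_smul (Q := Q) one_pos H496.isLor_one a 0 v).symm) fun B C c h1 h2 => by
      simp only [h1, h2, U_add one_pos H496.isLor_one, U_smul one_pos H496.isLor_one]
  spectrum := Q.spectrum

theorem enl : IsEnl Q (hull Q) := ⟨rfl, rfl, fun _ => sp_of, fun _ => sp_of⟩

theorem rep (R : Rep Q A) : Rep (hull Q) A := ⟨R.mul, R.add, R.der⟩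

theorem tfg (h : TfGen Q) : TfGen (hull Q) := fun S h0 h1 =>
  h S h0 fun k Φ μ f v hΦ => h1 k Φ μ f v ⟨fun μ => sp_of (hΦ.1 μ), hΦ.2⟩

theorem lnm {N : Set V → VonNeumannAlgebra (Completion D)} (h : LNm Q A N) : LNm (hull Q) A N := by
  refine ⟨rep h.toRep, fun O B f hB hf => ?_, h.mono, h.cov, h.loc⟩
  refine sp_ind (p := fun B => Aff (N O) (B f)) hB (fun B hB => h.fld O B f hB hf)
    ⟨fun _ => 0, by simp, by simp [Completion.coe_zero]⟩ fun B C a ⟨B', b, h1⟩ ⟨C', c, h2⟩ =>
      ⟨fun w => B' w + conj a • C' w, fun v w => ?_, fun Y hY v w => ?_⟩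
  · simp only [inner_add_left, inner_smul_left, inner_add_right, inner_smul_right, b, c]
  · simp only [Completion.coe_add, Completion.coe_smul, map_add, map_smul, inner_add_left,
      inner_smul_left, inner_add_right, inner_smul_right, h1 Y hY, h2 Y hY, Complex.conj_conj]

theorem lim_sp {P : ℝ → D → D} (hP : ∀ᶠ r in atTop, IsLinearMap ℂ (P r)) (v w : D)
    (Y : Fld D → D) (Y0 : Y (fun _ _ => 0) = 0)
    (Y1 : ∀ B C (a : ℂ), Y (fun f v => B f v + a • C f v) = Y B + a • Y C)
    (h : ∀ B, Q.fld B → Tendsto (fun r => inner ℂ w (P r (B f v) - B f (P r v))) atTop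
      (𝓝 (inner ℂ w (Y B)))) (hB : B ∈ Sp Q.fld) :
    Tendsto (fun r => inner ℂ w (P r (B f v) - B f (P r v))) atTop (𝓝 (inner ℂ w (Y B))) := by
  refine sp_ind (p := fun B => Tendsto (fun r => inner ℂ w (P r (B f v) - B f (P r v))) atTop
    (𝓝 (inner ℂ w (Y B)))) hB h ?_ fun B C a h1 h2 => ?_
  · rw [Y0]
    exact tendsto_const_nhds.congr' (hP.mono fun r l => by simp only [l.map_zero, sub_zero])
  · rw [Y1, inner_add_right, inner_smul_right]
    refine (h1.add (h2.const_mul a)).congr' (hP.mono fun r l => ?_)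
    simp only [l.map_add, l.map_smul, ← inner_smul_right, ← inner_add_right]
    congr 1
    module

/-! ### the family -/

open Fss hiding U_dil u_inv inv_u u_adj dl_herm dl_cov dl_cons dl_charge dl_pch
open Fss.G CL

open Classical in
/-- the coefficients of the members of the family -/
def cf (τ : ℝ) (p : ℂ × ℕ) : ℂ := if p.1 = 4 then (-τ : ℂ) ^ p.2 else 0

/-- the dilates of the part of dimension four -/
def TT (F : Finset (ℂ × ℕ)) (C : ℂ × ℕ → Fld D) (τ : ℝ) : Fld D := ∑ p ∈ F, cf τ p • C p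

theorem tt_apply (F : Finset (ℂ × ℕ)) (C : ℂ × ℕ → Fld D) (τ : ℝ) (f : Fn) (v : D) :
    TT F C τ f v = ∑ p ∈ F, cf τ p • C p f v := by
  simp only [TT, Finset.sum_apply, Pi.smul_apply]

open Classical in
/-- coefficients that select the component `(4, 0)` -/
def Sel (F : Finset (ℂ × ℕ)) (M : ℕ) (S : Finset ℝ) (a : ℝ → ℂ) : Prop :=
  ∀ p ∈ F, p.2 < M ∧ ∀ j < M, ∑ t ∈ S, a t * pg (p.1, j) t = if (p.1, j) = (4, 0) then 1 else 0

theorem tt_fm {F : Finset (ℂ × ℕ)} {C : ℂ × ℕ → Fld D} (h : Scl Q B F C) (R : M1 Q) {M : ℕ}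
    {S : Finset ℝ} {a : ℝ → ℂ} (ha : Sel F M S a) (τ : ℝ) (hf : IsTest f) (v : D) :
    TT F C τ f v = ∑ t ∈ S, a t • dl Q _ (Real.exp_pos (τ + t)) B f v := by
  classical
  simp only [sdl h R _ hf, Finset.smul_sum, smul_smul]
  rw [Finset.sum_comm, tt_apply]
  refine Finset.sum_congr rfl fun p hp => ?_
  obtain ⟨d, j⟩ := p
  obtain ⟨a2, a1⟩ := ha _ hp
  simp only [← Finset.sum_smul, pg_add d a2, Finset.mul_sum, mul_left_comm (a _)]
  rw [Finset.sum_comm]
  simp only [← Finset.mul_sum]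
  rw [Finset.sum_congr rfl fun i hi => by rw [a1 i (Finset.mem_range.1 hi)], cf]
  by_cases hd : d = 4
  · subst hd
    simp [Nat.zero_lt_of_lt a2]
  · simp [hd]

theorem ex_sel (F : Ix → Ix → Finset (ℂ × ℕ)) : ∃ (M : ℕ) (S : Finset ℝ) (c : ℝ → ℂ),
    ∑ t ∈ S, c t = 1 ∧ ∀ m n, Sel (F m n) M S c ∧ Sel (F m n) M S fun t => conj (c t) := by
  classical
  let F0 := Finset.univ.biUnion fun p : Ix × Ix => F p.1 p.2
  let Λ := insert 4 (F0.image Prod.fst ∪ F0.image fun p => conj p.1)
  let M := F0.sup Prod.snd + 1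
  have m0 : ∀ m n, ∀ p ∈ F m n, p.1 ∈ Λ ∧ conj p.1 ∈ Λ ∧ p.2 < M := fun m n p hp =>
    have : p ∈ F0 := Finset.mem_biUnion.2 ⟨(m, n), Finset.mem_univ _, hp⟩
    ⟨Finset.mem_insert_of_mem (Finset.mem_union_left _ (Finset.mem_image_of_mem _ this)),
      Finset.mem_insert_of_mem (Finset.mem_union_right _
        (Finset.mem_image_of_mem (fun p : ℂ × ℕ => conj p.1) this)),
      Nat.lt_succ_of_le (Finset.le_sup (f := Prod.snd) this)⟩
  obtain ⟨S, c, hc0⟩ := vg (Λ ×ˢ Finset.range M) (4, 0)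
  have hc1 : ∀ d ∈ Λ, ∀ j < M, ∑ t ∈ S, c t * pg (d, j) t = if (d, j) = (4, 0) then 1 else 0 :=
    fun d hd j hj => by
      convert hc0 (d, j) (Finset.mem_product.2 ⟨hd, Finset.mem_range.2 hj⟩)
  refine ⟨M, S, c, by simpa [CL.pg, CL.ph] using hc1 4 (Finset.mem_insert_self _ _) 0 (Nat.succ_pos _),
    fun m n => ⟨fun p hp => ⟨(m0 m n p hp).2.2, fun j hj => ?_⟩,
      fun p hp => ⟨(m0 m n p hp).2.2, fun j hj => ?_⟩⟩⟩
  · convert hc1 _ (m0 m n p hp).1 j hj
  · have := congrArg conj (hc1 _ (m0 m n p hp).2.1 j hj)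
    simp only [map_sum, map_mul, pg_conj, Complex.conj_conj, apply_ite conj, map_one,
      map_zero] at this
    rw [this]
    refine if_congr ⟨fun h => Prod.ext ?_ (congrArg Prod.snd h :), fun h => Prod.ext ?_
      (congrArg Prod.snd h :)⟩ rfl rfl
    · simpa [map_ofNat] using congrArg (fun p => conj p.1) h
    · simpa [map_ofNat] using congrArg (fun p => conj p.1) h

theorem lim {S : Finset ℝ} {c : ℝ → ℂ} (c1 : ∑ t ∈ S, c t = 1) (hB : Q.fld B) (hf : IsTest f)
    (P : ℝ → D → D) (P' : ℝ → ℝ → D → D) (v w : D) (y : ℂ)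
    (h1 : ∀ᶠ r in atTop, ∀ z, P r z = ∑ t ∈ S, c t • P' t r z)
    (h2 : ∀ t, Tendsto (fun r => inner ℂ w (P' t r (B f v) - B f (P' t r v))) atTop (𝓝 y)) :
    Tendsto (fun r => inner ℂ w (P r (B f v) - B f (P r v))) atTop (𝓝 y) := by
  have := tendsto_finset_sum S fun t _ => (h2 t).const_mul (c t)
  rw [← Finset.sum_mul, c1, one_mul] at this
  refine this.congr' (h1.mono fun r hr => ?_)
  simp only [hr, ← Fss.fl_apply hB hf, map_sum, map_smul, ← Finset.sum_sub_distrib, ← smul_sub,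
    inner_sum, inner_smul_right]

theorem fam (R' : Rep Q A) (hF : FSL Q) (hT : Stress0 Q T) (hP : ND.PCh Q T A)
    {F : Ix → Ix → Finset (ℂ × ℕ)} {C : Ix → Ix → ℂ × ℕ → Fld D}
    (hC : ∀ m n, Scl Q (T m n) (F m n) (C m n)) :
    ∃ n0, Fam (hull Q) (fun τ m n => TT (F m n) (C m n) τ) n0 ∧
      ∀ τ, ND.PCh (hull Q) (fun m n => TT (F m n) (C m n) τ) A := by
  have R := m1_rep R'
  obtain ⟨M, S, c, c1, hc⟩ := ex_sel F
  have fm := fun τ m n f v (hf : IsTest f) => tt_fm (hC m n) R (hc m n).1 τ hf v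
  have hb : ∀ τ m n, (hull Q).bose (TT (F m n) (C m n) τ) := fun τ m n =>
    Submodule.sum_mem _ fun p _ => Submodule.smul_mem _ _ (sp_of (((hC m n).1 p).2 (hT.bose m n)))
  have hb' := fun τ m n => (hull Q).bose_fld _ (hb τ m n)
  have cv : ∀ τ m n L a f v, IsLor L → IsTest f → TT (F m n) (C m n) τ f (Q.U 1 L a v) =
      ∑ k, ∑ l, (L k m * L l n : ℂ) •
        Q.U 1 L a (TT (F k l) (C k l) τ (fun x => f (sim 1 L a x)) v) :=
    fun τ m n L a f v hL hf => by
      have t1 := Ap.test_sim one_pos hL a hf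
      let W : D →ₗ[ℂ] D := ⟨⟨Q.U 1 L a, U_add one_pos hL a⟩, U_smul one_pos hL a⟩
      show _ = ∑ k, ∑ l, _ • W _
      simp only [fm _ _ _ _ _ t1, fm _ _ _ f _ hf, map_sum, map_smul, Finset.smul_sum,
        dl_cov R hT _ m n hL a hf]
      rw [Finset.sum_comm]
      refine Finset.sum_congr rfl fun k _ => ?_
      rw [Finset.sum_comm]
      exact Finset.sum_congr rfl fun l _ => Finset.sum_congr rfl fun t _ => smul_comm _ _ _
  have dim : ∀ τ m n s (hs : 0 < s) f v, IsTest f → TT (F m n) (C m n) (τ + Real.log s) f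
      (u Q s hs v) = u Q s hs (TT (F m n) (C m n) τ (ds s f) v) := fun τ m n s hs f v hf => by
    obtain ⟨s, rfl⟩ : ∃ t, Real.exp t = s := ⟨_, Real.exp_log hs⟩
    rw [Real.log_exp, fm _ _ _ _ _ hf, fm _ _ _ _ _ (ds_test hs hf), map_sum]
    refine Finset.sum_congr rfl fun t _ => ?_
    have := dl_dl (B := T m n) (f := f) R s (τ + t) (u Q _ hs v)
    rw [Fss.dl, inv_u R] at this
    rw [map_smul, this]
    simp only [add_assoc, add_left_comm s]
  refine ⟨M, ⟨fun τ => ⟨hb τ, fun m n f v hf => ?_, fun m n f v w hf => ?_, cv τ,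
    fun n f v hf => ?_, fun G n B f v w hG hB hf hc' => ?_⟩, fun τ m n s L a f v hs hL hf => ?_,
    fun m n f v hf => ?_⟩, fun τ G X B f v w hG hX hB hf hc' => ?_⟩
  · simp only [fm _ _ _ f v hf, Fss.dl, hT.symm m n _ _ (ds_test (Real.exp_pos _) hf)]
  · rw [fm _ _ _ f v hf, tt_fm (hC m n) R (hc m n).2 τ (Ap.test_bar hf), sum_inner, inner_sum]
    exact Finset.sum_congr rfl fun t _ => by
      rw [inner_smul_left, inner_smul_right, dl_herm R hT _ m n hf]
  · simp only [fun m => fm τ m n _ v (Ap.test_pd m hf)]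
    rw [Finset.sum_comm]
    simp only [← Finset.smul_sum, dl_cons R hT _ n hf, smul_zero, Finset.sum_const_zero]
  · refine lim_sp ((isTest_cutoff hG).mono fun r hr => sp_fl (hb' τ o n) hr) v w
      (fun B => (Complex.I * eta n) • B (pd n f) v) (smul_zero _) (fun B C a => by module)
      (fun B hB => ?_) hB
    obtain ⟨_, _, h⟩ := hF B hB
    exact lim c1 hB hf _ (fun t r => Fss.dl Q _ (Real.exp_pos (τ + t)) (T o n) (G r)) v w _
      ((isTest_cutoff hG).mono fun r hr z => fm τ o n _ z hr) fun t =>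
        charge R hT _ h hB hG n hf hc' v w
  · have t1 := Ap.test_sim one_pos hL a hf
    show TT _ _ _ f (Q.U s L a v) = ∑ k, ∑ l, _ • Q.U s L a _
    rw [← (U_dil R hs hL a v).2, cv _ m n L a f _ hL hf]
    refine Finset.sum_congr rfl fun k _ => Finset.sum_congr rfl fun l _ => ?_
    rw [dim τ k l s hs _ v t1, (U_dil R hs hL a _).2,
      show ds s (fun x => f (sim 1 L a x)) = fun x => f (sim s L a x) from funext fun x => by
        rw [ds_apply]
        simp only [N86.c1_sim _ L a, simL_smul, one_smul]]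
  · classical
    refine IsPol.of_poly (F m n) (fun p => if p.1 = 4 then (-Polynomial.X) ^ p.2 else 0)
      (fun p => C m n p f v) (fun p hp => ?_) fun τ => ?_
    · split_ifs
      · simpa [Polynomial.natDegree_pow] using ((hc m n).1 p hp).1.le
      · simp
    · rw [tt_apply]
      refine Finset.sum_congr rfl fun p _ => ?_
      rw [← Complex.coe_smul, cf]
      split_ifs <;> simp
  · refine lim_sp ((isTest_cutoff hG).mono fun r hr => ?_) v w
      (fun B => A X (B f v) - B f (A X v)) ?_ (fun B C a => ?_) (fun B hB => ?_) hB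
    · exact funext (curL_apply (hb' τ) hX hr) ▸ (curL (hb' τ) hX hr).isLinear
    · simpa using H746.A_smulv R' hX 0 v
    · simp only [H746.A_addv R' hX, H746.A_smulv R' hX]
      module
    obtain ⟨_, _, h⟩ := hF B hB
    refine lim c1 hB hf _ (fun t r => ND.cur (fun m n => Fss.dl Q _ (Real.exp_pos (τ + t)) (T m n))
      X (G r)) v w _ ((isTest_cutoff hG).mono fun r hr z => ?_) fun t =>
        pch R hT _ R' hP h hG hX hf hc' v w
    simp only [ND.cur, fun n => fm τ o n _ z (test_sim0 hX hr n), Finset.smul_sum]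
    exact Finset.sum_comm

/-! ### the degenerate case -/

/-- null vectors in the coordinate planes -/
def na (j : Ix) : V := bas 0 1 + bas j 1
def nb (j : Ix) : V := bas 0 (1 / 2) - bas j (1 / 2)
/-- coordinate boosts -/
def bo (j : Ix) (e : Bool) : Ix → V := bst (na j) (nb j) (if e then 1 else -1 / 2)
  (if e then -1 / 2 else 1)

theorem lor_bo {j : Ix} (hj : j ≠ 0) (e : Bool) : IsLor (bo j e) := by
  refine isLor_bst ?_ ?_ ?_ (by cases e <;> norm_num) (by cases e <;> norm_num) <;>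
    fin_cases j <;> simp [IsNull, na, nb, bas, H496.gm, o] at hj ⊢ <;> norm_num

theorem bo_eq {j : Ix} (hj : j ≠ 0) (e : Bool) (k m : Ix) : bo j e k m =
    bas k 1 m + (bas 0 1 k * bas 0 1 m + bas j 1 k * bas j 1 m) / 4 +
      (if e then 3 / 4 else -3 / 4) * (bas 0 1 k * bas j 1 m + bas j 1 k * bas 0 1 m) := by
  have e0 : eta k * bas 0 1 k = bas 0 1 k := by by_cases h : k = 0 <;> simp [bas, eta, o, h]
  have e1 : eta k * bas j 1 k = -bas j 1 k := by by_cases h : k = j <;> simp [bas, eta, o, h, hj]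
  simp only [bo, bst, na, nb, Ap.bas_smul _ (1 / 2), Pi.add_apply, Pi.sub_apply, Pi.smul_apply,
    smul_eq_mul]
  cases e
  · simp only [Bool.false_eq_true, if_false]
    linear_combination (-1 / 4 * (bas 0 1 m + bas j 1 m) + (bas 0 1 m - bas j 1 m) / 2) * e0 +
      (1 / 4 * (bas 0 1 m + bas j 1 m) + (bas 0 1 m - bas j 1 m) / 2) * e1
  · simp only [if_true]
    linear_combination (1 / 2 * (bas 0 1 m + bas j 1 m) - (bas 0 1 m - bas j 1 m) / 4) * e0 -
      (1 / 2 * (bas 0 1 m + bas j 1 m) + (bas 0 1 m - bas j 1 m) / 4) * e1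

theorem alg1 {t : Ix → Ix → D} (hs : ∀ k l, t k l = t l k) (m n : Ix) (h0 : m = n ∨ t m n = 0)
    {y : D} (h : ∀ e, y = ∑ k, ∑ l, (bo (if m = 0 then 1 else m) e k m *
      bo (if m = 0 then 1 else m) e l n : ℂ) • t k l) :
    t 0 (if n = 0 then if m = 0 then 1 else m else n) = 0 := by
  have hj : (if m = 0 then 1 else m) ≠ 0 := by split_ifs <;> simp [*]
  have h1 := (h true).symm.trans (h false)
  simp only [bo_eq hj, Fin.sum_univ_four, hs 1 0, hs 2 0, hs 3 0] at h1
  clear h hj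
  fin_cases m <;> fin_cases n <;> simp [bas] at h0 h1 ⊢ <;>
    first
    | exact h0
    | exact (hs _ _).trans h0
    | linear_combination (norm := module) (4 / 15 : ℂ) • h1
    | linear_combination (norm := module) (2 / 3 : ℂ) • h1

theorem ext_in {α : Type*} [TopologicalSpace α] [T2Space α] {u : Fn → α} {y : α}
    (hu : Continuous fun g => u (ev g)) (h : ∀ f, In Set.univ f → u f = y) (hf : IsTest f) :
    u f = y := by
  obtain ⟨g, rfl⟩ := hf
  obtain ⟨-, w, -, -, h1, -, h2⟩ := ST.exists_cut g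
  exact tendsto_nhds_unique (((hu.tendsto g).comp h2).congr fun n =>
    h _ ⟨⟨w n, rfl⟩, h1 n, Set.subset_univ _⟩) tendsto_const_nhds

theorem u_inj {L : Ix → V} (hL : IsLor L) {v : D} (h : Q.U 1 L 0 v = 0) : v = 0 := by
  rw [← norm_eq_zero, ← U_nrm0 (Q := Q) one_pos hL 0 v, h, norm_zero]

/-- a generator that commutes with the fields vanishes -/
theorem gen_zero (R : Rep Q A) {X : V → V} (hX : IsSim 0 X)
    (h : ∀ B f v, Q.fld B → In Set.univ f → A X (B f v) = B f (A X v)) (v : D) : A X v = 0 := by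
  refine (dense_gen_univ Q).eq_zero_of_inner_right ℂ ?_
  rintro _ ⟨Y, Y', hY, rfl⟩
  rw [← H746.A_symm R hX, show A X (Y Q.vac) = 0 from ?_, inner_zero_left]
  induction hY with
  | one => exact H746.A_vac R hX
  | add _ _ _ _ _ _ h1 h2 => rw [H746.A_addv R hX, h1, h2, add_zero]
  | smul _ _ _ _ h1 => rw [H746.A_smulv R hX, h1, smul_zero]
  | fld B _ g _ _ hB _ _ hg _ h1 => rw [h _ _ _ hB hg, h1]; exact (Fss.fl hB hg.1).map_zero

/-- if one spatial translation is trivial then the Hilbert space is one dimensional -/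
theorem triv0 (R : Rep Q A) (hU : UVac Q) {i : Ix} (hi : i ≠ 0)
    (h : ∀ v, A (fun _ => bas i 1) v = 0) (v : D) : ∃ c : ℂ, v = c • Q.vac := by
  let G : Submodule ℝ V := ⟨⟨⟨{a | ∀ v, A (fun _ => a) v = 0}, fun {a b} ha hb v => by
    rw [A_addX R v (const_sim a) (const_sim b), ha, hb, add_zero]⟩, A_zero' R⟩, fun c a ha v => by
      have := R.add 0 0 c _ _ v (const_sim 0) (const_sim a)
      simpa only [zero_add, ha v, A_zero' R, smul_zero] using this⟩
  have inv : ∀ L, IsLor L → ∀ a ∈ G, sim 1 L 0 a ∈ G := fun L hL a ha v =>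
    u_inj (Q := Q) (isLor_linv hL) (by
      rw [N86.A_conj R (const_sim _) one_pos (isLor_linv hL)]
      simpa only [N86.c1_linv hL, one_smul] using ha _)
  have st : ∀ j ≠ 0, ∀ x ∈ G, GF.mdot (nb j) x = 1 / 2 → na j ∈ G := fun j hj x hx e => by
    have h1 := inv _ (lor_bo hj true) x hx
    have h2 := inv _ (lor_bo hj false) x hx
    rw [bo, sim_bst, e] at h1 h2
    convert G.smul_mem (4 / 3) (G.sub_mem (G.add_mem (G.smul_mem 2 h1) h2) (G.smul_mem 3 hx))
    simp only [if_true, Bool.false_eq_true, if_false]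
    module
  have g0 : bas 0 1 ∈ G := by
    simpa [na] using G.sub_mem (st i hi _ h (by
      fin_cases i <;> simp [nb, bas, H496.gm] at hi ⊢)) h
  have g1 : ∀ j, bas j 1 ∈ G := fun j => by
    by_cases hj : j = 0
    · rwa [hj]
    · simpa [na] using G.sub_mem (st j hj _ g0 (by
        fin_cases j <;> simp [nb, bas, H496.gm] at hj ⊢)) g0
  have g2 : ∀ a w, Q.U 1 GF.one a w = w := fun a w => by
    have ha : a ∈ G := Ap.sum_bas a ▸ G.sum_mem fun m _ => G.smul_mem _ (g1 m)
    have d : ∀ t : ℝ, HasDerivAt (fun e : ℝ => Q.U 1 GF.one (e • a) w) 0 t := fun t => by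
      have := R.der (fun _ => 1) (fun _ => GF.one) (fun e => e • a) (fun _ => a)
        (Q.U 1 GF.one (t • a) w) rfl rfl (zero_smul _ _) (fun _ => ⟨one_pos, H496.isLor_one⟩)
        fun n z => by
          simpa only [sim_dil, Pi.add_apply, Pi.smul_apply, smul_eq_mul, one_mul] using
            (hasDerivAt_mul_const (x := (0 : ℝ)) (a n)).add_const (z n)
      rw [ha, smul_zero, ← sub_self t] at this
      simpa only [Uadd1, ← add_smul, sub_add_cancel] using this.comp_sub_const t t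
    have := is_const_of_deriv_eq_zero (fun t => (d t).differentiableAt) (fun t => (d t).deriv) 1 0
    rwa [one_smul, zero_smul, U0] at this
  obtain ⟨c, hc⟩ := hU v fun a => by rw [ue_coe one_pos H496.isLor_one, g2]
  exact ⟨c, Completion.coe_injective D (hc.trans (Completion.coe_smul _ _).symm)⟩

theorem triv (R : Rep Q A) (hU : UVac Q) (hT : Stress0 Q T) (hP : ND.PCh Q T A) {m n : Ix}
    (h0 : ∀ f v, IsTest f → T m n f v = 0) (v : D) : ∃ c : ℂ, v = c • Q.vac := by
  have hb := fun m n => Q.bose_fld _ (hT.bose m n)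
  set i : Ix := if n = 0 then if m = 0 then 1 else m else n with ei
  have hi : i ≠ 0 := by
    rw [ei]
    split_ifs <;> simp [*]
  have h1 : ∀ g w, IsTest g → T o i g w = 0 := fun g w hg => by
    refine alg1 (t := fun k l => T k l g w) (fun k l => hT.symm k l g w hg) m n (.inr (h0 g w hg))
      (y := 0) fun e => ?_
    have hL : IsLor (bo (if m = 0 then 1 else m) e) := lor_bo (by split_ifs <;> simp [*]) e
    have t1 := Ap.test_sim one_pos (isLor_linv hL) 0 hg
    have := hT.cov m n _ 0 _ w hL t1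
    simp only [h0 _ _ t1, N86.c1_linv hL] at this
    refine (u_inj (Q := Q) hL (Eq.trans ?_ this.symm)).symm
    rw [← ueI_apply one_pos hL]
    simp only [map_sum, map_smul, ueI_apply]
  refine triv0 R hU hi (gen_zero R (const_sim _) fun B f v hB hf => sub_eq_zero.1
    (ext_inner_left ℂ fun w => ?_)) v
  refine tendsto_nhds_unique (hP _ _ B f v w isCutoff_cutF (const_sim _) hB hf.1 hf.2.1)
    (tendsto_const_nhds.congr' ((isTest_cutoff isCutoff_cutF).mono fun r hr => ?_))
  have : ∀ z, ND.cur T (fun _ => bas i 1) (cutF r) z = 0 := fun z =>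
    Finset.sum_eq_zero fun k _ => by
      rw [lin1 (hb o k) hr]
      by_cases e : k = i
      · rw [e, h1 _ _ hr, smul_zero]
      · simp [bas, e]
  simp only [this, ← Fss.fl_apply hB hf.1, map_zero, sub_zero]

theorem triv2 (hT : Stress0 Q T) (h : ∀ v, ∃ c : ℂ, v = c • Q.vac) (hf : IsTest f) (v : D) :
    T 0 1 f v = 0 := by
  have hb := fun m n => Q.bose_fld _ (hT.bose m n)
  have hU : ∀ L, IsLor L → ∀ v, Q.U 1 L 0 v = v := fun L hL v => by
    obtain ⟨c, rfl⟩ := h v
    rw [U_smul one_pos hL, Q.U_vac _ _ _ one_pos hL]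
  have h1 : ∀ k l n g, In Set.univ g → T k l (pd n g) v = 0 := fun k l n g hg => by
    refine (smul_eq_zero.1 (ext_inner_left ℂ fun w => tendsto_nhds_unique
      (hT.charge _ n _ g v w isCutoff_cutF (hb k l) hg.1 hg.2.1) (tendsto_const_nhds.congr'
        ((isTest_cutoff isCutoff_cutF).mono fun r hr => ?_)))).resolve_left
      (mul_ne_zero Complex.I_ne_zero (by unfold eta; split_ifs <;> simp))
    obtain ⟨c, rfl⟩ := h v
    obtain ⟨a, ha⟩ := h (T k l g Q.vac)
    obtain ⟨b, hb'⟩ := h (T o n (cutF r) Q.vac)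
    simp only [H746.fld_smul (hb k l) hg.1, H746.fld_smul (hb o n) hr]
    rw [ha, hb', H746.fld_smul (hb k l) hg.1, H746.fld_smul (hb o n) hr, ha, hb', smul_comm a,
      sub_self]
  let b : ContDiffBump (0 : V) := ⟨1, 2, one_pos, one_lt_two⟩
  have hρ : In Set.univ fun x => (b x : ℂ) :=
    Ap.in_cx ⟨b.contDiff, b.hasCompactSupport⟩ (Set.subset_univ _)
  have i0 : ∫ x, (b x : ℂ) ≠ 0 := by
    rw [integral_complex_ofReal]
    exact Complex.ofReal_ne_zero.2 b.integral_pos.ne'
  have h2 : ∀ k l g, In Set.univ g → (∫ x, (b x : ℂ)) • T k l g v =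
      (∫ x, g x) • T k l (fun x => b x) v := fun k l g hg => by
    obtain ⟨w, hw, e⟩ := EB.NA.Mom.div convex_univ hg hρ
    have := lin2 (hb k l) hρ.1 hg.1 (∫ x, g x) (-∫ x, (b x : ℂ)) v
    simp only [neg_mul, ← sub_eq_add_neg, e, Fin.sum_univ_four, neg_smul] at this
    have t := fun i => Ap.test_pd i (hw i).1
    have a := fun f g hf hg => Q.lin (T k l) f g 1 v (hb k l) hf hg
    simp only [one_mul, one_smul] at a
    rw [a _ _ (Ap.sw_add (Ap.sw_add (t 0) (t 1)) (t 2)) (t 3), a _ _ (Ap.sw_add (t 0) (t 1)) (t 2),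
      a _ _ (t 0) (t 1)] at this
    simp only [h1 _ _ _ _ (hw _), add_zero] at this
    exact (sub_eq_zero.1 this.symm).symm
  have h3 : ∀ e, T 0 0 (fun x => b x) v = ∑ k, ∑ l, (bo 1 e k 0 * bo 1 e l 0 : ℂ) •
      T k l (fun x => b x) v := fun e => by
    have hL := lor_bo one_ne_zero e
    have := hT.cov 0 0 _ 0 _ v hL hρ.1
    simp only [hU _ hL] at this
    rw [this]
    refine Finset.sum_congr rfl fun k _ => Finset.sum_congr rfl fun l _ => congrArg _ ?_
    refine smul_right_injective D i0 ((h2 k l _ (Ap.in_sim one_pos hL 0 hρ)).trans ?_)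
    rw [(sc_sim one_pos hL 0).integral fun x => (b x : ℂ)]
    simp
  have h4 : T 0 1 (fun x => b x) v = 0 := alg1 (t := fun k l => T k l (fun x => b x) v)
    (fun k l => hT.symm k l _ v hρ.1) 0 0 (.inl rfl) h3
  refine ext_in (u := fun f => T 0 1 f v) (Q.cont _ v (hb 0 1)) (fun g hg => ?_) hf
  exact (smul_eq_zero.1 ((h2 0 1 g hg).trans (by rw [h4, smul_zero]))).resolve_left i0

/-! ### back to scaling laws without logarithms -/

theorem nolog (hT : Stress0 Q T) {F : Ix → Ix → Finset (ℂ × ℕ)} {C : Ix → Ix → ℂ × ℕ → Fld D}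
    (hC : ∀ m n, Scl Q (T m n) (F m n) (C m n))
    (h0 : ∀ m n, (∀ f v, IsTest f → TT (F m n) (C m n) 0 f v = 0) →
      ∀ v, ∃ c : ℂ, v = c • Q.vac)
    (h : ∀ t m n f v, IsTest f → TT (F m n) (C m n) t f v = TT (F m n) (C m n) 0 f v) :
    NoLog Q T := fun m n => by
  classical
  have z : ∀ p ∈ F m n, p.1 = 4 → p.2 ≠ 0 → ∀ f v, IsTest f → C m n p f v = 0 :=
    fun p hp h4 hj f v hf => by
      obtain ⟨S, c, hc⟩ := vg (insert (4, 0) (F m n)) p
      have c0 : ∑ t ∈ S, c t = 0 := by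
        simpa [CL.pg, CL.ph, Prod.ext_iff, hj.symm] using hc _ (Finset.mem_insert_self _ _)
      have e : ∑ t ∈ S, c t • TT (F m n) (C m n) t f v = C m n p f v := by
        simp only [tt_apply, Finset.smul_sum, smul_smul]
        rw [Finset.sum_comm, Finset.sum_eq_single_of_mem p hp fun q hq ne => ?_]
        all_goals rw [← Finset.sum_smul]
        · have := hc p (Finset.mem_insert_of_mem hp)
          simp only [CL.pg, CL.ph, h4, sub_self, mul_zero, Complex.exp_zero, one_mul, if_true,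
            ← mul_pow, mul_neg_one] at this
          simp only [cf, h4, if_true, this, one_smul]
        · by_cases q4 : q.1 = 4
          · have := hc q (Finset.mem_insert_of_mem hq)
            simp only [CL.pg, CL.ph, q4, sub_self, mul_zero, Complex.exp_zero, one_mul, if_neg ne,
              ← mul_pow, mul_neg_one] at this
            simp only [cf, q4, if_true, this, zero_smul]
          · simp [cf, q4]
      rw [← e]
      simp only [h _ m n f v hf, ← Finset.sum_smul, c0, zero_smul]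
  obtain ⟨Z, hZ, eZ⟩ : ∃ Z, Q.bose Z ∧ ∀ f v, IsTest f →
      Z f v = if (4, 0) ∈ F m n then C m n (4, 0) f v else 0 := by
    split_ifs with h4
    · exact ⟨_, ((hC m n).1 _).2 (hT.bose m n), fun _ _ _ => rfl⟩
    · refine ⟨_, hT.bose 0 1, fun f v hf => triv2 hT (h0 m n fun f v hf => ?_) hf v⟩
      rw [tt_apply]
      refine Finset.sum_eq_zero fun p hp => ?_
      rw [show cf 0 p = 0 from ?_, zero_smul]
      rw [cf]
      split_ifs with e
      · rw [Complex.ofReal_zero, neg_zero, zero_pow fun e' =>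
          h4 ((Prod.ext e e' : p = (4, 0)) ▸ hp)]
      · rfl
  refine ⟨insert (4, 0) ((F m n).filter fun p => p.1 ≠ 4), Function.update (C m n) (4, 0) Z,
    ⟨fun p => ?_, fun s f v hs hf => ?_⟩, fun j => by simp⟩
  · by_cases e : p = (4, 0)
    · rw [e, Function.update_self]
      exact ⟨Q.bose_fld _ hZ, fun _ => hZ⟩
    · rw [Function.update_of_ne e]
      exact (hC m n).1 p
  · have t1 := Ap.test_sim hs H496.isLor_one 0 hf
    have u0 : Q.U s GF.one 0 0 = 0 := (u Q s hs).map_zero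
    rw [(hC m n).2 s f v hs hf, Finset.sum_insert (by simp), Function.update_self, eZ _ _ t1,
      ← Finset.sum_filter_add_sum_filter_not (F m n) fun p => p.1 = 4]
    congr 1
    · split_ifs with h4
      · refine Finset.sum_eq_single_of_mem _ (by simpa using h4) fun p hp ne => ?_
        obtain ⟨p1, p2⟩ := Finset.mem_filter.1 hp
        rw [z p p1 p2 (fun e => ne (Prod.ext p2 e)) _ _ t1, u0, smul_zero]
      · rw [u0, smul_zero]
        refine Finset.sum_eq_zero fun p hp => ?_
        obtain ⟨p1, p2⟩ := Finset.mem_filter.1 hp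
        rw [z p p1 p2 (fun e => h4 ((Prod.ext p2 e : p = (4, 0)) ▸ p1)) _ _ t1, u0, smul_zero]
    · exact Finset.sum_congr rfl fun p hp => by
        rw [Function.update_of_ne fun e => (Finset.mem_filter.1 hp).2 (congrArg Prod.fst e)]

end StA

open StA

/-- **the family of stress tensors** -/
theorem start_fam (Q : Theory D) (T : Ix → Ix → Fld D) (hT : Stress0 Q T) (A : (V → V) → D → D)
    (hA : ND.PCh Q T A) (hG : TfGen Q) (hF : FSL Q) (N : Set V → VonNeumannAlgebra (Completion D))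
    (hN : LNm Q A N) (hU : L.UVac Q) : ∃ (Q' : Theory D) (TT : ℝ → Ix → Ix → Fld D) (n0 : ℕ),
    IsEnl Q Q' ∧ Fam Q' TT n0 ∧ (∀ t, ND.PCh Q' (TT t) A) ∧ TfGen Q' ∧ LNm Q' A N ∧ UVac Q' ∧
      ((∀ t m n f v, IsTest f → TT t m n f v = TT 0 m n f v) → NoLog Q T) := by
  choose F C hC using fun m n => hF (T m n) (Q.bose_fld _ (hT.bose m n))
  obtain ⟨n0, h1, h2⟩ := fam hN.toRep hF hT hA hC
  exact ⟨hull Q, _, n0, enl, h1, h2, tfg hG, lnm hN, hU, nolog hT hC fun m n h =>
    triv (Q := hull Q) (rep hN.toRep) hU (h1.st 0) (h2 0) h⟩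

open CTXp in
/-- **the base exists** -/
theorem ex_base (Q : Theory D) (A : (V → V) → D → D)
    (N : Set V → VonNeumannAlgebra (Completion D)) (hG : TfGen Q) (hN : LNm Q A N) (hU : UVac Q) :
    ∃ b : Base D, b.Q = Q ∧ b.A = A ∧ b.N = N := by
  obtain ⟨S, hS⟩ := S0.grp0 (H268.s0 hG hN)
  obtain ⟨E⟩ := hN.modW fr.ha fr.hb fr.hab
  have e1 : (fun (y : V) (z : Completion D) => Ut Q y z) = fun y => Ue Q 1 GF.one y := by
    funext y z
    exact Ug_apply Q one_pos H496.isLor_one y z
  have e2 : (fun (y : P3) (z : Completion D) => Ut Q (y.1 • va) (Ga Q y.2 z)) =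
      fun y z => Ue Q 1 GF.one (y.1 • va) (Ue Q 1 (Kin.Gm va ex y.2) 0 z) := by
    funext y z
    rw [Ut, Ga, Ug_apply Q one_pos H496.isLor_one, gmw, Ug_apply Q one_pos (fr.lor _)]
  obtain ⟨bt⟩ : Nonempty (SN.BC (fun p y : V => GF.mdot p y) fun y z => Ut Q y z) := by
    rw [e1]
    exact Kin.exists_TC hN.toRep
  obtain ⟨a3⟩ : Nonempty (SN.BC pr3 fun (y : P3) z => Ut Q (y.1 • va) (Ga Q y.2 z)) := by
    rw [e2]
    exact SN.exists_BC pair3 ((Kin.urep_a hN.toRep va).prod (Kin.urep_G hN.toRep fr)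
      fun x y v => (Kin.G_a hN.toRep fr y x v).symm)
  refine ⟨⟨Q, A, N, S, E, bt, a3, hG, hN, hU, hS.grp1 hG hN,
    fun a z w ha hz => (H268.gr0 hS).pos hG hN a z w ha hz, fun s z => ?_⟩, rfl, rfl, rfl⟩
  have h1 : Real.sqrt (Real.exp (-(2 * Real.pi * s)) * Real.exp (-(-(2 * Real.pi * s)))) = 1 := by
    rw [← Real.exp_add, add_neg_cancel, Real.exp_zero, Real.sqrt_one]
  have h2 : ∀ u : ℝ, Real.sqrt (Real.exp u / Real.exp (-u)) = Real.exp u := fun u => by
    rw [← Real.exp_sub, sub_neg_eq_add, Real.exp_add, Real.sqrt_mul_self (Real.exp_pos u).le]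
  have h3 : Real.sqrt (Real.exp (-(-(2 * Real.pi * s))) / Real.exp (-(2 * Real.pi * s))) =
      Real.exp (2 * Real.pi * s) := by
    rw [neg_neg]
    exact h2 _
  have hL : IsLor (bst va vb (Real.exp (-(2 * Real.pi * s)) - 1) (Real.exp (2 * Real.pi * s) - 1)) :=
    isLor_bst fr.ha fr.hb fr.hab (by linarith [Real.exp_pos (-(2 * Real.pi * s))]) (by
      rw [add_sub_cancel, add_sub_cancel, ← Real.exp_add, neg_add_cancel, Real.exp_zero])
  rw [Bo, Usc, h1, h2, h3, Ug_apply Q one_pos hL]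
  exact hN.bw hG va vb s _ E z fr.ha fr.hb fr.hab hL fun x => sim_bst _ _ _ _ x

/-- the context without time ordered products -/
def ctx0 (b : Base D) {TT : ℝ → Ix → Ix → Fld D} {LL : ℝ → Fn → Completion D} {n0 : ℕ}
    (hF : Fam b.Q TT n0) (hP : ∀ τ, ND.PCh b.Q (TT τ) b.A) (hL : PotF b.Q TT LL n0)
    (wl : ∀ τ L a f X X', IsLor L → In (Wed L a 1) f → Al b.Q (Wed L a (-1)) X X' →
      inner ℂ ((X' b.Q.vac : D) : Completion D) (LL τ f) =
        inner ℂ (LL τ (bar f)) ((X b.Q.vac : D) : Completion D)) : Ctx D :=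
  ⟨b, TT, LL, 0, 0, 0, 0, n0, hF, hP, hL, wl, False, False.elim⟩

/-- **reduction to contexts**: if the families of all contexts are constant then there are no
logarithms -/
theorem nolog_of (fin : ∀ (c : Ctx D) x m n f v, IsTest f → c.TT x m n f v = c.TT 0 m n f v)
    (Q : Theory D) (T : Ix → Ix → Fld D) (hT : Stress0 Q T) (A : (V → V) → D → D)
    (hA : ND.PCh Q T A) (hG : TfGen Q) (hF : FSL Q) (N : Set V → VonNeumannAlgebra (Completion D))
    (hN : LNm Q A N) (hU : L.UVac Q) : NoLog Q T := by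
  obtain ⟨Q', TT, n0, -, h1, h2, h3, h4, h5, h6⟩ := start_fam Q T hT A hA hG hF N hN hU
  obtain ⟨b, rfl, rfl, rfl⟩ := ex_base Q' A N h3 h4 h5
  obtain ⟨LL, l1, l2⟩ := ex_pot b h1
  exact h6 (fin (ctx0 b h1 h2 l1 l2))

end

end Vale.Agent.P352L
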