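import Mathlib.LinearAlgebra.Lagrange
import Mathlib.Topology.Algebra.Polynomial
import Mathlib.Analysis.Normed.Module.Dual
import Mathlib.Analysis.SpecialFunctions.Pow.Asymptotics
import Mathlib.Analysis.SpecialFunctions.Log.Basic

/-!
# P352L: polynomial families, interpolation, and the running lemma (helper98)
-/

set_option linter.all false

open Filter Topology Polynomial Finset

namespace Vale.Agent.P352L

noncomputable section

/-- polynomial families of degree at most `J` -/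
def IsPol {E : Type*} [AddCommGroup E] [Module ℝ E] (J : ℕ) (F : ℝ → E) : Prop :=
  ∃ a : ℕ → E, ∀ τ, F τ = ∑ j ∈ range (J + 1), τ ^ j • a j

/-- the Lagrange polynomials for the nodes `0, ..., J` -/
def lagP (J i : ℕ) : ℝ[X] := Lagrange.basis (range (J + 1)) (fun n : ℕ => (n : ℝ)) i

/-- their values -/
def lag (J i : ℕ) (τ : ℝ) : ℝ := (lagP J i).eval τ

theorem lag_inj (J : ℕ) : Set.InjOn (fun n : ℕ => (n : ℝ)) (range (J + 1) : Finset ℕ) :=
  fun _ _ _ _ h => Nat.cast_injective h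

theorem lagP_deg {J i : ℕ} (hi : i ∈ range (J + 1)) : (lagP J i).natDegree ≤ J := by
  rw [lagP, Lagrange.natDegree_basis (lag_inj J) hi]
  simp

theorem eval_lag {J : ℕ} {p : ℝ[X]} (hp : p.natDegree ≤ J) (τ : ℝ) :
    p.eval τ = ∑ i ∈ range (J + 1), lag J i τ * p.eval (i : ℝ) := by
  have h : p.degree < (range (J + 1)).card := by
    rw [card_range]
    exact (degree_le_of_natDegree_le hp).trans_lt (by exact_mod_cast J.lt_succ_self)
  conv_lhs => rw [Lagrange.eq_interpolate (lag_inj J) h]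
  rw [Lagrange.interpolate_apply, eval_finset_sum]
  refine sum_congr rfl fun i _ => ?_
  rw [eval_mul, eval_C, mul_comm]
  rfl

theorem eval_bd {J : ℕ} {p : ℝ[X]} (hp : p.natDegree ≤ J) :
    ∃ C, 0 ≤ C ∧ ∀ τ, |p.eval τ| ≤ C * (1 + |τ|) ^ J := by
  refine ⟨∑ j ∈ range (J + 1), |p.coeff j|, sum_nonneg fun _ _ => abs_nonneg _, fun τ => ?_⟩
  rw [eval_eq_sum_range' (Nat.lt_succ_of_le hp), sum_mul]
  refine (abs_sum_le_sum_abs _ _).trans (sum_le_sum fun j hj => ?_)
  rw [abs_mul, abs_pow]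
  refine mul_le_mul_of_nonneg_left ((pow_le_pow_left₀ (abs_nonneg _) (by linarith) j).trans
    (pow_le_pow_right₀ (by linarith [abs_nonneg τ]) (Nat.lt_succ_iff.1 (mem_range.1 hj))))
    (abs_nonneg _)

theorem lag_bd (J : ℕ) : ∃ C, 0 ≤ C ∧ ∀ i ∈ range (J + 1), ∀ τ, |lag J i τ| ≤ C * (1 + |τ|) ^ J := by
  choose! C h0 hC using fun i (hi : i ∈ range (J + 1)) => eval_bd (lagP_deg hi)
  refine ⟨∑ i ∈ range (J + 1), C i, sum_nonneg h0, fun i hi τ => (hC i hi τ).trans ?_⟩
  exact mul_le_mul_of_nonneg_right (single_le_sum h0 hi) (by positivity)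

namespace IsPol

section alg

variable {E E' E'' : Type*} [AddCommGroup E] [Module ℝ E] [AddCommGroup E'] [Module ℝ E']
  [AddCommGroup E''] [Module ℝ E''] {J J' : ℕ} {F G : ℝ → E}

theorem of_poly {ι : Type*} (S : Finset ι) (p : ι → ℝ[X]) (a : ι → E)
    (hp : ∀ i ∈ S, (p i).natDegree ≤ J) (h : ∀ τ, F τ = ∑ i ∈ S, (p i).eval τ • a i) :
    IsPol J F := by
  refine ⟨fun j => ∑ i ∈ S, (p i).coeff j • a i, fun τ => ?_⟩
  simp only [h, smul_sum, smul_smul]
  rw [sum_comm]
  refine sum_congr rfl fun i hi => ?_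
  rw [eval_eq_sum_range' (Nat.lt_succ_of_le (hp i hi)), sum_smul]
  exact sum_congr rfl fun j _ => by rw [mul_comm]

/-- interpolation -/
theorem lag_eq (h : IsPol J F) (τ : ℝ) : F τ = ∑ i ∈ range (J + 1), lag J i τ • F i := by
  obtain ⟨a, h⟩ := h
  simp only [h, smul_sum, smul_smul]
  rw [sum_comm]
  refine sum_congr rfl fun j hj => ?_
  have := eval_lag (J := J) (p := X ^ j) (by simpa using Nat.lt_succ_iff.1 (mem_range.1 hj)) τ
  simp only [eval_pow, eval_X] at this
  rw [this, sum_smul]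

theorem of_lag {a : ℕ → E} (h : ∀ τ, F τ = ∑ i ∈ range (J + 1), lag J i τ • a i) : IsPol J F :=
  of_poly _ (lagP J) a (fun _ hi => lagP_deg hi) h

theorem const (J : ℕ) (a : E) : IsPol J fun _ => a :=
  of_poly {0} (fun _ : ℕ => 1) (fun _ => a) (by simp) (by simp)

theorem mono (h : IsPol J F) (e : J ≤ J') : IsPol J' F :=
  of_poly _ (lagP J) (fun i => F i) (fun _ hi => (lagP_deg hi).trans e) h.lag_eq

theorem congr (h : IsPol J F) (e : ∀ τ, G τ = F τ) : IsPol J G := funext e ▸ h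

theorem add (h : IsPol J F) (h' : IsPol J G) : IsPol J fun τ => F τ + G τ := by
  obtain ⟨a, h⟩ := h
  obtain ⟨b, h'⟩ := h'
  exact ⟨fun j => a j + b j, fun τ => by simp only [h, h', smul_add, sum_add_distrib]⟩

/-- real linear maps -/
theorem map (h : IsPol J F) (A : E →ₗ[ℝ] E') : IsPol J fun τ => A (F τ) := by
  obtain ⟨a, h⟩ := h
  exact ⟨fun j => A (a j), fun τ => by simp only [h, map_sum, map_smul]⟩

/-- maps that are additive and real homogeneous -/
theorem map' (h : IsPol J F) (A : E → E') (h1 : ∀ x y, A (x + y) = A x + A y)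
    (h2 : ∀ (t : ℝ) x, A (t • x) = t • A x) : IsPol J fun τ => A (F τ) :=
  h.map ⟨⟨A, h1⟩, h2⟩

/-- maps that are linear on a subspace that contains the family -/
theorem map_on (h : IsPol J F) (A : E → E') (P : E → Prop) (hP : ∀ τ, P (F τ)) (p0 : P 0)
    (p1 : ∀ x y, P x → P y → P (x + y)) (p2 : ∀ (t : ℝ) x, P x → P (t • x)) (h0 : A 0 = 0)
    (h1 : ∀ x y, P x → P y → A (x + y) = A x + A y)
    (h2 : ∀ (t : ℝ) x, P x → A (t • x) = t • A x) : IsPol J fun τ => A (F τ) := by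
  refine of_lag (a := fun i => A (F i)) fun τ => ?_
  have : ∀ S : Finset ℕ, P (∑ i ∈ S, lag J i τ • F i) ∧
      A (∑ i ∈ S, lag J i τ • F i) = ∑ i ∈ S, lag J i τ • A (F i) := fun S => by
    induction S using Finset.induction_on with
    | empty => simpa using ⟨p0, h0⟩
    | insert i S hi ih =>
      rw [sum_insert hi, sum_insert hi, h1 _ _ (p2 _ _ (hP _)) ih.1, ih.2, h2 _ _ (hP _)]
      exact ⟨p1 _ _ (p2 _ _ (hP _)) ih.1, rfl⟩
  rw [← (this _).2, ← h.lag_eq]

theorem neg (h : IsPol J F) : IsPol J fun τ => -F τ := h.map (-LinearMap.id)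

theorem sub (h : IsPol J F) (h' : IsPol J G) : IsPol J fun τ => F τ - G τ := by
  simpa only [sub_eq_add_neg] using h.add h'.neg

theorem sum {ι : Type*} (S : Finset ι) {F : ι → ℝ → E} (h : ∀ i ∈ S, IsPol J (F i)) :
    IsPol J fun τ => ∑ i ∈ S, F i τ := by
  classical
  induction S using Finset.induction_on with
  | empty => simpa using const J (0 : E)
  | insert i S hi ih =>
    simp only [sum_insert hi]
    exact (h i (mem_insert_self _ _)).add (ih fun j hj => h j (mem_insert_of_mem hj))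

theorem smul {R : Type*} [Monoid R] [DistribMulAction R E] [SMulCommClass R ℝ E] (a : R)
    (h : IsPol J F) : IsPol J fun τ => a • F τ :=
  h.map' (fun x => a • x) (smul_add a) fun t x => smul_comm a t x

/-- affine changes of the parameter -/
theorem aff (h : IsPol J F) (a b : ℝ) : IsPol J fun τ => F (a * τ + b) := by
  refine of_poly (range (J + 1)) (fun i => (lagP J i).comp (C a * X + C b)) (fun i => F i) (fun i hi => ?_)
    fun τ => ?_
  · refine natDegree_comp_le.trans ?_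
    have : (C a * X + C b).natDegree ≤ 1 := natDegree_linear_le
    exact (Nat.mul_le_mul (lagP_deg hi) this).trans_eq (mul_one _)
  · rw [h.lag_eq]
    simp [lag]

theorem shift (h : IsPol J F) (b : ℝ) : IsPol J fun τ => F (τ + b) := by
  simpa only [one_mul] using h.aff 1 b

theorem shift' (h : IsPol J F) (b : ℝ) : IsPol J fun τ => F (b + τ) := by
  simpa only [add_comm b] using h.shift b

/-- bilinear maps -/
theorem map₂ {G : ℝ → E'} (h : IsPol J F) (h' : IsPol J' G) (B : E →ₗ[ℝ] E' →ₗ[ℝ] E'') :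
    IsPol (J + J') fun τ => B (F τ) (G τ) := by
  refine of_poly (range (J + 1) ×ˢ range (J' + 1)) (fun q => lagP J q.1 * lagP J' q.2)
    (fun q => B (F q.1) (G q.2)) (fun q hq => natDegree_mul_le.trans (Nat.add_le_add
      (lagP_deg (mem_product.1 hq).1) (lagP_deg (mem_product.1 hq).2))) fun τ => ?_
  rw [h.lag_eq τ, h'.lag_eq τ, sum_product]
  simp only [map_sum, map_smul, LinearMap.sum_apply, LinearMap.smul_apply, smul_sum, smul_smul,
    eval_mul]
  rw [sum_comm]
  exact sum_congr rfl fun i _ => sum_congr rfl fun j _ => by rw [mul_comm]; rfl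

end alg

section top

variable {E : Type*} [NormedAddCommGroup E] [NormedSpace ℝ E] {J : ℕ} {F p : ℝ → E} {ι : Type*}
  {l : Filter ι}

/-- bounds at the nodes are bounds everywhere -/
theorem bd (J : ℕ) : ∃ C, 0 ≤ C ∧ ∀ (F : ℝ → E) (M : ℝ), IsPol J F →
    (∀ i ∈ range (J + 1), ‖F i‖ ≤ M) → ∀ τ, ‖F τ‖ ≤ C * (1 + |τ|) ^ J * M := by
  obtain ⟨C, C0, hC⟩ := lag_bd J
  refine ⟨(J + 1) * C, by positivity, fun F M h hM τ => ?_⟩
  rw [h.lag_eq]
  refine (norm_sum_le_of_le _ (n := fun _ => C * (1 + |τ|) ^ J * M) fun i hi => ?_).trans_eq ?_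
  · rw [norm_smul, Real.norm_eq_abs]
    exact mul_le_mul (hC i hi τ) (hM i hi) (norm_nonneg _) (by positivity)
  · rw [sum_const, card_range, nsmul_eq_mul]
    push_cast
    ring

/-- bounds with a constant that depends on the member are uniform up to a power -/
theorem unif {α : Type*} {F : α → ℝ → E} {r : α → ℝ} {P : α → Prop} (h : ∀ x, P x → IsPol J (F x))
    (r0 : ∀ x, P x → 0 ≤ r x) (hb : ∀ τ, ∃ C, ∀ x, P x → ‖F x τ‖ ≤ C * r x) :
    ∃ C, 0 ≤ C ∧ ∀ x, P x → ∀ τ, ‖F x τ‖ ≤ C * (1 + |τ|) ^ J * r x := by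
  obtain ⟨C, C0, hC⟩ := bd (E := E) J
  choose K hK using hb
  refine ⟨C * ∑ i ∈ range (J + 1), |K i|, by positivity, fun x hx τ => (hC (F x)
    ((∑ i ∈ range (J + 1), |K i|) * r x) (h x hx) (fun i hi => (hK i x hx).trans
      (mul_le_mul_of_nonneg_right ((le_abs_self _).trans
        (single_le_sum (f := fun i : ℕ => |K i|) (fun _ _ => abs_nonneg _) hi)) (r0 x hx))) τ).trans_eq
    (by ring)⟩

/-- pointwise limits -/
theorem lim [l.NeBot] {F : ι → ℝ → E} (h : ∀ᶠ n in l, IsPol J (F n))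
    (hp : ∀ τ, Tendsto (fun n => F n τ) l (𝓝 (p τ))) : IsPol J p :=
  of_lag (a := fun i => p i) fun τ => tendsto_nhds_unique (hp τ)
    ((tendsto_finset_sum (range (J + 1)) fun (i : ℕ) _ => (hp i).const_smul (lag J i τ)).congr'
      (h.mono fun _ hn => (hn.lag_eq τ).symm))

/-- a polynomial that has a limit at infinity is constant -/
theorem eq_of_tendsto [l.NeBot] (h : IsPol J p) {τ : ι → ℝ} {a : E}
    (hτ : Tendsto (fun n => |τ n|) l atTop) (ha : Tendsto (fun n => p (τ n)) l (𝓝 a)) (σ : ℝ) :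
    p σ = a := by
  refine (NormedSpace.eq_iff_forall_dual_eq ℝ).2 fun g => ?_
  obtain ⟨b, hb⟩ := h
  set q : ℝ[X] := ∑ j ∈ range (J + 1), C (g (b j)) * X ^ j with hq
  have e : ∀ t, g (p t) = q.eval t := fun t => by
    simp only [hb, hq, map_sum, map_smul, eval_finset_sum, eval_mul, eval_C, eval_pow, eval_X,
      smul_eq_mul, mul_comm]
  have h1 : Tendsto (fun n => q.eval (τ n)) l (𝓝 (g a)) := by
    simpa only [Function.comp_def, e] using (g.continuous.tendsto a).comp ha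
  have h2 : q.degree ≤ 0 := not_lt.1 fun h0 =>
    not_tendsto_atTop_of_tendsto_nhds h1.norm (q.tendsto_norm_atTop h0 hτ)
  rw [e, eq_C_of_degree_le_zero h2, eval_C]
  rw [eq_C_of_degree_le_zero h2] at h1
  simp only [eval_C] at h1
  exact tendsto_nhds_unique tendsto_const_nhds h1

/-- **the running lemma** -/
theorem run [l.NeBot] {F : ι → ℝ → E} {r τ : ι → ℝ} {a : E} (h : ∀ᶠ n in l, IsPol J (F n))
    (r0 : ∀ᶠ n in l, 0 ≤ r n) (hb : ∀ σ, ∃ C, ∀ᶠ n in l, ‖F n σ - p σ‖ ≤ C * r n)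
    (hr : Tendsto (fun n => (1 + |τ n|) ^ J * r n) l (𝓝 0))
    (hτ : Tendsto (fun n => |τ n|) l atTop) (ha : Tendsto (fun n => F n (τ n)) l (𝓝 a)) (σ : ℝ) :
    p σ = a ∧ Tendsto (fun n => F n σ) l (𝓝 a) := by
  have r1 : Tendsto r l (𝓝 0) := squeeze_zero' r0 (r0.mono fun n hn =>
    le_mul_of_one_le_left hn (one_le_pow₀ (by linarith [abs_nonneg (τ n)]))) hr
  have hp : ∀ σ, Tendsto (fun n => F n σ) l (𝓝 (p σ)) := fun σ => by
    obtain ⟨C, hC⟩ := hb σ
    rw [tendsto_iff_norm_sub_tendsto_zero]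
    exact squeeze_zero' (.of_forall fun _ => norm_nonneg _) hC (by simpa using r1.const_mul C)
  have pp := lim h hp
  obtain ⟨C, C0, hC⟩ := bd (E := E) J
  choose K hK using hb
  have h1 : ∀ᶠ n in l, ∀ i ∈ range (J + 1), ‖F n i - p i‖ ≤ K i * r n :=
    (eventually_all_finset _).2 fun i _ => hK i
  have h2 : Tendsto (fun n => F n (τ n) - p (τ n)) l (𝓝 0) := by
    refine squeeze_zero_norm' (a := fun n => (C * ∑ i ∈ range (J + 1), |K i|) *
      ((1 + |τ n|) ^ J * r n)) ?_ (by simpa using hr.const_mul _)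
    filter_upwards [h, r0, h1] with n a1 a2 a3
    exact (hC _ ((∑ i ∈ range (J + 1), |K i|) * r n) (a1.sub pp) (fun i hi => (a3 i hi).trans
      (mul_le_mul_of_nonneg_right ((le_abs_self _).trans (single_le_sum
        (f := fun i : ℕ => |K i|) (fun _ _ => abs_nonneg _) hi)) a2)) (τ n)).trans_eq (by ring)
  have h3 := pp.eq_of_tendsto hτ (by simpa using ha.sub h2) σ
  exact ⟨h3, h3 ▸ hp σ⟩

end top

end IsPol

/-! ## logarithms against powers -/

/-- `(1 + |b + a log x|) ^ J ≤ C (x ^ d + x ^ (-d))` -/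
theorem log_le_rpow (J : ℕ) (a b : ℝ) {d : ℝ} (hd : 0 < d) : ∃ C, 0 ≤ C ∧ ∀ x, 0 < x →
    (1 + |b + a * Real.log x|) ^ J ≤ C * (x ^ d + x ^ (-d)) := by
  have hJ : (0 : ℝ) < J + 1 := by positivity
  set e := d / (J + 1) with he
  have e0 : 0 < e := by positivity
  set A := 1 + |b| + |a| / e with hA
  have A0 : 0 ≤ A := by positivity
  have key : ∀ x, 1 ≤ x → ∀ y, |y| ≤ |Real.log x| → (1 + |b + a * y|) ^ J ≤ A ^ J * x ^ d :=
    fun x hx y hy => by
      have x0 : 0 < x := by linarith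
      have h1 : Real.log x ≤ x ^ e / e := Real.log_le_rpow_div x0.le e0
      have h2 : 1 ≤ x ^ e := Real.one_le_rpow hx e0.le
      rw [abs_of_nonneg (Real.log_nonneg hx)] at hy
      have h3 : 1 + |b + a * y| ≤ A * x ^ e := by
        have := abs_add_le b (a * y)
        rw [abs_mul] at this
        have h4 : |a| * |y| ≤ |a| / e * x ^ e :=
          (mul_le_mul_of_nonneg_left (hy.trans h1) (abs_nonneg a)).trans_eq (by ring)
        rw [hA]
        nlinarith [abs_nonneg b]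
      refine (pow_le_pow_left₀ (by positivity) h3 J).trans ?_
      rw [mul_pow, ← Real.rpow_natCast (x ^ e), ← Real.rpow_mul x0.le]
      refine mul_le_mul_of_nonneg_left (Real.rpow_le_rpow_of_exponent_le hx ?_) (by positivity)
      rw [he, div_mul_eq_mul_div, div_le_iff₀ hJ]
      nlinarith
  refine ⟨A ^ J, by positivity, fun x x0 => ?_⟩
  have p1 := Real.rpow_pos_of_pos x0 d
  have p2 := Real.rpow_pos_of_pos x0 (-d)
  have p3 : 0 ≤ A ^ J := by positivity
  rcases le_total 1 x with h | h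
  · exact (key x h _ le_rfl).trans (by nlinarith)
  · have := key x⁻¹ ((one_le_inv₀ x0).2 h) (Real.log x) (by rw [Real.log_inv, abs_neg])
    rw [Real.inv_rpow x0.le, ← Real.rpow_neg x0.le] at this
    exact this.trans (by nlinarith)

/-- large arguments -/
theorem log_le_rpow_top (J : ℕ) (a b : ℝ) {d : ℝ} (hd : 0 < d) : ∃ C, 0 ≤ C ∧ ∀ x, 1 ≤ x →
    (1 + |b + a * Real.log x|) ^ J ≤ C * x ^ d := by
  obtain ⟨C, C0, h⟩ := log_le_rpow J a b hd
  refine ⟨2 * C, by positivity, fun x hx => (h x (by linarith)).trans ?_⟩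
  have := Real.rpow_le_rpow_of_exponent_le hx (show -d ≤ d by linarith)
  nlinarith

/-- small arguments -/
theorem log_le_rpow_bot (J : ℕ) (a b : ℝ) {d : ℝ} (hd : 0 < d) : ∃ C, 0 ≤ C ∧ ∀ x, 0 < x → x ≤ 1 →
    (1 + |b + a * Real.log x|) ^ J ≤ C * x ^ (-d) := by
  obtain ⟨C, C0, h⟩ := log_le_rpow J a b hd
  refine ⟨2 * C, by positivity, fun x x0 hx => (h x x0).trans ?_⟩
  have := Real.rpow_le_rpow_of_exponent_ge x0 hx (show -d ≤ d by linarith)
  nlinarith

end

end Vale.Agent.P352L
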