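import Vale.Agent.P352X.Hyp
import Vale.Agent.P352X.FSS.Defs
import Vale.Agent.P352L.Pol

/-!
# P352L: families of stress tensors, potentials and time ordered products with logarithms

Convention: `U(s) T^τ(f ∘ sim s) U(s)⁻¹ = T^(τ + log s)(f)`.
-/

set_option linter.all false

open MeasureTheory Filter Topology
open scoped SchwartzMap

namespace Vale.Agent.P352L

open Vale.Agent.P352X

export Vale.Agent.P352X (I2 S2 S3 Late L2 UVac ev2 ev3 Legs2 OffD Dist TO2 TO3 TO Mult Rec
  Stress0 Dim FSS)

open Vale.Agent.P352 Vale.Agent.P352.GF Vale.Agent.P352.BW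
open UniformSpace (Completion)

noncomputable section

variable {D : Type*} [NormedAddCommGroup D] [InnerProductSpace ℂ D]

/-- a polynomial family of stress tensors on which the dilations act by shifts -/
structure Fam (Q : Theory D) (T : ℝ → Ix → Ix → Fld D) (n0 : ℕ) : Prop where
  st : ∀ τ, Stress0 Q (T τ)
  cov : ∀ τ m n s L a f v, 0 < s → IsLor L → IsTest f →
    T (τ + Real.log s) m n f (Q.U s L a v) =
      ∑ k, ∑ l, (L k m * L l n : ℂ) • Q.U s L a (T τ k l (fun x => f (sim s L a x)) v)
  pol : ∀ m n f v, IsTest f → IsPol n0 fun τ => T τ m n f v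

/-- a potential of the trace; its behaviour under dilations is not prescribed -/
structure Pot0 (Q : Theory D) (T : Ix → Ix → Fld D) (l : Fn → Completion D) : Prop where
  lin : ∀ (f g : Fn) (c : ℂ), IsTest f → IsTest g → l (fun x => f x + c * g x) = l f + c • l g
  cont : Continuous fun g => l (ev g)
  trace : ∀ f, IsTest f → (3 : ℂ) • l (H246.box f) = ((tr T f Q.vac : D) : Completion D)
  cov : ∀ L a f v, IsLor L → IsTest f → inner ℂ (Q.U 1 L a v : Completion D) (l f) =
    inner ℂ (v : Completion D) (l fun x => f (sim 1 L a x))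

/-- a polynomial family of potentials, of dimension two up to shifts -/
structure PotF (Q : Theory D) (T : ℝ → Ix → Ix → Fld D) (l : ℝ → Fn → Completion D) (n0 : ℕ) :
    Prop where
  st : ∀ τ, Pot0 Q (T τ) (l τ)
  cov : ∀ τ s L a f v, 0 < s → IsLor L → IsTest f →
    inner ℂ (Q.U s L a v : Completion D) (l (τ + Real.log s) f) =
      (s ^ 2 : ℝ) * inner ℂ (v : Completion D) (l τ fun x => f (sim s L a x))
  pol : ∀ f, IsTest f → IsPol n0 fun τ => l τ f

/-- (anti-)time ordered products of two components of members of the family, applied to the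
vacuum; polynomial in the members up to multiples of the vacuum -/
structure TP2 (Q : Theory D) (T : ℝ → Ix → Ix → Fld D) (e : Bool)
    (w : ℝ → ℝ → I2 → I2 → S2 →L[ℂ] Completion D) : Prop where
  fac : ∀ α β I J (f g : Sch) (F : S2), (∀ x y, F (x, y) = f x * g y) →
    Late (tsupport f) (tsupport g) → w α β I J F =
      ((if e then T α I.1 I.2 (ev f) (T β J.1 J.2 (ev g) Q.vac)
        else T β J.1 J.2 (ev g) (T α I.1 I.2 (ev f) Q.vac) : D) : Completion D)
  swap : ∀ α β I J (F G : S2), (∀ x y, G (x, y) = F (y, x)) → w α β I J F = w β α J I G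
  ind : ∀ α β I J, w α β I J = w α β I.swap J
  cov : ∀ α β s L a I J (F G : S2), 0 < s → IsLor L →
    (∀ x y, G (x, y) = F (sim s L a x, sim s L a y)) → ∃ κ : ℂ,
      w (α + Real.log s) (β + Real.log s) I J F =
        ∑ K, ∑ M, (L2 L K I * L2 L M J) • Ue Q s L a (w α β K M G) + κ • om Q
  pol : ∃ n1, ∀ β I J F, IsPol n1 fun α => w α β I J F - inner ℂ (om Q) (w α β I J F) • om Q

/-- time ordered products of members of the family; of `t` only the diagonal members are used -/
structure TP (Q : Theory D) (T : ℝ → Ix → Ix → Fld D)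
    (wp wm : ℝ → ℝ → I2 → I2 → S2 →L[ℂ] Completion D)
    (t : ℝ → ℝ → ℝ → I2 → I2 → I2 → S3 →L[ℂ] ℂ) : Prop where
  tp : TP2 Q T true wp
  tm : TP2 Q T false wm
  fac1 : ∀ α I J K (f : Sch) (G : S2) (F : S3), (∀ x y z, F (x, y, z) = f x * G (y, z)) →
    Late (tsupport f) (Prod.fst '' tsupport G ∪ Prod.snd '' tsupport G) → t α α α I J K F =
      inner ℂ ((T α I.1 I.2 (bar (ev f)) Q.vac : D) : Completion D) (wp α α J K G)
  fac3 : ∀ α I J K (G G' : S2) (f : Sch) (F : S3), (∀ x y z, F (x, y, z) = G (x, y) * f z) →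
    (∀ x, G' x = star (G x)) →
    Late (Prod.fst '' tsupport G ∪ Prod.snd '' tsupport G) (tsupport f) → t α α α I J K F =
      inner ℂ (wm α α I J G') ((T α K.1 K.2 (ev f) Q.vac : D) : Completion D)
  swap1 : ∀ α I J K (F G : S3), (∀ x y z, G (x, y, z) = F (y, x, z)) →
    t α α α I J K F = t α α α J I K G
  swap2 : ∀ α I J K (F G : S3), (∀ x y z, G (x, y, z) = F (x, z, y)) →
    t α α α I J K F = t α α α I K J G
  ind : ∀ α I J K, t α α α I J K = t α α α I.swap J K
  cov : ∀ α s L a I J K (F G : S3), 0 < s → IsLor L →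
    (∀ x y z, G (x, y, z) = F (sim s L a x, sim s L a y, sim s L a z)) →
    (s = 1 ∨ ∀ x, (x, x, x) ∉ tsupport F) →
      t (α + Real.log s) (α + Real.log s) (α + Real.log s) I J K F =
        ∑ I', ∑ J', ∑ K', L2 L I' I * L2 L J' J * L2 L K' K * t α α α I' J' K' G

end

end Vale.Agent.P352L
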