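import Vale.Agent.P352X.Defs
import Vale.Agent.P352L.Hyp

/-!
# P352L: the context bundle with logarithms

`Base` is the part that does not involve the stress tensor. `c.T`, `c.l` are the members with
parameter `c.tau` of polynomial families; `c.sh x` is the context of the member with parameter
`c.tau + x`.
-/

set_option linter.all false

open MeasureTheory Filter Topology
open scoped SchwartzMap ComplexConjugate ENNReal ContDiff

namespace Vale.Agent.P352L

open Vale.Agent.P352X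

export Vale.Agent.P352X (R2 P3 va vb al be tx pt tv e2 ex d2 pl pm mu nn jr sj jL scp gap gbp Jc
  dc Rc dv ft ft3 ft1 pf cx pr kL dil dlt Dc Cut Bump chp chm abv blw D0 hk dens Chg hX Kc Mc Bc
  Mb ap k3 Ph0 dx mup evp sn sch Gn Dm gen Pr Ug Ug_apply Ut Usc Ga Gb Bo Pa Pb Mi pr3 dv1 dg
  ix3 w0 CovM Tht m3 YY)

open Vale.Agent.P352 Vale.Agent.P352.GF Vale.Agent.P352.BW Vale.Agent.P352.H246
open Vale.Agent.P352.H496 Vale.Agent.P352.H755 Vale.Agent.P352.H15
open Vale.Agent.P132 (ModData jconj)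
open UniformSpace (Completion)
open Complex (I)

noncomputable section

variable {D : Type*} [NormedAddCommGroup D] [InnerProductSpace ℂ D]

/-- the data that do not involve the stress tensor -/
structure Base (D : Type*) [NormedAddCommGroup D] [InnerProductSpace ℂ D] where
  Q : Theory D
  A : (V → V) → D → D
  N : Set V → VonNeumannAlgebra (Completion D)
  S : V → ℝ → Completion D →L[ℂ] Completion D
  E : ModData (N (Wdg va vb 0)) (om Q)
  bt : SN.BC (fun p y : V => mdot p y) (fun y z => Ut Q y z)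
  a3 : SN.BC pr3 (fun (y : P3) z => Ut Q (y.1 • va) (Ga Q y.2 z))
  hG : TfGen Q
  hN : LNm Q A N
  hU : UVac Q
  hS : Grp1 Q N S
  pos : ∀ a (z w : Completion D), IsNull a → Gn (S a) z w → 0 ≤ (inner ℂ z w).re
  bw : ∀ t z, E.U t z = Bo Q (-(2 * Real.pi * t)) z

namespace Base

variable (c : Base D)

abbrev Om : Completion D := om c.Q
abbrev J : Completion D ≃ₗᵢ⋆[ℂ] Completion D := c.E.J
/-- `exp (i t K)` -/
abbrev SK : ℝ → Completion D →L[ℂ] Completion D := c.S va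
/-- `exp (i t K_y)` -/
def Ky (y : V) (t : ℝ) : Completion D →L[ℂ] Completion D := Ut c.Q y * c.S va t * Ut c.Q (-y)
/-- `exp (i t M^2 / P)` -/
def S0 (t : ℝ) : Completion D →L[ℂ] Completion D :=
  c.a3.Phi fun k => Complex.exp (I * (t * (d2 k.2 k.2 / k.1) : ℝ))
/-- `exp (i t Kt)` -/
def Sk (t : ℝ) : Completion D →L[ℂ] Completion D := c.S va t * c.S0 (-t)
/-- spectral measures of the translations -/
abbrev nu (v : Completion D) : Measure V := c.bt.nu v
/-- the form of `P_b` -/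
def qb (v : Completion D) : ℝ≥0∞ := ∫⁻ p, ENNReal.ofReal (al p) ∂c.nu v
/-- `X` is smooth in norm under the boosts, the translations along `b` and the null rotations
that fix `b` -/
def Good (X : Completion D →L[ℂ] Completion D) : Prop :=
  ContDiff ℝ ∞ fun q : ℝ × ℝ × ℝ => Bo c.Q q.1 * Pb c.Q q.2.1 * Gb c.Q q.2.2 * X *
    Gb c.Q (-q.2.2) * Pb c.Q (-q.2.1) * Bo c.Q (-q.1)
/-- the group generated by `B`, `P_b`, `M^b` -/
def gq (q : ℝ × ℝ × ℝ) : Completion D →L[ℂ] Completion D :=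
  Bo c.Q q.1 * Pb c.Q q.2.1 * Gb c.Q q.2.2

/-- distributions on test functions with compact support, with values in the Hilbert space,
covariant under the translations, the null rotations `G_w` and the scalings -/
structure Cov2 (φ : Fn → Completion D) (x y : ℝ) : Prop where
  lin : ∀ (f g : Fn) (a : ℂ), In Set.univ f → In Set.univ g →
    φ (fun z => f z + a * g z) = φ f + a • φ g
  bd : ∀ K : Set V, IsCompact K → ∃ (m : ℕ) (C : ℝ), ∀ g : Sch, tsupport g ⊆ K →
    ‖φ (ev g)‖ ≤ C * sn m g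
  tra : ∀ a f, In Set.univ f → Ut c.Q a (φ fun z => f (z + a)) = φ f
  rot : ∀ w f, In Set.univ f → Ga c.Q w (φ fun z => f (gap w z)) = φ f
  sca : ∀ r s f, 0 < r → 0 < s → In Set.univ f →
    Usc c.Q r s (φ fun z => f (scp r s z)) = ((r ^ x * s ^ y : ℝ) : ℂ) • φ f
  perp : ∀ f, In Set.univ f → inner ℂ c.Om (φ f) = 0

end Base

/-- **The context**: the hypotheses of the theorem and the objects constructed from them. -/
structure Ctx (D : Type*) [NormedAddCommGroup D] [InnerProductSpace ℂ D] extends Base D where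
  TT : ℝ → Ix → Ix → Fld D
  LL : ℝ → Fn → Completion D
  Wp : ℝ → ℝ → I2 → I2 → S2 →L[ℂ] Completion D
  Wm : ℝ → ℝ → I2 → I2 → S2 →L[ℂ] Completion D
  Tt : ℝ → ℝ → ℝ → I2 → I2 → I2 → S3 →L[ℂ] ℂ
  tau : ℝ
  n0 : ℕ
  hF : Fam Q TT n0
  hPP : ∀ τ, ND.PCh Q (TT τ) A
  hLL : PotF Q TT LL n0
  wll : ∀ τ L a f X X', IsLor L → In (Wed L a 1) f → Al Q (Wed L a (-1)) X X' →
    inner ℂ ((X' Q.vac : D) : Completion D) (LL τ f) =
      inner ℂ (LL τ (bar f)) ((X Q.vac : D) : Completion D)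
  tp : Prop
  hTP0 : tp → TP Q TT Wp Wm Tt

instance : CoeOut (Ctx D) (Base D) := ⟨Ctx.toBase⟩

namespace Ctx

variable (c : Ctx D)

/-- the stress tensor of the context -/
abbrev T : Ix → Ix → Fld D := c.TT c.tau
/-- its potential -/
abbrev l : Fn → Completion D := c.LL c.tau
abbrev wp : I2 → I2 → S2 →L[ℂ] Completion D := c.Wp c.tau c.tau
abbrev wm : I2 → I2 → S2 →L[ℂ] Completion D := c.Wm c.tau c.tau
abbrev t : I2 → I2 → I2 → S3 →L[ℂ] ℂ := c.Tt c.tau c.tau c.tau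
/-- the context of the shifted member -/
abbrev sh (x : ℝ) : Ctx D := { c with tau := c.tau + x }

theorem sh_zero : c.sh 0 = c := by simp only [sh, add_zero]

theorem sh_sh (x y : ℝ) : (c.sh x).sh y = c.sh (x + y) := by simp only [sh, add_assoc]

theorem sh_log_one : c.sh (Real.log 1) = c := by rw [Real.log_one, sh_zero]

theorem hT : Stress0 c.Q c.T := c.hF.st _

theorem hP : ND.PCh c.Q c.T c.A := c.hPP _

theorem hl : Pot0 c.Q c.T c.l := c.hLL.st _

theorem wl : ∀ L a f X X', IsLor L → In (Wed L a 1) f → Al c.Q (Wed L a (-1)) X X' →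
    inner ℂ ((X' c.Q.vac : D) : Completion D) (c.l f) =
      inner ℂ (c.l (bar f)) ((X c.Q.vac : D) : Completion D) := c.wll _

theorem hTP [h : Fact c.tp] : TP c.Q c.TT c.Wp c.Wm c.Tt := c.hTP0 h.out

/-- `T^{mn}(F_mn)` -/
def Tf (F : Ix → Ix → Fn) (v : D) : D := ∑ m, ∑ n, c.T m n (F m n) v
def Tv (F : Ix → Ix → Fn) : Completion D := (c.Tf F c.Q.vac : D)
/-- the trace -/
def Thf (f : Fn) (v : D) : D := GF.tr c.T f v
def Th (f : Fn) : Completion D := (c.Thf f c.Q.vac : D)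
/-- the defect of locality of the potential -/
def bb (Z : Completion D →L[ℂ] Completion D) (f : Fn) : ℂ :=
  inner ℂ (star Z c.Om) (c.l f) - inner ℂ (c.l (bar f)) (Z c.Om)
/-- the form `ω(T(h,k)(g))` between `Y* Ω` and `X Ω`, with `w = Y X Ω`, `w' = X* Y* Ω` -/
def om2 (w w' : Completion D) (χ : ℝ → ℝ) (F : Ix → Ix → Fn) : ℂ :=
  inner ℂ (c.Tv fun m n z => (χ (al z) : ℝ) * bar (F m n) z) w +
    inner ℂ w' (c.Tv fun m n z => (1 - χ (al z) : ℝ) * F m n z)
/-- `⟨T(Θ T_aa Θ)⟩` -/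
def t0 (F : S3) : ℂ := ∑ m, ∑ k, ∑ l, ∑ n,
  ((eta m * (eta k * va k) * (eta l * va l) * eta n : ℝ) : ℂ) * c.t (m, m) (k, l) (n, n) F
/-- the plane form of the weight `(x - x_A).(x - x_B)` between `fA` (above) and `fB` (below) -/
def PF (fA fB : Fn) : ℂ :=
  inner ℂ (c.Th (bar fA)) (gen c.SK (c.Th fB)) -
    ∑ i, (inner ℂ (c.Th (bar fun z => (tx z i : ℝ) * fA z)) (gen (Mi c.Q i) (c.Th fB)) +
      inner ℂ (c.Th (bar fA)) (gen (Mi c.Q i) (c.Th fun z => (tx z i : ℝ) * fB z))) +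
    ∑ i, inner ℂ (c.Th (bar fun z => (tx z i : ℝ) * fA z))
      (gen (Pa c.Q) (c.Th fun z => (tx z i : ℝ) * fB z))

/-- the four faces -/
def Faces (ρ1 κ3 : P3 → ℝ) (θ : ℝ → ℝ) (ε δ : ℝ) : ℂ := ∑ j : Fin 3, (![1, -2, 1] j : ℂ) *
  (c.PF (pr (ap (2 - j) ρ1) (dil ε (chp θ))) (pr (ap j κ3) (blw (dil ε θ) θ δ)) +
    c.PF (pr (ap j κ3) (abv (dil ε θ) θ δ)) (pr (ap (2 - j) ρ1) (dil ε (chm θ))) +
    c.PF (pr (ap (2 - j) ρ1) (abv (dil ε θ) θ δ)) (pr (ap j κ3) (dil ε (chm θ))) +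
    c.PF (pr (ap j κ3) (dil ε (chp θ))) (pr (ap (2 - j) ρ1) (blw (dil ε θ) θ δ)))

end Ctx

/-- a property of all members of the family -/
abbrev All (P : Ctx D → Prop) (c : Ctx D) : Prop := ∀ x, P (c.sh x)

theorem All.zero {P : Ctx D → Prop} {c : Ctx D} (h : All P c) : P c := c.sh_zero ▸ h 0

theorem All.sh {P : Ctx D → Prop} {c : Ctx D} (h : All P c) (x : ℝ) : All P (c.sh x) :=
  fun y => c.sh_sh x y ▸ h (x + y)

end

end Vale.Agent.P352L
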