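import Vale.Agent.P352X.Spec
import Vale.Agent.P352L.Defs

/-!
# P352L: the rows that keep their form (levels 0, 1 and part of level 2)
-/

set_option linter.all false

open MeasureTheory Filter Topology
open scoped SchwartzMap ComplexConjugate ENNReal ContDiff

namespace Vale.Agent.P352L

open Vale.Agent.P352X

export Vale.Agent.P352X (LIE KER Fisch NULL GFF UQ SYM pairF triF)

open Vale.Agent.P352 Vale.Agent.P352.GF Vale.Agent.P352.BW Vale.Agent.P352.H246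
open Vale.Agent.P352.H496 Vale.Agent.P352.H755 Vale.Agent.P352.H15
open Vale.Agent.P132 (ModData jconj)
open UniformSpace (Completion)
open Complex (I)

noncomputable section

variable {D : Type*} [NormedAddCommGroup D] [InnerProductSpace ℂ D]

/-! ## rows without the stress tensor -/

/-- row BAS: spectral measures, weak nullity, thin averages -/
structure BAS (c : Base D) : Prop where
  cone : ∀ v, ∀ᵐ p ∂c.nu v, 0 ≤ p o ∧ 0 ≤ mu p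
  ker : ∀ v, inner ℂ c.Om v = 0 → c.nu v {p | be p = 0} = 0 ∧ c.nu v {p | al p = 0} = 0 ∧
    c.nu v {p | tx p = 0} = 0 ∧ c.a3.nu v {k | k.1 ≤ 0} = 0
  wn : ∀ (ι : Type) (l : Filter ι) (r s : ι → ℝ) (y : ι → V) (η : ι → Completion D) η0 w,
    (∀ i, 0 < r i ∧ 0 < s i) →
    (Tendsto r l atTop ∨ Tendsto r l (𝓝 0) ∨ Tendsto s l atTop ∨ Tendsto s l (𝓝 0)) →
    Tendsto η l (𝓝 η0) → inner ℂ c.Om η0 = 0 →
    Tendsto (fun i => inner ℂ (Ut c.Q (y i) (Usc c.Q (r i) (s i) (η i))) w) l (𝓝 0)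
  thin : ∀ (u : R2 → ℂ) ξ, Integrable u → inner ℂ c.Om ξ = 0 →
    Tendsto (fun s : ℝ => ∫ y, u y • Ut c.Q (tv (s⁻¹ • y)) ξ) (𝓝[>] 0) (𝓝 0)
  tail : ∃ C κ : ℝ, 0 < κ ∧ ∀ η w (Λ C0 L : ℝ), 1 ≤ L → 0 ≤ C0 → Dm (Pa c.Q) η →
    (∀ s, ‖Gb c.Q s w - w‖ ≤ Λ * |s|) →
    (∀ s ∈ Set.Ioc (0 : ℝ) 1, c.nu η {p | al p < s} ≤ ENNReal.ofReal (C0 ^ 2 * s)) →
    ‖inner ℂ (Usc c.Q L 1 η) w‖ ≤
      C * L ^ (-κ) * (‖w‖ + Λ) * (C0 + ‖η‖ + ‖gen (Pa c.Q) η‖)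

/-- row ZC: covariant distributions of low dimension -/
structure ZC (c : Base D) : Prop where
  zer : ∀ φ x y, c.Cov2 φ x y → y < -3 / 2 → ∀ f, In Set.univ f → φ f = 0
  cls : ∀ φ φ', c.Cov2 φ (-1) (-1) → c.Cov2 φ' (-1) (-1) → ∃ κ : ℂ, ∀ f f', In Set.univ f →
    In Set.univ f' → inner ℂ (φ f) (φ' f') = κ * ∫ p in Fc, conj (ft f p) * ft f' p

/-- row KT: the splitting `K = Kt + K0` -/
structure KT (c : Base D) : Prop where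
  add0 : ∀ s t, c.S0 (s + t) = c.S0 s * c.S0 t
  add : ∀ s t, c.Sk (s + t) = c.Sk s * c.Sk t
  zero : c.S0 0 = 1 ∧ c.Sk 0 = 1
  uni : ∀ t, c.S0 t ∈ unitary (Completion D →L[ℂ] Completion D) ∧
    c.Sk t ∈ unitary (Completion D →L[ℂ] Completion D)
  cont : ∀ z, Continuous (fun t => c.S0 t z) ∧ Continuous fun t => c.Sk t z
  comm : ∀ s t, c.S0 s * c.Sk t = c.Sk t * c.S0 s ∧ c.SK t = c.Sk t * c.S0 t
  vac : ∀ t, c.S0 t c.Om = c.Om ∧ c.Sk t c.Om = c.Om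
  ut : ∀ t y, be y = 0 → Ut c.Q y * c.Sk t = c.Sk t * Ut c.Q y
  ga : ∀ t w, Ga c.Q w * c.Sk t = c.Sk t * Ga c.Q w
  sc : ∀ r s t, 0 < r → 0 < s → Usc c.Q r s * c.Sk t = c.Sk (t / s) * Usc c.Q r s
  pos : ∀ z w, Gn c.Sk z w → 0 ≤ (inner ℂ z w).re
  lip : ∀ z w t, 0 ≤ t → Gn c.Sk z w → ‖c.Sk t z - z‖ ^ 2 ≤ 2 * t * (inner ℂ z w).re
  dom : ∀ z, Dm c.SK z ↔ Dm c.Sk z ∧ Dm c.S0 z
  split : ∀ z, Dm c.SK z → gen c.SK z = gen c.Sk z + gen c.S0 z ∧ ‖gen c.Sk z‖ ≤ ‖gen c.SK z‖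
  two : ∀ z, Dm c.SK z → Dm c.SK (gen c.SK z) → Dm c.Sk (gen c.Sk z) ∧
    ‖gen c.Sk (gen c.Sk z)‖ ≤ ‖gen c.SK (gen c.SK z)‖
  k0 : ∀ ψ ψ', (∀ i, Dm (Mi c.Q i) ψ ∧ Dm (Mi c.Q i) (gen (Mi c.Q i) ψ)) →
    inner ℂ c.Om ψ' = 0 → Gn (Pa c.Q) ψ' (∑ i, gen (Mi c.Q i) (gen (Mi c.Q i) ψ)) →
    Gn c.S0 ψ ψ'

variable (c : Ctx D)

/-! ## level 0 -/

/-- row GRP: the group relations in null coordinates, and the action on the fields -/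
structure GRP : Prop where
  na : IsNull va
  nb : IsNull vb
  nab : mdot va vb = 1
  uni : ∀ s L a, Ug c.Q s L a ∈ unitary (Completion D →L[ℂ] Completion D)
  vac : ∀ s L a, Ug c.Q s L a c.Om = c.Om
  mul : ∀ s L a s' L' a', 0 < s → 0 < s' → IsLor L → IsLor L' → Ug c.Q s L a * Ug c.Q s' L' a' =
    Ug c.Q (s * s') (fun m => sim 1 L 0 (L' m)) (sim s L a a')
  coe : ∀ s L a (v : D), 0 < s → IsLor L → Ug c.Q s L a v = (c.Q.U s L a v : D)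
  cont : ∀ (ι : Type) (l : Filter ι) (s : ι → ℝ) (L : ι → Ix → V) (a : ι → V) s0 L0 a0 v,
    (∀ i, 0 < s i ∧ IsLor (L i)) → 0 < s0 → IsLor L0 → Tendsto s l (𝓝 s0) → Tendsto L l (𝓝 L0) →
    Tendsto a l (𝓝 a0) → Tendsto (fun i => Ug c.Q (s i) (L i) (a i) v) l (𝓝 (Ug c.Q s0 L0 a0 v))
  alg : ∀ s L a O, 0 < s → IsLor L → ∀ X, X ∈ c.N O ↔
    Ug c.Q s L a * X * star (Ug c.Q s L a) ∈ c.N (sim s L a '' O)
  lsc : ∀ r s, 0 < r → 0 < s →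
    IsLor (bst va vb (Real.sqrt (r / s) - 1) (Real.sqrt (s / r) - 1)) ∧ ∀ z, sim (Real.sqrt (r * s))
      (bst va vb (Real.sqrt (r / s) - 1) (Real.sqrt (s / r) - 1)) 0 z = scp r s z
  lga : ∀ w : R2, IsLor (H746.nrt va (tv ((1 / 2 : ℝ) • w))) ∧
    ∀ z, sim 1 (H746.nrt va (tv ((1 / 2 : ℝ) • w))) 0 z = gap w z
  lgb : ∀ s : ℝ, IsLor (H746.nrt vb (tv ((s / 2) • e2 0))) ∧
    ∀ z, sim 1 (H746.nrt vb (tv ((s / 2) • e2 0))) 0 z = gbp s z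
  ut0 : Ut c.Q 0 = 1
  ut : ∀ x y, Ut c.Q (x + y) = Ut c.Q x * Ut c.Q y
  sc1 : Usc c.Q 1 1 = 1
  sc : ∀ r s r' s', 0 < r → 0 < s → 0 < r' → 0 < s' →
    Usc c.Q (r * r') (s * s') = Usc c.Q r s * Usc c.Q r' s'
  ga0 : Ga c.Q 0 = 1
  ga : ∀ v w, Ga c.Q (v + w) = Ga c.Q v * Ga c.Q w
  gb0 : Gb c.Q 0 = 1
  gb : ∀ s t, Gb c.Q (s + t) = Gb c.Q s * Gb c.Q t
  sc_ut : ∀ r s y, 0 < r → 0 < s → Usc c.Q r s * Ut c.Q y = Ut c.Q (scp r s y) * Usc c.Q r s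
  ga_ut : ∀ w y, Ga c.Q w * Ut c.Q y = Ut c.Q (gap w y) * Ga c.Q w
  gb_ut : ∀ s y, Gb c.Q s * Ut c.Q y = Ut c.Q (gbp s y) * Gb c.Q s
  sc_ga : ∀ r s w, 0 < r → 0 < s →
    Usc c.Q r s * Ga c.Q w = Ga c.Q (Real.sqrt (r / s) • w) * Usc c.Q r s
  sc_gb : ∀ r s t, 0 < r → 0 < s →
    Usc c.Q r s * Gb c.Q t = Gb c.Q (Real.sqrt (s / r) * t) * Usc c.Q r s
  sc_S : ∀ r s t, 0 < r → 0 < s → Usc c.Q r s * c.SK t = c.SK (t / s) * Usc c.Q r s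
  ga_S : ∀ w t, Ga c.Q w * c.SK t = c.SK t * Ga c.Q w
  pa_S : ∀ s t, Pa c.Q s * c.SK t = c.SK t * Pa c.Q s
  S_ut : ∀ t (y : R2), c.SK t * Ut c.Q (tv y) =
    Ut c.Q (tv y + (t * d2 y y) • va) * Ga c.Q ((2 * t) • y) * c.SK t
  S_uni : ∀ a t, IsNull a → c.S a t ∈ unitary (Completion D →L[ℂ] Completion D)
  ten : ∀ s L a h k f v, 0 < s → IsLor L → IsTest f →
    c.Q.U s L a (c.Tf (hk h k fun x => f (sim s L a x)) v) =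
      (c.sh (Real.log s)).Tf (hk (sim 1 L 0 h) (sim 1 L 0 k) f) (c.Q.U s L a v)
  th : ∀ s L a f v, 0 < s → IsLor L → IsTest f →
    c.Q.U s L a (c.Thf (fun x => f (sim s L a x)) v) = (c.sh (Real.log s)).Thf f (c.Q.U s L a v)
  pot : ∀ s L a f, 0 < s → IsLor L → IsTest f →
    Ug c.Q s L a (c.l fun x => f (sim s L a x)) = ((s ^ 2)⁻¹ : ℝ) • (c.sh (Real.log s)).l f
  ten1 : ∀ L a h k f v, IsLor L → IsTest f →
    c.Q.U 1 L a (c.Tf (hk h k fun x => f (sim 1 L a x)) v) =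
      c.Tf (hk (sim 1 L 0 h) (sim 1 L 0 k) f) (c.Q.U 1 L a v)
  th1 : ∀ L a f v, IsLor L → IsTest f →
    c.Q.U 1 L a (c.Thf (fun x => f (sim 1 L a x)) v) = c.Thf f (c.Q.U 1 L a v)
  pot1 : ∀ L a f, IsLor L → IsTest f → Ug c.Q 1 L a (c.l fun x => f (sim 1 L a x)) = c.l f
  polf : ∀ F v, (∀ m n, IsTest (F m n)) → IsPol c.n0 fun x => (c.sh x).Tf F v
  polv : ∀ F, (∀ m n, IsTest (F m n)) → IsPol c.n0 fun x => (c.sh x).Tv F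
  polhf : ∀ f v, IsTest f → IsPol c.n0 fun x => (c.sh x).Thf f v
  polh : ∀ f, IsTest f → IsPol c.n0 fun x => (c.sh x).Th f
  poll : ∀ f, IsTest f → IsPol c.n0 fun x => (c.sh x).l f
  perp : ∀ m n f, IsTest f → inner ℂ c.Q.vac (c.T m n f c.Q.vac) = 0
  perpl : ∀ f, IsTest f → inner ℂ c.Om (c.l f) = 0
  cons : ∀ h f v, IsTest f → c.Tf (hk va h (dv vb f)) v + c.Tf (hk vb h (dv va f)) v -
    ∑ i, c.Tf (hk (ex i) h (dv (ex i) f)) v = 0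
  trace : ∀ f v, IsTest f →
    c.Thf f v = (2 : ℂ) • c.Tf (hk va vb f) v - ∑ i, c.Tf (hk (ex i) (ex i) f) v
  afft : ∀ O F, (∀ m n, In O (F m n)) → T.Afs (c.N O) (c.Tf F) (c.Tf fun m n => bar (F m n))
  affh : ∀ O f, In O f → T.Afs (c.N O) (c.Thf f) (c.Thf (bar f))
  affa : ∀ O X X', Al c.Q O X X' → T.Afs (c.N O) X X'
  rs : ∀ O : Set V, IsOpen O → O.Nonempty → Dense {z | ∃ X ∈ c.N O, X c.Om = z}
  md : ∀ r, 0 ≤ r → ∃ E : ModData (c.N (Rc r 0)) c.Om, ∀ t, E.U t =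
    c.SK (r * (1 - Real.exp (-(2 * Real.pi * t)))) * Bo c.Q (-(2 * Real.pi * t))
  geo : ∀ r r' X, 0 ≤ r → 0 ≤ r' →
    (X ∈ c.N (Rc r 0) ↔ c.SK (r' - r) * X * c.SK (r - r') ∈ c.N (Rc r' 0))

/-- level 0 -/
structure T0 : Prop where
  lie : LIE
  ker : KER
  null : NULL
  gff : GFF
  uq : UQ
  sym : SYM
  grp : GRP c

/-! ## level 1 -/

/-- row GEN: the generators on the vectors generated by one field -/
structure GEN : Prop where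
  ut : ∀ y h k f, IsTest f →
    Gn (fun t => Ut c.Q (t • y)) (c.Tv (hk h k f)) (I • c.Tv (hk h k (dv y f)))
  bo : ∀ h k f, IsTest f → Gn (Bo c.Q) (c.Tv (hk h k f)) (I • (c.Tv (hk h k (Bc f)) -
    c.Tv (hk (al h • va - be h • vb) k f) - c.Tv (hk h (al k • va - be k • vb) f)))
  mi : ∀ i h k f, IsTest f → Gn (Mi c.Q i) (c.Tv (hk h k f)) (I • (c.Tv (hk h k (Mc i f)) -
    c.Tv (hk (tx h i • va + be h • ex i) k f) - c.Tv (hk h (tx k i • va + be k • ex i) f)))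
  gb : ∀ h k f, IsTest f → Gn (Gb c.Q) (c.Tv (hk h k f)) (I • (c.Tv (hk h k (Mb f)) -
    c.Tv (hk (tx h 0 • vb + al h • ex 0) k f) - c.Tv (hk h (tx k 0 • vb + al k • ex 0) f)))
  uth : ∀ y f, IsTest f → Gn (fun t => Ut c.Q (t • y)) (c.Th f) (I • c.Th (dv y f))
  both : ∀ f, IsTest f → Gn (Bo c.Q) (c.Th f) (I • c.Th (Bc f))
  mith : ∀ i f, IsTest f → Gn (Mi c.Q i) (c.Th f) (I • c.Th (Mc i f))
  gbth : ∀ f, IsTest f → Gn (Gb c.Q) (c.Th f) (I • c.Th (Mb f))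
  utl : ∀ y f, IsTest f → Gn (fun t => Ut c.Q (t • y)) (c.l f) (I • c.l (dv y f))
  bol : ∀ f, IsTest f → Gn (Bo c.Q) (c.l f) (I • c.l (Bc f))
  mil : ∀ i f, IsTest f → Gn (Mi c.Q i) (c.l f) (I • c.l (Mc i f))
  sm : ∀ v : D, ContDiff ℝ ∞ fun q => c.gq q (v : Completion D)
  bd : ∃ (m : ℕ) (C : ℝ), ∀ h k (f : Sch), ‖c.Tv (hk h k (ev f))‖ ≤ C * ‖h‖ * ‖k‖ * sn m f
  bd2 : ∀ v : D, ∃ (m : ℕ) (C : ℝ), ∀ i j k l (f g : Sch),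
    ‖c.T i j (ev f) (c.T k l (ev g) v)‖ ≤ C * sn m f * sn m g
  ky : ∀ (y : R2) ψ, Dm c.SK ψ → (∀ i, Dm (Mi c.Q i) ψ) → Dm (Pa c.Q) ψ →
    Gn (c.Ky (tv y)) ψ (gen c.SK ψ - ∑ i, ((2 * y i : ℝ) : ℂ) • gen (Mi c.Q i) ψ +
      (d2 y y : ℝ) • gen (Pa c.Q) ψ)

/-- row JC: the modular conjugation of the wedge, duality -/
structure JC : Prop where
  lor : ∀ L, IsLor L → IsLor (jL L) ∧ ∀ s a z, sim s (jL L) (jr a) (jr z) = jr (sim s L a z)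
  ug : ∀ s L a z, 0 < s → IsLor L → c.J (Ug c.Q s L a z) = Ug c.Q s (jL L) (jr a) (c.J z)
  S : ∀ t z, c.J (c.SK t z) = c.SK (-t) (c.J z)
  S0 : ∀ t z, c.J (c.S0 t z) = c.S0 (-t) (c.J z)
  one : ∀ m n f, IsTest f → c.J (c.T m n f c.Q.vac : D) =
    ((sj m * sj n : ℝ) : ℂ) • ((c.T m n (bar fun z => f (jr z)) c.Q.vac : D) : Completion D)
  two : ∀ m n k l f g, IsTest f → IsTest g → c.J (c.T m n f (c.T k l g c.Q.vac) : D) =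
    ((sj m * sj n * (sj k * sj l) : ℝ) : ℂ) • ((c.T m n (bar fun z => f (jr z))
      (c.T k l (bar fun z => g (jr z)) c.Q.vac) : D) : Completion D)
  jt : ∀ m n f (v v' : D), IsTest f → c.J v = v' → c.J (c.T m n f v : D) =
    (((sj m * sj n : ℝ) : ℂ) • c.T m n (bar fun z => f (jr z)) v' : D)
  dual : ∀ a b y, IsNull a → IsNull b → 0 < mdot a b →
    (c.N (Wdg a b y)).commutant = c.N (Wdg b a y)
  alg : ∀ a b y, IsNull a → IsNull b → 0 < mdot a b → ∀ X ∈ c.N (Wdg a b y),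
    jconj c.J X ∈ c.N (jr '' Wdg a b y)
  core : ∀ a b y ψ ψ', IsNull a → IsNull b → 0 < mdot a b →
    (∀ X X', Al c.Q (Wdg b a y) X X' → inner ℂ ((X' c.Q.vac : D) : Completion D) ψ =
      inner ℂ ψ' ((X c.Q.vac : D) : Completion D)) → Pr (c.N (Wdg a b y)) c.Om ψ ψ'

/-- row CH: charges on general surfaces -/
def CH : Prop := ∀ (K : Set V) χ Ξ X (B : Fld D) f v w, IsCompact K → Chg K χ Ξ → IsSim 0 X →
  c.Q.fld B → IsTest f → tsupport f ⊆ K →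
  inner ℂ w (c.Tf (dens χ Ξ X) (B f v) - B f (c.Tf (dens χ Ξ X) v)) =
    inner ℂ w (c.A X (B f v) - B f (c.A X v))

/-- level 1 -/
structure T1 : Prop extends T0 c where
  gen : GEN c
  bas : BAS c.toBase
  jc : JC c
  ch : CH c

/-! ## level 2 -/

/-- row WK: the kernel theorem for the product of two components of members of the family -/
def WK : Prop := ∃ W : ℝ → ℝ → I2 → I2 → S2 →L[ℂ] Completion D,
  (∀ α β K M (f g : Sch) (F : S2), (∀ x y, F (x, y) = f x * g y) → W α β K M F =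
    ((c.TT α K.1 K.2 (ev f) (c.TT β M.1 M.2 (ev g) c.Q.vac) : D) : Completion D)) ∧
  (∀ α β s L a K M (F G : S2), 0 < s → IsLor L →
    (∀ x y, G (x, y) = F (sim s L a x, sim s L a y)) →
    W (α + Real.log s) (β + Real.log s) K M F =
      ∑ K', ∑ M', (L2 L K' K * L2 L M' M) • Ug c.Q s L a (W α β K' M' G)) ∧
  (∀ β K M, IsPol c.n0 fun α => W α β K M) ∧ ∀ α K M, IsPol c.n0 fun β => W α β K M

/-- row KD: the domain of `K` -/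
structure KD : Prop where
  a : ∀ r, 0 < r → ∃ C : ℝ, ∀ ψ ψ', Pr (c.N (Rc r 0)) c.Om ψ ψ' → Dm (Bo c.Q) ψ →
    Dm c.SK ψ ∧ ‖gen c.SK ψ‖ ≤ C * (‖ψ‖ + ‖ψ'‖ + ‖gen (Bo c.Q) ψ‖)
  b : ∀ r r' ψ ψ', 0 ≤ r → 0 ≤ r' → Pr (c.N (Rc r 0)) c.Om ψ ψ' →
    Pr (c.N (Rc r' 0)) c.Om (c.SK (r' - r) ψ) (c.SK (r' - r) ψ')
  a2 : ∀ r r' ψ ψ', 0 ≤ r' → r' < r → Pr (c.N (Rc r 0)) c.Om ψ ψ' → Dm (Bo c.Q) ψ →
    Dm (Bo c.Q) ψ' → Pr (c.N (Rc r' 0)) c.Om (I • gen c.SK ψ) (I • gen c.SK ψ') ∧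
      (Dm (Bo c.Q) (gen (Bo c.Q) ψ) → Dm c.SK (gen (Bo c.Q) ψ) ∧ Gn (Bo c.Q) (gen c.SK ψ)
        (gen c.SK (gen (Bo c.Q) ψ) - I • gen c.SK ψ))
  slab : ∀ b1 b2 : ℝ, (b2 < 0 ∨ 0 < b1) → ∃ (m : ℕ) (C : ℝ), ∀ h k (f : Sch),
    tsupport f ⊆ {z | b1 ≤ be z ∧ be z ≤ b2} → Dm c.SK (c.Tv (hk h k (ev f))) ∧
      Dm c.SK (gen c.SK (c.Tv (hk h k (ev f)))) ∧
      ‖gen c.SK (c.Tv (hk h k (ev f)))‖ ≤ C * ‖h‖ * ‖k‖ * sn m f ∧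
      ‖gen c.SK (gen c.SK (c.Tv (hk h k (ev f))))‖ ≤ C * ‖h‖ * ‖k‖ * sn m f

/-- row GOOD: smooth elements of the local algebras -/
structure GOOD : Prop where
  dense : ∀ y r, 0 < r → Dense {z | ∃ X ∈ c.N (dc y r), c.Good X ∧ X c.Om = z}
  fld : ∀ y r (f : Sch) (m : ℕ) (η : ℝ), In (dc y r) (ev f) → 0 < η → ∃ (f' : Sch)
    (X : ℕ → Completion D →L[ℂ] Completion D), In (dc y r) (ev f') ∧ sn m (f' - f) < η ∧
    (∀ n, X n ∈ c.N (dc y r) ∧ c.Good (X n)) ∧ ∀ (v : D) (k : ℕ),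
      TendstoLocallyUniformly (fun n => iteratedFDeriv ℝ k fun q => c.gq q (X n v))
        (iteratedFDeriv ℝ k fun q => c.gq q (c.Thf (ev f') v : D)) atTop ∧
      TendstoLocallyUniformly (fun n => iteratedFDeriv ℝ k fun q => c.gq q (star (X n) v))
        (iteratedFDeriv ℝ k fun q => c.gq q (c.Thf (bar (ev f')) v : D)) atTop

/-- row F2: the Ward identity for bounded operators -/
def F2 : Prop := ∀ y r a b y1 χ Ξ (L : ℝ → Ix → V) (x : ℝ → V) (ξ : V → V) X k, 0 < r →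
  IsNull a → IsNull b → 0 < mdot a b → X ∈ c.N (dc y r) → Chg (closure (dc y r)) χ Ξ →
  dc y r ⊆ Wdg a b y1 → tsupport χ ⊆ Wdg a b y1 → L 0 = GF.one → x 0 = 0 → (∀ e, IsLor (L e)) →
  (∀ n z, HasDerivAt (fun e => sim 1 (L e) (x e) z n) (ξ z n) 0) →
  Gn (fun e => Ug c.Q 1 (L e) (x e)) (X c.Om) k →
  Pr (c.N (Wdg a b y1)) c.Om (k + X (c.Tv (dens χ Ξ ξ))) (star X (c.Tv (dens χ Ξ ξ)))

/-- row PW: Ward identities on the null plane, for fields -/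
def PW : Prop := ∀ (u0 : ℝ) f1 f3 κ ρ, In {z | u0 < be z} f1 → In {z | be z < -u0} f3 → Cut κ →
  Tst ρ → tsupport ρ ⊆ Set.Ioo (-u0) u0 →
  Tendsto (fun L => inner ℂ (c.Th (bar f1))
      ((c.Tf (hk va va (pr (kL κ L) ρ)) (c.Thf f3 c.Q.vac) : D) : Completion D)) atTop
    (𝓝 ((∫ t, ρ t : ℝ) * inner ℂ (c.Th (bar f1)) (gen (Pa c.Q) (c.Th f3)))) ∧
  ∀ i, Tendsto (fun L => inner ℂ (c.Th (bar f1))
      ((c.Tf (hk va va (pr (fun y => y.2 i * kL κ L y) ρ)) (c.Thf f3 c.Q.vac) : D) : Completion D))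
    atTop (𝓝 ((∫ t, ρ t : ℝ) * inner ℂ (c.Th (bar f1)) (gen (Mi c.Q i) (c.Th f3)) -
      (∫ t, t * ρ t : ℝ) *
        inner ℂ (c.Th (bar f1)) (gen (fun t => Ut c.Q (t • ex i)) (c.Th f3))))

/-- row PWG: Ward identities on the null plane, between polynomials in the fields; the member on
the plane may run with the cutoff -/
def PWG : Prop := ∀ (u0 : ℝ) X X' Y Y' κ ρ (τ : ℝ → ℝ) (C : ℝ), Al c.Q {z | u0 < be z} X X' →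
  Al c.Q {z | be z < -u0} Y Y' → Cut κ → Tst ρ → tsupport ρ ⊆ Set.Ioo (-u0) u0 →
  (∀ L, 1 ≤ L → |τ L| ≤ C * (1 + Real.log L)) →
  Tendsto (fun L => inner ℂ ((X' c.Q.vac : D) : Completion D)
      (((c.sh (τ L)).Tf (hk va va (pr (kL κ L) ρ)) (Y c.Q.vac) : D) : Completion D)) atTop
    (𝓝 ((∫ t, ρ t : ℝ) * inner ℂ ((X' c.Q.vac : D) : Completion D)
      (gen (Pa c.Q) ((Y c.Q.vac : D) : Completion D)))) ∧
  ∀ i, Tendsto (fun L => inner ℂ ((X' c.Q.vac : D) : Completion D) (((c.sh (τ L)).Tf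
      (hk va va (pr (fun y => y.2 i * kL κ L y) ρ)) (Y c.Q.vac) : D) : Completion D))
    atTop (𝓝 ((∫ t, ρ t : ℝ) * inner ℂ ((X' c.Q.vac : D) : Completion D)
        (gen (Mi c.Q i) ((Y c.Q.vac : D) : Completion D)) -
      (∫ t, t * ρ t : ℝ) * inner ℂ ((X' c.Q.vac : D) : Completion D)
        (gen (fun t => Ut c.Q (t • ex i)) ((Y c.Q.vac : D) : Completion D))))

/-- row MIR: the mirror image of the time ordered product -/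
def MIR : Prop := c.tp → ∃ w, TP2 c.Q c.TT false w ∧ ∀ α β K M (F G : S2),
  (∀ x y, G (x, y) = conj (F (jr x, jr y))) →
    w α β K M G = ((sj K.1 * sj K.2 * (sj M.1 * sj M.2) : ℝ) : ℂ) • c.J (c.Wp α β K M F)

/-- row A2: `K φ` is in the form domain of `P_b` -/
structure A2 : Prop where
  abs : ∀ r, 0 < r → ∃ C : ℝ, ∀ φ φ', Pr (c.N (Rc r 0)) c.Om φ φ' → Dm (Pb c.Q) φ →
    Dm (Pb c.Q) φ' → Dm (Bo c.Q) φ → Dm (Bo c.Q) φ' → Dm (Pb c.Q) (gen (Bo c.Q) φ) →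
    Dm (Bo c.Q) (gen (Bo c.Q) φ) → c.qb (gen c.SK φ) ≤ ENNReal.ofReal (C * (‖φ‖ + ‖φ'‖ +
      ‖gen (Pb c.Q) φ‖ + ‖gen (Pb c.Q) φ'‖ + ‖gen (Bo c.Q) φ‖ + ‖gen (Bo c.Q) φ'‖ +
      ‖gen (Pb c.Q) (gen (Bo c.Q) φ)‖ + ‖gen (Bo c.Q) (gen (Bo c.Q) φ)‖) ^ 2)
  slab : ∀ b1 b2 : ℝ, b2 < 0 → ∃ (m : ℕ) (C : ℝ), ∀ h k (f : Sch),
    tsupport f ⊆ {z | b1 ≤ be z ∧ be z ≤ b2} →
      c.qb (gen c.SK (c.Tv (hk h k (ev f)))) ≤ ENNReal.ofReal ((C * ‖h‖ * ‖k‖ * sn m f) ^ 2)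

/-- the tools that keep their form: level 1 and the rows above -/
structure TA : Prop extends T1 c where
  zc : ZC c.toBase
  kd : KD c
  good : GOOD c
  f2 : F2 c
  pw : PW c
  pwg : PWG c
  mir : MIR c
  kt : KT c.toBase
  wk : WK c
  a2 : A2 c

end

end Vale.Agent.P352L
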