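import Vale.Agent.P352L.Pol

/-!
# P352L: sequences with geometric steps, and the running lemma along such sequences (helper68)
-/

set_option linter.all false

open Filter Topology Finset

namespace Vale.Agent.P352L

noncomputable section

variable {E E' : Type*} [NormedAddCommGroup E] [NormedAddCommGroup E'] {q : ℝ} {F G : ℕ → E}

/-- sums of geometric steps -/
theorem geo_sum (q0 : 0 < q) (q1 : q < 1) {C : ℝ} {m : ℕ}
    (h : ∀ j, m ≤ j → ‖F (j + 1) - F j‖ ≤ C * q ^ j) {n : ℕ} (hn : m ≤ n) :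
    ‖F n - F m‖ ≤ C / (1 - q) * q ^ m := by
  have p : 0 < 1 - q := sub_pos.2 q1
  have h0 : 0 ≤ C := le_of_mul_le_mul_right
    (by simpa using (norm_nonneg _).trans (h m le_rfl)) (pow_pos q0 m)
  have e : C = C / (1 - q) * (1 - q) := (div_mul_cancel₀ _ p.ne').symm
  have : ‖F n - F m‖ ≤ C / (1 - q) * q ^ m - C / (1 - q) * q ^ n := by
    induction n, hn using Nat.le_induction with
    | base => simp
    | succ n hn ih =>
      have := norm_add_le (F (n + 1) - F n) (F n - F m)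
      rw [sub_add_sub_cancel] at this
      have k := h n hn
      rw [e] at k
      rw [pow_succ]
      linarith
  have h1 : 0 ≤ C / (1 - q) * q ^ n := by positivity
  linarith

/-- geometric steps -/
def Geo (q : ℝ) (F : ℕ → E) : Prop := ∃ C, ∀ᶠ n in atTop, ‖F (n + 1) - F n‖ ≤ C * q ^ n

namespace Geo

theorem congr (h : Geo q F) (e : ∀ᶠ n in atTop, G n = F n) : Geo q G := by
  obtain ⟨C, h⟩ := h
  refine ⟨C, ?_⟩
  filter_upwards [h, e, (tendsto_add_atTop_nat 1).eventually e] with n a b c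
  rwa [b, c]

theorem const (q : ℝ) (a : E) : Geo q fun _ => a := ⟨0, .of_forall fun _ => by simp⟩

theorem add (h : Geo q F) (h' : Geo q G) : Geo q fun n => F n + G n := by
  obtain ⟨C, h⟩ := h
  obtain ⟨C', h'⟩ := h'
  refine ⟨C + C', ?_⟩
  filter_upwards [h, h'] with n a b
  rw [add_sub_add_comm, add_mul]
  exact (norm_add_le _ _).trans (add_le_add a b)

/-- Lipschitz maps -/
theorem lip (h : Geo q F) (A : E → E') {K : ℝ} (K0 : 0 ≤ K)
    (hA : ∀ x y, ‖A x - A y‖ ≤ K * ‖x - y‖) : Geo q fun n => A (F n) := by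
  obtain ⟨C, h⟩ := h
  exact ⟨K * C, h.mono fun n a => (hA _ _).trans
    ((mul_le_mul_of_nonneg_left a K0).trans_eq (mul_assoc _ _ _).symm)⟩

theorem neg (h : Geo q F) : Geo q fun n => -F n :=
  h.lip (fun x => -x) zero_le_one fun x y => by rw [one_mul, ← neg_sub', norm_neg]

theorem sub (h : Geo q F) (h' : Geo q G) : Geo q fun n => F n - G n := by
  simpa only [sub_eq_add_neg] using h.add h'.neg

theorem of_rate (q0 : 0 < q) (q1 : q < 1) {a : E} {C : ℝ}
    (h : ∀ᶠ n in atTop, ‖F n - a‖ ≤ C * q ^ n) : Geo q F := by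
  refine ⟨2 * |C|, ?_⟩
  filter_upwards [h, (tendsto_add_atTop_nat 1).eventually h] with n a1 a2
  have := norm_sub_le (F (n + 1) - a) (F n - a)
  rw [sub_sub_sub_cancel_right] at this
  have p := pow_pos q0 n
  have h1 : C * q ^ n ≤ |C| * q ^ n := mul_le_mul_of_nonneg_right (le_abs_self C) p.le
  have h2 : C * q ^ (n + 1) ≤ |C| * q ^ n := mul_le_mul (le_abs_self C)
    (pow_le_pow_of_le_one q0.le q1.le n.le_succ) (by positivity) (abs_nonneg _)
  linarith

theorem rate [CompleteSpace E] (q0 : 0 < q) (q1 : q < 1) (h : Geo q F) :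
    ∃ p C, Tendsto F atTop (𝓝 p) ∧ ∀ᶠ n in atTop, ‖F n - p‖ ≤ C * q ^ n := by
  obtain ⟨C, h⟩ := h
  obtain ⟨m, hm⟩ := eventually_atTop.1 h
  have k : ∀ n, m ≤ n → ∀ j, n ≤ j → ‖F j - F n‖ ≤ C / (1 - q) * q ^ n := fun n hn j hj =>
    geo_sum q0 q1 (fun i hi => hm i (hn.trans hi)) hj
  have t : Tendsto (fun n => C / (1 - q) * q ^ n) atTop (𝓝 0) := by
    simpa using (tendsto_pow_atTop_nhds_zero_of_lt_one q0.le q1).const_mul (C / (1 - q))
  have c : CauchySeq F := by
    refine Metric.cauchySeq_iff'.2 fun ε hε => ?_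
    obtain ⟨n, h1, h2⟩ := ((eventually_ge_atTop m).and (t.eventually (gt_mem_nhds hε))).exists
    exact ⟨n, fun j hj => by rw [dist_eq_norm]; exact (k n h1 j hj).trans_lt h2⟩
  obtain ⟨p, hp⟩ := cauchySeq_tendsto_of_complete c
  refine ⟨p, C / (1 - q), hp, (eventually_ge_atTop m).mono fun n hn => ?_⟩
  rw [norm_sub_rev]
  exact le_of_tendsto (hp.sub_const (F n)).norm ((eventually_ge_atTop n).mono (k n hn))

end Geo

theorem tendsto_pol_geo (J : ℕ) (a b : ℝ) (q0 : 0 < q) (q1 : q < 1) :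
    Tendsto (fun n : ℕ => (1 + |b + a * n|) ^ J * q ^ n) atTop (𝓝 0) := by
  have h := (tendsto_pow_const_mul_const_pow_of_abs_lt_one J
    (show |q| < 1 by rwa [abs_of_pos q0])).const_mul ((1 + |b| + |a|) ^ J)
  rw [mul_zero] at h
  refine squeeze_zero' (.of_forall fun n => by positivity) ?_ h
  filter_upwards [eventually_ge_atTop 1] with n hn
  have h1 : (1 : ℝ) ≤ n := by exact_mod_cast hn
  have h2 : 1 + |b + a * n| ≤ (1 + |b| + |a|) * n := by
    have := abs_add_le b (a * n)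
    rw [abs_mul, Nat.abs_cast] at this
    nlinarith [abs_nonneg b]
  rw [← mul_assoc, ← mul_pow]
  gcongr

namespace IsPol

variable [NormedSpace ℝ E] {J : ℕ}

/-- **the running lemma** for sequences with geometric steps -/
theorem run_geo [CompleteSpace E] (q0 : 0 < q) (q1 : q < 1) {F : ℕ → ℝ → E} {a b : ℝ} (ha : a ≠ 0)
    (h : ∀ᶠ n in atTop, IsPol J (F n)) (hg : ∀ σ, Geo q fun n => F n σ) {x : E}
    (hx : Tendsto (fun n : ℕ => F n (b + a * n)) atTop (𝓝 x)) (σ : ℝ) :
    Tendsto (fun n => F n σ) atTop (𝓝 x) := by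
  choose p C _ hC using fun σ => (hg σ).rate q0 q1
  refine (run (p := p) (r := fun n => q ^ n) h (.of_forall fun n => by positivity)
    (fun σ => ⟨C σ, hC σ⟩) (tendsto_pol_geo J a b q0 q1) ?_ hx σ).2
  refine tendsto_atTop_mono (f := fun n : ℕ => |a| * n + -|b|) (fun n => ?_)
    (tendsto_atTop_add_const_right _ _ (tendsto_natCast_atTop_atTop.const_mul_atTop (abs_pos.2 ha)))
  have := abs_sub (b + a * n) b
  rw [add_sub_cancel_left, abs_mul, Nat.abs_cast] at this
  linarith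

/-- bounds by seminorms whose order depends on the member -/
theorem unifm {α : Type*} {F : α → ℝ → E} {r : ℕ → α → ℝ} {P : α → Prop}
    (h : ∀ x, P x → IsPol J (F x)) (r0 : ∀ m x, P x → 0 ≤ r m x)
    (rm : ∀ m m' x, m ≤ m' → P x → r m x ≤ r m' x)
    (hb : ∀ τ, ∃ m C, ∀ x, P x → ‖F x τ‖ ≤ C * r m x) :
    ∃ m C, 0 ≤ C ∧ ∀ x, P x → ∀ τ, ‖F x τ‖ ≤ C * (1 + |τ|) ^ J * r m x := by
  obtain ⟨C, C0, hC⟩ := bd (E := E) J
  choose m K hK using hb
  refine ⟨(range (J + 1)).sup fun i => m i, C * ∑ i ∈ range (J + 1), |K i|, by positivity,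
    fun x hx τ => (hC (F x) ((∑ i ∈ range (J + 1), |K i|) * r _ x) (h x hx) (fun i hi =>
      (hK i x hx).trans (mul_le_mul ((le_abs_self _).trans
        (single_le_sum (f := fun i : ℕ => |K i|) (fun _ _ => abs_nonneg _) hi))
        (rm _ _ x (le_sup (f := fun i : ℕ => m i) hi) hx) (r0 _ x hx) (by positivity))) τ).trans_eq
    (by ring)⟩

end IsPol

end

end Vale.Agent.P352L
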