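import Vale.Agent.P352L.Wt
import Vale.Agent.P352L.Geo
import Vale.Agent.P352X.R.BB.Low
import Vale.Agent.P352X.R.BB.BaseA
import Vale.Agent.P352X.Api3d

/-!
# P352L, row BB: weighted norms from a two point bound with logarithms (helper68)
-/

set_option linter.all false

open MeasureTheory Filter Topology
open scoped SchwartzMap ComplexConjugate ENNReal ContDiff Real

namespace Vale.Agent.P352L.BL

open Vale.Agent.P352 Vale.Agent.P352.GF Vale.Agent.P352.BW Vale.Agent.P352.H246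
open Vale.Agent.P352.H496 Vale.Agent.P352.H755 Vale.Agent.P352.H15
open Vale.Agent.P352X Vale.Agent.P352X.BX Vale.Agent.P352L.Wt
open Complex (I)

noncomputable section

variable {H : Type*} [NormedAddCommGroup H] [InnerProductSpace ℂ H] [CompleteSpace H]

/-- the two point bound for the vector `η` -/
def Tw (C : SN.Calc V H) (K x : ℝ) (h k : V) (f : Fn) (η : H) : Prop :=
  C.nu η ≤ (volume.restrict Fc).withDensity fun p =>
    ENNReal.ofReal (K * Lm (Real.exp (2 * x) * mu p) * nn p h * nn p k * ‖ft f p‖ ^ 2)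

variable {C : SN.Calc V H} {K x : ℝ} {h k : V} {f : Fn} {η : H}

theorem cont_nn (h : V) : Continuous fun p => nn p h := by
  have := (mdL h).continuous
  simp only [nn]
  exact (continuous_const.mul (this.pow 2)).sub (cont_mu.mul continuous_const)

/-- the bound in integrated form -/
theorem Tw.int (hη : Tw C K x h k f η) (K0 : 0 ≤ K) (hf : IsTest f) {m F : V → ℝ}
    (hm : Measurable m) (m0 : ∀ p, 0 ≤ m p) (hF : IntegrableOn F Fc) (F0 : ∀ p ∈ Fc, 0 ≤ F p)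
    (hb : ∀ᵐ p, p ∈ Fc →
      m p * (Lm (Real.exp (2 * x) * mu p) * (nn p h * nn p k) * ‖ft f p‖ ^ 2) ≤ F p) :
    ∫⁻ p, ENNReal.ofReal (m p) ∂C.nu η ≤ ENNReal.ofReal (K * ∫ p in Fc, F p) := by
  refine (lintegral_mono' hη le_rfl).trans ?_
  have cm : Measurable fun p =>
      K * Lm (Real.exp (2 * x) * mu p) * nn p h * nn p k * ‖ft f p‖ ^ 2 :=
    (((measurable_const.mul (meas_Lm.comp (measurable_const.mul cont_mu.measurable))).mul
      (cont_nn h).measurable).mul (cont_nn k).measurable).mul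
      ((cont_ft hf).norm.pow 2).measurable
  refine (lintegral_withDensity_le_lintegral_mul _ cm.ennreal_ofReal _).trans ?_
  calc _ ≤ ∫⁻ p in Fc, ENNReal.ofReal (K * F p) := by
        refine setLIntegral_mono_ae' meas_Fc (hb.mono fun p hp hp' => ?_)
        rw [Pi.mul_apply, mul_comm, ← ENNReal.ofReal_mul (m0 p)]
        refine ENNReal.ofReal_le_ofReal (le_trans (le_of_eq ?_)
          (mul_le_mul_of_nonneg_left (hp hp') K0))
        ring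
    _ = _ := by
        rw [← ofReal_integral_eq_lintegral_ofReal (hF.const_mul K)
          ((ae_restrict_mem meas_Fc).mono fun p hp => mul_nonneg K0 (F0 p hp)), integral_const_mul]

theorem dec3 {g : P3 → ℂ} (hg : Dc g) : ∃ G, 0 ≤ G ∧ ∀ k : P3,
    (1 + k.1 ^ 2) ^ 2 * ‖ft3 g k‖ ^ 2 ≤ G ^ 2 * ((1 + ‖k‖) ^ 5)⁻¹ := by
  obtain ⟨m, A, A0, h⟩ := ft3_decay 5
  refine ⟨A * sn m (sch g), mul_nonneg A0 (apply_nonneg _ _), fun k => ?_⟩
  have h1 := h (sch g) k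
  rw [Ap.coe_sch (Ap.dc_sw hg)] at h1
  have n := norm_nonneg k
  have h2 : 1 + k.1 ^ 2 ≤ (1 + ‖k‖) ^ 2 := by
    have := norm_fst_le k
    rw [Real.norm_eq_abs] at this
    rw [← sq_abs]
    nlinarith [abs_nonneg k.1]
  rw [← div_eq_mul_inv, le_div_iff₀ (by positivity)]
  calc _ ≤ ((1 + ‖k‖) ^ 2) ^ 2 * ‖ft3 g k‖ ^ 2 * (1 + ‖k‖) ^ 6 := by
        gcongr
        · linarith
        · norm_num
    _ = ((1 + ‖k‖) ^ 5 * ‖ft3 g k‖) ^ 2 := by ring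
    _ ≤ _ := by gcongr

theorem dec1 {φ : ℝ → ℂ} (hφ : Dc φ) : ∃ G, 0 ≤ G ∧ ∀ t : ℝ, 0 ≤ t →
    (1 + t ^ 2) ^ 2 * ‖ft1 φ t‖ ^ 2 ≤ G ^ 2 * ((1 + t) ^ 2)⁻¹ := by
  obtain ⟨m, A, A0, h⟩ := ft1_decay 3
  refine ⟨A * sn m (sch φ), mul_nonneg A0 (apply_nonneg _ _), fun t ht => ?_⟩
  have h1 := h (sch φ) t
  rw [Ap.coe_sch (Ap.dc_sw hφ), Real.norm_of_nonneg ht] at h1
  have h2 : 1 + t ^ 2 ≤ (1 + t) ^ 2 := by nlinarith
  rw [← div_eq_mul_inv, le_div_iff₀ (by positivity)]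
  calc _ ≤ ((1 + t) ^ 2) ^ 2 * ‖ft1 φ t‖ ^ 2 * (1 + t) ^ 2 := by gcongr
    _ = ((1 + t) ^ 3 * ‖ft1 φ t‖) ^ 2 := by ring
    _ ≤ _ := by gcongr

/-- the weight of the member `x` against the weight of the scale `s` -/
def Wk (x s A : ℝ) : Prop := 0 ≤ A ∧ ∀ y, 0 < y → Lm (Real.exp (2 * x) * y) ≤ A ^ 2 * Lm (s * y)

theorem wk_run {s : ℝ} (hs : 0 < s) : Wk (Real.log s / 2) s 1 := ⟨zero_le_one, fun y _ => by
  rw [mul_div_cancel₀ _ two_ne_zero, Real.exp_log hs, one_pow, one_mul]⟩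

theorem wk_fix {s : ℝ} (hs : 0 < s) (h1 : s ≤ 1) : Wk 0 s (2 * s ^ (-(1 / 8) : ℝ)) :=
  ⟨by positivity, fun y hy => by
    rw [mul_zero, Real.exp_zero, one_mul]
    exact Lm_fix hs h1 hy⟩

/-- weighted norms of thin slabs -/
theorem thin (K0 : 0 ≤ K) {g : P3 → ℂ} {φ : ℝ → ℂ} (hg : Dc g) (hφ : Dc φ) : ∃ K' : ℝ, 0 ≤ K' ∧
    ∀ (x : ℝ) (h k : V) (ψ : ℝ → ℂ) (s l M A : ℝ) (m : V → ℝ) (η : H), 0 < s → 0 ≤ M → Dc ψ →
      (∀ t, ‖ft1 ψ t‖ = l * s * ‖ft1 φ (s * t)‖) → Measurable m → (∀ p, 0 ≤ m p) → Wk x s A →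
      (∀ p ∈ Fc, m p * (nn p h * nn p k) * (l ^ 2 * s) ≤
        M ^ 2 * ((1 + be p ^ 2) ^ 2 * (1 + (s * al p) ^ 2) ^ 2)) → Tw C K x h k (pf g ψ) η →
      ∫⁻ p, ENNReal.ofReal (m p) ∂C.nu η ≤ ENNReal.ofReal ((K' * A * M) ^ 2) := by
  obtain ⟨G, G0, hG⟩ := dec3 hg
  obtain ⟨F, F0, hF⟩ := dec1 hφ
  obtain ⟨B, B0, hB⟩ := thinI
  refine ⟨√(K * B) * (G * F), by positivity,
    fun x h k ψ s l M A m η hs M0 hψ e hm m0 hA hb hη => ?_⟩
  obtain ⟨W, w1, w2, w3⟩ := hB s hs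
  have W0 : ∀ p ∈ Fc, 0 ≤ W p := fun p hp => le_trans (by
    have := Lm_pos (mul_pos hs ((mem_Fc p).1 hp).2)
    have := ((mem_Fc' p).1 hp).1
    positivity) (w3 p hp)
  refine (hη.int K0 (Ap.test_pf hg hψ) hm m0 (w1.const_mul ((G * F * A * M) ^ 2))
    (fun p hp => mul_nonneg (sq_nonneg _) (W0 p hp)) (.of_forall fun p hp => ?_)).trans_eq ?_
  · have m1 := ((mem_Fc p).1 hp).2
    have a1 := ((mem_Fc' p).1 hp).1
    have l1 := Lm_pos (mul_pos hs m1)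
    have l2 := Lm_pos (mul_pos (Real.exp_pos (2 * x)) m1)
    have k1 := hG (pm p)
    have k2 := hF (s * al p) (by positivity)
    rw [pm_1] at k1
    rw [ft_pf, norm_mul, e]
    calc _ = m p * (nn p h * nn p k) * (l ^ 2 * s) * (Lm (Real.exp (2 * x) * mu p) *
          (s * ‖ft3 g (pm p)‖ ^ 2 * ‖ft1 φ (s * al p)‖ ^ 2)) := by ring
      _ ≤ M ^ 2 * ((1 + be p ^ 2) ^ 2 * (1 + (s * al p) ^ 2) ^ 2) * (A ^ 2 * Lm (s * mu p) *
          (s * ‖ft3 g (pm p)‖ ^ 2 * ‖ft1 φ (s * al p)‖ ^ 2)) :=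
        mul_le_mul (hb p hp) (mul_le_mul_of_nonneg_right (hA.2 _ m1) (by positivity))
          (by positivity) (by positivity)
      _ = M ^ 2 * A ^ 2 * (s * Lm (s * mu p)) * (((1 + be p ^ 2) ^ 2 * ‖ft3 g (pm p)‖ ^ 2) *
          ((1 + (s * al p) ^ 2) ^ 2 * ‖ft1 φ (s * al p)‖ ^ 2)) := by ring
      _ ≤ M ^ 2 * A ^ 2 * (s * Lm (s * mu p)) * ((G ^ 2 * ((1 + ‖pm p‖) ^ 5)⁻¹) *
          (F ^ 2 * ((1 + s * al p) ^ 2)⁻¹)) := by gcongr
      _ = (G * F * A * M) ^ 2 *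
          (s * Lm (s * mu p) * ((1 + ‖pm p‖) ^ 5)⁻¹ * ((1 + s * al p) ^ 2)⁻¹) := by ring
      _ ≤ _ := mul_le_mul_of_nonneg_left (w3 p hp) (sq_nonneg _)
  · rw [integral_const_mul, w2]
    congr 1
    simp only [mul_pow, Real.sq_sqrt (mul_nonneg K0 B0)]
    ring

/-- small light cone momenta -/
theorem strip (K0 : 0 ≤ K) {l : V → ℝ} (hl : l = al ∨ l = be) : ∃ (m : ℕ) (A : ℝ), 0 ≤ A ∧
    ∀ h k (f : Sch) (η : H) (σ : ℝ), 0 < σ → Tw C K 0 h k (ev f) η →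
      ‖C.P {p | l p < σ} η‖ ≤ A * √σ * ‖h‖ * ‖k‖ * sn m f := by
  obtain ⟨m, A, A0, hA⟩ := ft_decay 6
  obtain ⟨B, B0, hB⟩ := lowI hl
  refine ⟨m, √(K * B) * (48 * A), by positivity, fun h k f η σ hσ hη => ?_⟩
  obtain ⟨W, w1, w2, w3, w4⟩ := hB σ hσ
  have hS : MeasurableSet {p | l p < σ} := measurableSet_lt
    (by rcases hl with rfl | rfl; exacts [meas_al, meas_be]) measurable_const
  have s0 : 0 ≤ sn m f := apply_nonneg _ _
  set N := (48 * A * ‖h‖ * ‖k‖ * sn m f) ^ 2 with hN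
  have := hη.int K0 ⟨f, rfl⟩ (m := {p | l p < σ}.indicator 1) (measurable_one.indicator hS)
    (fun p => Set.indicator_nonneg (fun _ _ => zero_le_one) p) (w1.const_mul N)
    (fun p hp => mul_nonneg (sq_nonneg _) (w3 p hp)) (ae_tx.mono fun p hq hp => by
      by_cases e : l p < σ
      · rw [Set.indicator_of_mem (show p ∈ {p | l p < σ} from e), Pi.one_apply, one_mul, mul_zero,
          Real.exp_zero, one_mul]
        refine le_trans ?_ (mul_le_mul_of_nonneg_left (w4 p hp hq e) (sq_nonneg _))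
        have l1 := Lm_pos ((mem_Fc p).1 hp).2
        have h1 : nn p h * nn p k ≤
            48 * ‖h‖ ^ 2 * (1 + ‖p‖) ^ 2 * (48 * ‖k‖ ^ 2 * (1 + ‖p‖) ^ 2) := by
          refine (le_abs_self _).trans ((abs_mul _ _).trans_le ?_)
          refine (mul_le_mul (Low.abs_nn p h) (Low.abs_nn p k) (abs_nonneg _)
            (by positivity)).trans ?_
          gcongr <;> linarith
        rw [mul_assoc, mul_left_comm N, ← div_eq_mul_inv N]
        refine mul_le_mul_of_nonneg_left ((le_div_iff₀ (by positivity)).2 ?_) l1.le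
        calc _ ≤ 48 * ‖h‖ ^ 2 * (1 + ‖p‖) ^ 2 * (48 * ‖k‖ ^ 2 * (1 + ‖p‖) ^ 2) *
              ‖ft (ev f) p‖ ^ 2 * (1 + ‖p‖) ^ 8 := by gcongr
          _ = (48 * ‖h‖ * ‖k‖ * ((1 + ‖p‖) ^ 6 * ‖ft (ev f) p‖)) ^ 2 := by ring
          _ ≤ (48 * ‖h‖ * ‖k‖ * (A * sn m f)) ^ 2 := by gcongr (_ * ?_) ^ 2; exact hA f p
          _ = N := by simp only [N]; ring
      · rw [Set.indicator_of_notMem (show p ∉ {p | l p < σ} from e), zero_mul]
        exact mul_nonneg (sq_nonneg _) (w3 p hp))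
  have e : (fun p => ENNReal.ofReal ({p | l p < σ}.indicator (1 : V → ℝ) p)) =
      {p | l p < σ}.indicator 1 := funext fun p => by by_cases e : l p < σ <;> simp [e]
  rw [e, lintegral_indicator_one hS, C.nu_apply hS, integral_const_mul, w2,
    ENNReal.ofReal_le_ofReal_iff (by positivity)] at this
  refine abs_le_of_sq_le_sq' (this.trans_eq ?_) (by positivity) |>.2
  simp only [mul_pow, Real.sq_sqrt hσ.le, Real.sq_sqrt (mul_nonneg K0 B0), N]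
  ring

/-! ## scales -/

theorem rt_fix {s : ℝ} (hs : 0 < s) (h1 : s ≤ 1) : s ^ (-(1 / 8) : ℝ) * √s ≤ √√s := by
  rw [Real.sqrt_eq_rpow, Real.sqrt_eq_rpow, ← Real.rpow_add hs, ← Real.rpow_mul hs.le]
  exact Real.rpow_le_rpow_of_exponent_ge hs h1 (by norm_num)

theorem rt_ep (n : ℕ) : √√(ep n) ≤ (1 / 2) ^ n := by
  refine Real.sqrt_le_iff.2 ⟨(half_mem n).1.le, Real.sqrt_le_iff.2 ⟨by positivity, ?_⟩⟩
  rw [← pow_mul]
  exact pow_le_pow_of_le_one (half_mem n).1.le (half_mem n).2 (by norm_num)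

theorem rt_half (n : ℕ) : √((1 / 2 : ℝ) ^ n) ≤ (3 / 4) ^ n := by
  refine Real.sqrt_le_iff.2 ⟨by positivity, ?_⟩
  rw [← pow_mul, mul_comm, pow_mul]
  exact pow_le_pow_left₀ (by norm_num) (by norm_num) n

theorem half_le (n : ℕ) : (1 / 2 : ℝ) ^ n ≤ (3 / 4) ^ n :=
  pow_le_pow_left₀ (by norm_num) (by norm_num) n

theorem log_ep (n : ℕ) : Real.log (ep n) / 2 = 0 + -(11 * Real.log 2) * n := by
  rw [ep, Real.log_pow, Real.log_pow, one_div, Real.log_inv]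
  push_cast
  ring

end

end Vale.Agent.P352L.BL
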