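import Vale.Agent.P352L.BL0
import Vale.Agent.P352L.Api1C
import Vale.Agent.P352X.R.BB.L1

/-!
# P352L, row BB: vocabulary and the calculus of the vectors `T(h, k)(f) Ω` (helper68)
-/

set_option linter.all false

open MeasureTheory Filter Topology Set
open scoped SchwartzMap ComplexConjugate ENNReal ContDiff

namespace Vale.Agent.P352L.BL

open Vale.Agent.P352 Vale.Agent.P352.GF Vale.Agent.P352.BW Vale.Agent.P352.H246
open Vale.Agent.P352.H496 Vale.Agent.P352.H755 Vale.Agent.P352.H15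
open Vale.Agent.P352X Vale.Agent.P352X.BX Vale.Agent.P352X.Ap
open Vale.Agent.P132 (ModData jconj)
open UniformSpace (Completion)
open Complex (I)

noncomputable section

export Vale.Agent.P352X.BX (kk ps tm ng fl da di xi x2 Stp opp kp slab face edge cut0 ep Box)

variable {D : Type*} [NormedAddCommGroup D] [InnerProductSpace ℂ D]

section base

variable (c : Base D)

/-- averages along `b` -/
def Rb (ρ : ℝ → ℝ) (v : Completion D) : Completion D := ∫ u, (ρ u : ℂ) • Pb c.Q u v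
/-- `v` is in the form domain of `P_b`, with the bound `N` -/
def Qb (v : Completion D) (N : ℝ) : Prop := ‖v‖ ≤ N ∧ c.qb v ≤ ENNReal.ofReal (N ^ 2)
/-- smooth in norm under the boosts and the translations along `b` -/
def Sm (X : Completion D →L[ℂ] Completion D) : Prop :=
  ContDiff ℝ ∞ fun q : ℝ × ℝ => Bo c.Q q.1 * Pb c.Q q.2 * X * Pb c.Q (-q.2) * Bo c.Q (-q.1)
/-- the domain conditions for `i [B, K] = K` -/
def Reg (φ : Completion D) : Prop := Dm (Bo c.Q) φ ∧ Dm c.SK φ ∧ Dm c.SK (gen (Bo c.Q) φ) ∧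
  Gn (Bo c.Q) (gen c.SK φ) (gen c.SK (gen (Bo c.Q) φ) - I • gen c.SK φ)
/-- the data of the row -/
structure Dat (u0 d0 : ℝ) (y1 : V) (r1 : ℝ) (y2 : V) (r2 : ℝ)
    (X X' : Completion D →L[ℂ] Completion D) : Prop where
  hd : 0 < d0
  h1 : 0 < r1
  h2 : 0 < r2
  s1 : dc y1 r1 ⊆ {z | be z < -u0 ∧ d0 < al z}
  s2 : dc y2 r2 ⊆ {z | be z < -u0 ∧ d0 < al z}
  m1 : X ∈ c.N (dc y1 r1)
  m2 : X' ∈ c.N (dc y2 r2)

end base

section voc

variable (c : Ctx D)

/-- `T(h, k)(g φ) Ω` -/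
def TP (h k : V) (g : P3 → ℝ) (φ : ℝ → ℝ) : Completion D := c.Tv (hk h k (pr g φ))
/-- `T(h, ξ)(g φ) Ω` for the boost field `ξ = al a - be b` -/
def Tx (h : V) (g : P3 → ℝ) (φ : ℝ → ℝ) : Completion D :=
  TP c h va (ap 1 g) φ - TP c h vb g (tm φ)
/-- the charge of the boost on the surface below the plane -/
def GG (χ : ℝ → ℝ) (R L ε : ℝ) : Completion D :=
  -Tx c va (slab χ R L) (dlt ε (deriv ps)) - Tx c vb (face R L) (edge R ε)
/-- `K T(f) - 2 M_i T(x_i f) + P T(|x|^2 f)`: covariant under the transverse translations -/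
def Kt (h k : V) (f : Fn) : Completion D :=
  gen c.SK (c.Tv (hk h k f)) -
    (2 : ℂ) • ∑ i, gen (Mi c.Q i) (c.Tv (hk h k fun z => (tx z i : ℝ) * f z)) +
    gen (Pa c.Q) (c.Tv (hk h k fun z => (d2 (tx z) (tx z) : ℝ) * f z))

/-- the two point bound, uniformly in the member -/
def Two : Prop := ∃ C, 0 ≤ C ∧ ∀ x h k f, IsTest f →
  Tw c.bt.toCalc C x h k f ((c.sh x).Tv (hk h k f))

/-- the tools for one member -/
structure Tm : Prop where
  grp : GRP c
  gen : GEN c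
  bas : BAS c.toBase
  jc : JC c
  kd : KD c
  f2 : F2 c
  a2 : A2 c
  two : Two c

/-- the tools for all members -/
structure TB : Prop extends Tm c where
  all : All Tm c

theorem T_fld (m n : Ix) : c.Q.fld (c.T m n) := c.Q.bose_fld _ (c.hT.bose m n)

theorem Tv_hk (h k : V) {f : Fn} (hf : IsTest f) : c.Tv (hk h k f) = ∑ m, ∑ n,
    ((eta m * h m * (eta n * k n) : ℝ) : ℂ) • ((c.T m n f c.Q.vac : D) : Completion D) := by
  have e : ∀ m n, c.T m n (hk h k f m n) c.Q.vac =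
      ((eta m * h m * (eta n * k n) : ℝ) : ℂ) • c.T m n f c.Q.vac := fun m n =>
    Grp.fld_smul (T_fld c m n) _ hf _
  simp only [Ctx.Tv, Ctx.Tf, e]
  change Completion.toComplL (𝕜 := ℂ) _ = _
  simp only [map_sum, map_smul]
  rfl

end voc

variable {c : Ctx D}
  {h h' k k' y : V} {f f' : Fn} {g g' : P3 → ℝ} {φ φ' ρ ρ' χ : ℝ → ℝ} {r s t d R L ε u : ℝ}
  {v w : Completion D} {X : Completion D →L[ℂ] Completion D}

theorem TB.sh (t : TB c) (x : ℝ) : TB (c.sh x) := ⟨t.all x, t.all.sh x⟩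

theorem sh_back (c : Ctx D) (x : ℝ) : (c.sh x).sh (-x) = c := by
  rw [c.sh_sh, add_neg_cancel, c.sh_zero]

theorem sh_back' (c : Ctx D) (x : ℝ) : (c.sh (-x)).sh x = c := by
  rw [c.sh_sh, neg_add_cancel, c.sh_zero]

/-! ## linearity -/

variable (c) in
/-- `f ↦ T(h, k)(f) Ω` -/
def TL (h k : V) : Sch →L[ℂ] Completion D :=
  ∑ m, ∑ n, ((eta m * h m * (eta n * k n) : ℝ) : ℂ) •
    (Completion.toComplL ∘L Grp.fC (T_fld c m n) c.Q.vac)

theorem TL_apply (h k : V) (F : Sch) : TL c h k F = c.Tv (hk h k (ev F)) := by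
  rw [Tv_hk c h k (test_ev F)]
  simp only [TL, ContinuousLinearMap.sum_apply, ContinuousLinearMap.smul_apply]
  rfl

theorem Tv_sch (hf : IsTest f) (h k : V) : c.Tv (hk h k f) = TL c h k (sch f) := by
  rw [TL_apply, ev_sch hf]

theorem Tv_add (hf : IsTest f) (hf' : IsTest f') (h k : V) :
    c.Tv (hk h k fun z => f z + f' z) = c.Tv (hk h k f) + c.Tv (hk h k f') := by
  rw [Tv_sch hf, Tv_sch hf', Tv_sch (sw_add hf hf'), Ap.sch_add hf hf', map_add]

theorem Tv_sub (hf : IsTest f) (hf' : IsTest f') (h k : V) :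
    c.Tv (hk h k fun z => f z - f' z) = c.Tv (hk h k f) - c.Tv (hk h k f') := by
  rw [Tv_sch hf, Tv_sch hf', Tv_sch (sw_sub hf hf'), Ap.sch_sub hf hf', map_sub]

theorem Tv_cmul (a : ℂ) (hf : IsTest f) (h k : V) :
    c.Tv (hk h k fun z => a * f z) = a • c.Tv (hk h k f) := by
  rw [Tv_sch hf, Tv_sch (sw_cmul a hf), Ap.sch_cmul a hf, map_smul]

theorem Tv_zero (h k : V) : c.Tv (hk h k fun _ => 0) = 0 := by
  rw [Tv_sch sw_zero, Ap.sch_zero, map_zero]

theorem Tv_sum {ι : Type*} {S : Finset ι} {F : ι → Fn} (hF : ∀ i ∈ S, IsTest (F i)) (h k : V) :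
    c.Tv (hk h k fun z => ∑ i ∈ S, F i z) = ∑ i ∈ S, c.Tv (hk h k (F i)) := by
  rw [Tv_sch (sw_sum hF), Ap.sch_sum hF, map_sum]
  exact Finset.sum_congr rfl fun i hi => (Tv_sch (hF i hi) h k).symm

theorem Tv_symm (hf : IsTest f) (h k : V) : c.Tv (hk h k f) = c.Tv (hk k h f) := by
  rw [Tv_hk c h k hf, Tv_hk c k h hf, Finset.sum_comm]
  refine Finset.sum_congr rfl fun m _ => Finset.sum_congr rfl fun n _ => ?_
  rw [c.hT.symm n m f _ hf, mul_comm]

theorem Tv_add_l (hf : IsTest f) (h h' k : V) :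
    c.Tv (hk (h + h') k f) = c.Tv (hk h k f) + c.Tv (hk h' k f) := by
  simp only [Tv_hk c _ _ hf, ← Finset.sum_add_distrib, ← add_smul, Pi.add_apply]
  refine Finset.sum_congr rfl fun m _ => Finset.sum_congr rfl fun n _ => ?_
  congr 1
  push_cast
  ring

theorem Tv_smul_l (hf : IsTest f) (t : ℝ) (h k : V) :
    c.Tv (hk (t • h) k f) = (t : ℂ) • c.Tv (hk h k f) := by
  simp only [Tv_hk c _ _ hf, Finset.smul_sum, smul_smul, Pi.smul_apply, smul_eq_mul]
  refine Finset.sum_congr rfl fun m _ => Finset.sum_congr rfl fun n _ => ?_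
  congr 1
  push_cast
  ring

theorem Tv_add_r (hf : IsTest f) (h k k' : V) :
    c.Tv (hk h (k + k') f) = c.Tv (hk h k f) + c.Tv (hk h k' f) := by
  rw [Tv_symm hf, Tv_add_l hf, Tv_symm hf k, Tv_symm hf k']

theorem Tv_smul_r (hf : IsTest f) (t : ℝ) (h k : V) :
    c.Tv (hk h (t • k) f) = (t : ℂ) • c.Tv (hk h k f) := by
  rw [Tv_symm hf, Tv_smul_l hf, Tv_symm hf k]

theorem Tv_neg_l (hf : IsTest f) (h k : V) : c.Tv (hk (-h) k f) = -c.Tv (hk h k f) := by
  simpa using Tv_smul_l (c := c) hf (-1) h k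

theorem Tv_neg_r (hf : IsTest f) (h k : V) : c.Tv (hk h (-k) f) = -c.Tv (hk h k f) := by
  simpa using Tv_smul_r (c := c) hf (-1) h k

theorem Tv_zero_l (hf : IsTest f) (k : V) : c.Tv (hk 0 k f) = 0 := by
  simpa using Tv_smul_l (c := c) hf 0 0 k

theorem Tv_zero_r (hf : IsTest f) (h : V) : c.Tv (hk h 0 f) = 0 := by
  rw [Tv_symm hf, Tv_zero_l hf]

/-- general tensor test functions -/
theorem Tv_add' {F F' : Ix → Ix → Fn} (hF : ∀ m n, IsTest (F m n)) (hF' : ∀ m n, IsTest (F' m n)) :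
    c.Tv (fun m n z => F m n z + F' m n z) = c.Tv F + c.Tv F' := by
  have e : ∀ m n, c.T m n (fun z => F m n z + F' m n z) c.Q.vac =
      c.T m n (F m n) c.Q.vac + c.T m n (F' m n) c.Q.vac := fun m n => by
    simpa using c.Q.lin _ _ _ 1 c.Q.vac (T_fld c m n) (hF m n) (hF' m n)
  simp only [Ctx.Tv, Ctx.Tf, e, Finset.sum_add_distrib, Completion.coe_add]

/-! ## product functions -/

theorem TP_sch (hg : Tst g) (hφ : Tst φ) (h k : V) : TP c h k g φ = TL c h k (sch (pr g φ)) :=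
  Tv_sch (test_pr hg hφ) h k

theorem TP_symm (hg : Tst g) (hφ : Tst φ) (h k : V) : TP c h k g φ = TP c k h g φ :=
  Tv_symm (test_pr hg hφ) h k

theorem TP_add_g (hg : Tst g) (hg' : Tst g') (hφ : Tst φ) (h k : V) :
    TP c h k (fun y => g y + g' y) φ = TP c h k g φ + TP c h k g' φ := by
  rw [TP, TP, TP, ← Tv_add (test_pr hg hφ) (test_pr hg' hφ)]
  congr 2
  funext z
  simp [pr, add_mul]

theorem TP_add_p (hg : Tst g) (hφ : Tst φ) (hφ' : Tst φ') (h k : V) :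
    TP c h k g (fun t => φ t + φ' t) = TP c h k g φ + TP c h k g φ' := by
  rw [TP, TP, TP, ← Tv_add (test_pr hg hφ) (test_pr hg hφ')]
  congr 2
  funext z
  simp [pr, mul_add]

theorem TP_mul_g (a : ℝ) (hg : Tst g) (hφ : Tst φ) (h k : V) :
    TP c h k (fun y => a * g y) φ = (a : ℂ) • TP c h k g φ := by
  rw [TP, TP, ← Tv_cmul a (test_pr hg hφ)]
  congr 2
  funext z
  simp [pr, mul_assoc]

theorem TP_mul_p (a : ℝ) (hg : Tst g) (hφ : Tst φ) (h k : V) :
    TP c h k g (fun t => a * φ t) = (a : ℂ) • TP c h k g φ := by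
  rw [TP, TP, ← Tv_cmul a (test_pr hg hφ)]
  congr 2
  funext z
  simp [pr, mul_left_comm]

theorem TP_neg_g (hg : Tst g) (hφ : Tst φ) (h k : V) :
    TP c h k (fun y => -g y) φ = -TP c h k g φ := by
  simpa using TP_mul_g (c := c) (-1) hg hφ h k

theorem TP_neg_p (hg : Tst g) (hφ : Tst φ) (h k : V) :
    TP c h k g (fun t => -φ t) = -TP c h k g φ := by
  simpa using TP_mul_p (c := c) (-1) hg hφ h k

theorem TP_sub_g (hg : Tst g) (hg' : Tst g') (hφ : Tst φ) (h k : V) :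
    TP c h k (fun y => g y - g' y) φ = TP c h k g φ - TP c h k g' φ := by
  simp only [sub_eq_add_neg]
  rw [TP_add_g hg (cs_neg hg') hφ, TP_neg_g hg' hφ]

theorem TP_sub_p (hg : Tst g) (hφ : Tst φ) (hφ' : Tst φ') (h k : V) :
    TP c h k g (fun t => φ t - φ' t) = TP c h k g φ - TP c h k g φ' := by
  simp only [sub_eq_add_neg]
  rw [TP_add_p hg hφ (cs_neg hφ'), TP_neg_p hg hφ']

theorem TP_sum_g {ι : Type*} {S : Finset ι} {G : ι → P3 → ℝ} (hG : ∀ i ∈ S, Tst (G i)) (hφ : Tst φ)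
    (h k : V) : TP c h k (fun y => ∑ i ∈ S, G i y) φ = ∑ i ∈ S, TP c h k (G i) φ := by
  simp only [TP]
  rw [← Tv_sum fun i hi => test_pr (hG i hi) hφ]
  congr 2
  funext z
  simp [pr, Finset.sum_mul]

theorem Tx_add_g (hg : Tst g) (hg' : Tst g') (hφ : Tst φ) (h : V) :
    Tx c h (fun y => g y + g' y) φ = Tx c h g φ + Tx c h g' φ := by
  have e : ap 1 (fun y => g y + g' y) = fun y => ap 1 g y + ap 1 g' y := by
    funext y
    simp [ap, mul_add]
  rw [Tx, Tx, Tx, e, TP_add_g (tst_ap 1 hg) (tst_ap 1 hg') hφ, TP_add_g hg hg' (tst_tm hφ)]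
  abel

theorem Tx_add_p (hg : Tst g) (hφ : Tst φ) (hφ' : Tst φ') (h : V) :
    Tx c h g (fun t => φ t + φ' t) = Tx c h g φ + Tx c h g φ' := by
  have e : tm (fun t => φ t + φ' t) = fun t => tm φ t + tm φ' t := by
    funext y
    simp [tm, mul_add]
  rw [Tx, Tx, Tx, e, TP_add_p (tst_ap 1 hg) hφ hφ', TP_add_p hg (tst_tm hφ) (tst_tm hφ')]
  abel

theorem Tx_mul_g (a : ℝ) (hg : Tst g) (hφ : Tst φ) (h : V) :
    Tx c h (fun y => a * g y) φ = (a : ℂ) • Tx c h g φ := by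
  have e : ap 1 (fun y => a * g y) = fun y => a * ap 1 g y := by
    funext y
    simp [ap, mul_left_comm]
  rw [Tx, Tx, e, TP_mul_g a (tst_ap 1 hg) hφ, TP_mul_g a hg (tst_tm hφ), smul_sub]

theorem Tx_mul_p (a : ℝ) (hg : Tst g) (hφ : Tst φ) (h : V) :
    Tx c h g (fun t => a * φ t) = (a : ℂ) • Tx c h g φ := by
  have e : tm (fun t => a * φ t) = fun t => a * tm φ t := by
    funext y
    simp [tm, mul_left_comm]
  rw [Tx, Tx, e, TP_mul_p a (tst_ap 1 hg) hφ, TP_mul_p a hg (tst_tm hφ), smul_sub]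

theorem Tx_neg_g (hg : Tst g) (hφ : Tst φ) (h : V) : Tx c h (fun y => -g y) φ = -Tx c h g φ := by
  simpa using Tx_mul_g (c := c) (-1) hg hφ h

theorem Tx_neg_p (hg : Tst g) (hφ : Tst φ) (h : V) : Tx c h g (fun t => -φ t) = -Tx c h g φ := by
  simpa using Tx_mul_p (c := c) (-1) hg hφ h

theorem Tx_sub_g (hg : Tst g) (hg' : Tst g') (hφ : Tst φ) (h : V) :
    Tx c h (fun y => g y - g' y) φ = Tx c h g φ - Tx c h g' φ := by
  simp only [sub_eq_add_neg]
  rw [Tx_add_g hg (cs_neg hg') hφ, Tx_neg_g hg' hφ]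

theorem Tx_sub_p (hg : Tst g) (hφ : Tst φ) (hφ' : Tst φ') (h : V) :
    Tx c h g (fun t => φ t - φ' t) = Tx c h g φ - Tx c h g φ' := by
  simp only [sub_eq_add_neg]
  rw [Tx_add_p hg hφ (cs_neg hφ'), Tx_neg_p hg hφ']

theorem Tx_neg_l (hg : Tst g) (hφ : Tst φ) (h : V) : Tx c (-h) g φ = -Tx c h g φ := by
  rw [Tx, Tx, TP, TP, Tv_neg_l (test_pr (tst_ap 1 hg) hφ), Tv_neg_l (test_pr hg (tst_tm hφ))]
  simp only [TP]
  abel

theorem Tx_smul_l (t : ℝ) (hg : Tst g) (hφ : Tst φ) (h : V) :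
    Tx c (t • h) g φ = (t : ℂ) • Tx c h g φ := by
  rw [Tx, Tx, TP, TP, Tv_smul_l (test_pr (tst_ap 1 hg) hφ), Tv_smul_l (test_pr hg (tst_tm hφ)),
    smul_sub]
  rfl

/-! ## covariance -/

section grp

variable (G : GRP c)
include G

theorem perp_Tv (h k : V) (hf : IsTest f) : inner ℂ c.Om (c.Tv (hk h k f)) = 0 := by
  rw [Tv_hk c _ _ hf]
  simp only [inner_sum, inner_smul_right, Base.Om, om, Completion.inner_coe, G.perp _ _ _ hf,
    mul_zero, Finset.sum_const_zero]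

/-- weak nullity along `sc(L, 1)` -/
theorem wn (hb : BAS c.toBase) {η : Completion D} (h : inner ℂ c.Om η = 0)
    (w : Completion D) : Tendsto (fun L : ℝ => inner ℂ (Usc c.Q L 1 η) w) atTop (𝓝 0) := by
  have := hb.wn ℝ atTop (fun L => max L 1) (fun _ => 1) (fun _ => 0) (fun _ => η) η w
    (fun L => ⟨lt_max_of_lt_right one_pos, one_pos⟩)
    (Or.inl (tendsto_atTop_mono (fun L => le_max_left L 1) tendsto_id)) tendsto_const_nhds h
  refine this.congr' ?_
  filter_upwards [eventually_ge_atTop (1 : ℝ)] with L hL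
  rw [G.ut0, max_eq_left hL]
  rfl

theorem pol_T (h k : V) (hf : IsTest f) : IsPol c.n0 fun x => (c.sh x).Tv (hk h k f) :=
  G.polv _ (test_hk h k hf)

theorem pol_TP (hg : Tst g) (hφ : Tst φ) (h k : V) :
    IsPol c.n0 fun x => TP (c.sh x) h k g φ := pol_T G h k (test_pr hg hφ)

theorem pol_Tx (hg : Tst g) (hφ : Tst φ) (h : V) : IsPol c.n0 fun x => Tx (c.sh x) h g φ :=
  (pol_TP G (tst_ap 1 hg) hφ h va).sub (pol_TP G hg (tst_tm hφ) h vb)

theorem perp_TP (hg : Tst g) (hφ : Tst φ) (h k : V) : inner ℂ c.Om (TP c h k g φ) = 0 :=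
  perp_Tv G h k (test_pr hg hφ)

theorem perp_Tx (hg : Tst g) (hφ : Tst φ) (h : V) : inner ℂ c.Om (Tx c h g φ) = 0 := by
  rw [Tx, inner_sub_right, perp_TP G (tst_ap 1 hg) hφ, perp_TP G hg (tst_tm hφ), sub_zero]

theorem ug_T {Λ : Ix → V} (hs : 0 < s) (hL : IsLor Λ) (a h k : V) (hf : IsTest f) :
    Ug c.Q s Λ a (c.Tv (hk h k fun z => f (sim s Λ a z))) =
      (c.sh (Real.log s)).Tv (hk (sim 1 Λ 0 h) (sim 1 Λ 0 k) f) := by
  rw [Ctx.Tv, G.coe _ _ _ _ hs hL, G.ten _ _ _ _ _ _ _ hs hL hf, c.Q.U_vac _ _ _ hs hL]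
  rfl

theorem ug_T1 {Λ : Ix → V} (hL : IsLor Λ) (a h k : V) (hf : IsTest f) :
    Ug c.Q 1 Λ a (c.Tv (hk h k fun z => f (sim 1 Λ a z))) =
      c.Tv (hk (sim 1 Λ 0 h) (sim 1 Λ 0 k) f) := by
  rw [ug_T G one_pos hL a h k hf, c.sh_log_one]

theorem ut_T (y h k : V) (hf : IsTest f) :
    Ut c.Q y (c.Tv (hk h k fun z => f (z + y))) = c.Tv (hk h k f) := by
  have := ug_T1 G H496.isLor_one y h k hf
  simp only [sim_ut, add_zero] at this
  exact this

theorem ut_T' (y h k : V) (hf : IsTest f) :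
    Ut c.Q y (c.Tv (hk h k f)) = c.Tv (hk h k fun z => f (z - y)) := by
  have := ut_T G y h k (test_tsl hf (-y))
  simpa only [add_neg_cancel_right, ← sub_eq_add_neg, add_sub_cancel_right] using this

theorem ga_T (w : R2) (h k : V) (hf : IsTest f) :
    Ga c.Q w (c.Tv (hk h k fun z => f (gap w z))) = c.Tv (hk (gap w h) (gap w k) f) := by
  have := ug_T1 G (G.lga w).1 0 h k hf
  simp only [(G.lga w).2] at this
  exact this

theorem usc_T (hr : 0 < r) (hs : 0 < s) (h k : V) (hf : IsTest f) :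
    ((r * s : ℝ) : ℂ) • Usc c.Q r s (c.Tv (hk h k fun z => f (scp r s z))) =
      (c.sh (Real.log (r * s) / 2)).Tv (hk (scp r s h) (scp r s k) f) := by
  obtain ⟨hΛ, e⟩ := G.lsc r s hr hs
  have hq : 0 < Real.sqrt (r * s) := Real.sqrt_pos.2 (by positivity)
  have := ug_T G hq hΛ 0 h k hf
  simp only [e, Real.log_sqrt (mul_pos hr hs).le] at this
  rw [← e h, ← e k, sim_smul h, sim_smul k, Tv_smul_l hf, Tv_smul_r hf, smul_smul, ← this,
    ← Complex.ofReal_mul, Real.mul_self_sqrt (by positivity)]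
  rfl

theorem usc_TP (hL : 0 < L) (hg : Tst g) (hφ : Tst φ) (h k : V) :
    (L : ℂ) • Usc c.Q L 1 (TP c h k g φ) =
      TP (c.sh (Real.log L / 2)) (scp L 1 h) (scp L 1 k) (kL g L) φ := by
  have := usc_T G hL one_pos h k (test_pr (tst_kL hg hL) hφ)
  rw [mul_one] at this
  rw [TP, TP, ← this]
  congr 4
  funext z
  rw [pr_kL hL, scp_scp _ (inv_pos.2 hL).le zero_le_one, inv_mul_cancel₀ hL.ne', mul_one, scp_one]

theorem usc_aa (hL : 0 < L) (hg : Tst g) (hφ : Tst φ) : Usc c.Q L 1 (TP c va va g φ) =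
    (L : ℂ) • TP (c.sh (Real.log L / 2)) va va (kL g L) φ := by
  have := usc_TP G hL hg hφ va va
  have q := test_pr (tst_kL hg hL) hφ
  rw [scp_va, TP, TP, Tv_smul_l q, Tv_smul_r q] at this
  exact smul_right_injective _ (Complex.ofReal_ne_zero.2 hL.ne') this

theorem usc_Tx (hL : 0 < L) (hg : Tst g) (hφ : Tst φ) (h : V) :
    (L : ℂ) • Usc c.Q L 1 (Tx c h g φ) = Tx (c.sh (Real.log L / 2)) (scp L 1 h) (kL g L) φ := by
  have e : ap 1 (kL g L) = fun y => L * kL (ap 1 g) L y := by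
    funext y
    simp only [ap, kL, pow_one]
    field_simp
  rw [Tx, Tx, map_sub, smul_sub, usc_TP G hL (tst_ap 1 hg) hφ, usc_TP G hL hg (tst_tm hφ), scp_va,
    scp_vb, one_smul, e, TP_mul_g L (tst_kL (tst_ap 1 hg) hL) hφ, TP,
    Tv_smul_r (test_pr (tst_kL (tst_ap 1 hg) hL) hφ)]
  rfl

theorem usc_Tx_a (hL : 0 < L) (hg : Tst g) (hφ : Tst φ) :
    Usc c.Q L 1 (Tx c va g φ) = Tx (c.sh (Real.log L / 2)) va (kL g L) φ := by
  have := usc_Tx G hL hg hφ va
  rw [scp_va, Tx_smul_l L (tst_kL hg hL) hφ] at this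
  exact smul_right_injective _ (Complex.ofReal_ne_zero.2 hL.ne') this

theorem usc_Tx_b (hL : 0 < L) (hg : Tst g) (hφ : Tst φ) :
    Usc c.Q L 1 (Tx c vb g φ) =
      Tx (c.sh (Real.log L / 2)) vb (fun y => L⁻¹ * kL g L y) φ := by
  have := usc_Tx G hL hg hφ vb
  rw [scp_vb, one_smul] at this
  rw [Tx_mul_g _ (tst_kL hg hL) hφ, ← this, smul_smul, ← Complex.ofReal_mul,
    inv_mul_cancel₀ hL.ne', Complex.ofReal_one, one_smul]

/-- the face is the image of a fixed face -/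
theorem usc_face (hR : 0 < R) (hL : 0 < L) (hφ : Tst φ) :
    Tx (c.sh (Real.log L / 2)) vb (face R L) φ =
      Usc c.Q L 1 (Tx c vb (k3 (deriv kk) (kp R)) φ) :=
  (usc_Tx_b G hL (tst_face0 hR) hφ).symm

/-- conservation -/
theorem cons_T (h : V) (hf : IsTest f) : c.Tv (hk va h (dv vb f)) + c.Tv (hk vb h (dv va f)) =
    ∑ i, c.Tv (hk (ex i) h (dv (ex i) f)) := by
  have := congrArg (fun x : D => (x : Completion D)) (sub_eq_zero.1 (G.cons h f c.Q.vac hf))
  simpa only [Completion.coe_add, Fin.sum_univ_two, Ctx.Tv] using this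

theorem cons_TP (h : V) (hg : Tst g) (hφ : Tst φ) :
    TP c va h g (deriv φ) + TP c vb h (da g) φ = ∑ i, TP c (ex i) h (di i g) φ := by
  have := cons_T G h (test_pr hg hφ)
  simp only [dv_pr_a (tst_diff hg) (tst_diff hφ), dv_pr_b (tst_diff hg) (tst_diff hφ),
    dv_pr_ex (tst_diff hg) (tst_diff hφ)] at this
  exact this

/-- conservation of the current of the boost -/
theorem cons (hg : Tst g) (hφ : Tst φ) :
    Tx c va g (deriv φ) + Tx c vb (da g) φ = ∑ i, Tx c (ex i) (di i g) φ := by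
  have h1 := cons_TP G va (tst_ap 1 hg) hφ
  have h2 := cons_TP G vb hg (tst_tm hφ)
  have e : deriv (tm φ) = fun t => φ t + tm (deriv φ) t := by
    funext t
    have := ((hasDerivAt_id t).mul (tst_diff hφ t).hasDerivAt).deriv
    rw [show tm φ = id * φ from rfl, this]
    simp [tm]
  rw [da_ap (tst_diff hg), TP_add_g hg (tst_ap 1 (tst_da hg)) hφ] at h1
  rw [e, TP_add_p hg hφ (tst_tm (cs_deriv hφ)), TP_symm hg hφ] at h2
  simp only [di_ap _ (tst_diff hg)] at h1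
  simp only [Tx, Finset.sum_sub_distrib, ← h1, ← h2]
  abel

theorem usc_pb (hL : 0 < L) (u : ℝ) : Usc c.Q L 1 * Pb c.Q u = Pb c.Q u * Usc c.Q L 1 := by
  rw [Pb, G.sc_ut _ _ _ hL one_pos]
  congr 2
  exact null_ext (by simp) (by simp) (by simp)

theorem usc_K (hL : 0 < L) (hv : Dm c.SK v) :
    Dm c.SK (Usc c.Q L 1 v) ∧ gen c.SK (Usc c.Q L 1 v) = Usc c.Q L 1 (gen c.SK v) :=
  hv.comm fun t => by rw [G.sc_S _ _ _ hL one_pos, div_one]

theorem usc_norm (r s : ℝ) (v : Completion D) : ‖Usc c.Q r s v‖ = ‖v‖ := G.ug_norm _ _ _ v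

theorem pb_pb (s t : ℝ) (v : Completion D) : Pb c.Q s (Pb c.Q t v) = Pb c.Q (s + t) v := by
  rw [G.ugPb.add']
  rfl

theorem pb_om (u : ℝ) : Pb c.Q u c.Om = c.Om := G.vac _ _ _

theorem bo_om (u : ℝ) : Bo c.Q u c.Om = c.Om := G.vac _ _ _

theorem Sm.star (hX : Sm c X) : Sm c (star X) := by
  have := (ContinuousLinearMap.contDiff (n := ∞) (starL' ℝ :
    (Completion D →L[ℂ] Completion D) ≃L[ℝ] _).toContinuousLinearMap).comp hX
  have e : (fun q : ℝ × ℝ => Bo c.Q q.1 * Pb c.Q q.2 * Star.star X * Pb c.Q (-q.2) * Bo c.Q (-q.1)) =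
      ⇑(starL' ℝ : (Completion D →L[ℂ] Completion D) ≃L[ℝ] _).toContinuousLinearMap ∘
        fun q : ℝ × ℝ => Bo c.Q q.1 * Pb c.Q q.2 * X * Pb c.Q (-q.2) * Bo c.Q (-q.1) := by
    funext q
    simp [star_mul, G.ugPb.star_eq, G.ugB.star_eq, mul_assoc]
  unfold Sm
  rw [e]
  exact this

/-! ## averages along `b` -/

theorem int_Rb (hρ : Tst ρ) (v : Completion D) : Integrable fun u => (ρ u : ℂ) • Pb c.Q u v :=
  G.ugPb.integrable_smul (cs_int (dc_cx hρ)) v

theorem Rb_add (hρ : Tst ρ) (v w : Completion D) : Rb c ρ (v + w) = Rb c ρ v + Rb c ρ w := by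
  simp only [Rb, map_add, smul_add]
  exact integral_add (int_Rb G hρ v) (int_Rb G hρ w)

omit G in
theorem Rb_smul (a : ℂ) (v : Completion D) : Rb c ρ (a • v) = a • Rb c ρ v := by
  simp only [Rb, map_smul, smul_comm _ a]
  exact integral_smul _ _

omit G in
theorem Rb_neg (v : Completion D) : Rb c ρ (-v) = -Rb c ρ v := by
  simpa using Rb_smul (c := c) (ρ := ρ) (-1) v

theorem Rb_sub (hρ : Tst ρ) (v w : Completion D) : Rb c ρ (v - w) = Rb c ρ v - Rb c ρ w := by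
  rw [sub_eq_add_neg, Rb_add G hρ, Rb_neg, ← sub_eq_add_neg]

omit G in
theorem Rb_zero : Rb c.toBase ρ 0 = 0 := by simp [Rb]

theorem Rb_sum (hρ : Tst ρ) {ι : Type*} (S : Finset ι) (F : ι → Completion D) :
    Rb c ρ (∑ i ∈ S, F i) = ∑ i ∈ S, Rb c ρ (F i) := by
  simp only [Rb, map_sum, Finset.smul_sum]
  exact integral_finsetSum _ fun i _ => int_Rb G hρ (F i)

theorem Rb_norm (ρ : ℝ → ℝ) (v : Completion D) : ‖Rb c ρ v‖ ≤ (∫ u, |ρ u|) * ‖v‖ := by
  refine (norm_integral_le_integral_norm _).trans (le_of_eq ?_)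
  simp only [norm_smul, G.ugPb.nrm, Complex.norm_real, Real.norm_eq_abs]
  exact integral_mul_const _ _

theorem Rb_comm (hρ : Tst ρ) {A : Completion D →L[ℂ] Completion D}
    (hA : ∀ u, A * Pb c.Q u = Pb c.Q u * A) (v : Completion D) :
    Rb c ρ (A v) = A (Rb c ρ v) := by
  rw [Rb, Rb, ← A.integral_comp_comm (int_Rb G hρ v)]
  congr 1
  funext u
  rw [map_smul, ← ContinuousLinearMap.mul_apply, ← hA u, ContinuousLinearMap.mul_apply]

theorem Rb_usc (hρ : Tst ρ) (hL : 0 < L) (v : Completion D) :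
    Rb c ρ (Usc c.Q L 1 v) = Usc c.Q L 1 (Rb c ρ v) := Rb_comm G hρ (usc_pb G hL) v

theorem inner_Rb (hρ : Tst ρ) (v w : Completion D) :
    inner ℂ (Rb c ρ v) w = ∫ u, (ρ u : ℂ) * inner ℂ v (Pb c.Q (-u) w) := by
  rw [← inner_conj_symm, Rb, ← integral_inner (int_Rb G hρ v), ← integral_conj]
  congr 1
  funext u
  rw [inner_smul_right, map_mul, Complex.conj_ofReal, inner_conj_symm, G.ugPb.adj', neg_neg]

theorem perp_Rb (hρ : Tst ρ) (hv : inner ℂ c.Om v = 0) : inner ℂ c.Om (Rb c ρ v) = 0 := by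
  rw [← inner_conj_symm, inner_Rb G hρ]
  simp [pb_om G, inner_eq_zero_symm.1 hv]

omit G in
theorem perp_K (hv : Dm c.SK v) : inner ℂ c.Om (gen c.SK v) = 0 := by
  rw [c.ugK.symm (gn_of_fix c.K_vac) hv.gn, inner_zero_left]

end grp

/-! ## the modular conjugation -/

section jc

variable (j : JC c)
include j

theorem J_T (h k : V) (hf : IsTest f) :
    c.J (c.Tv (hk h k f)) = c.Tv (hk (jr h) (jr k) (bar fun z => f (jr z))) := by
  rw [Tv_hk c h k hf, Tv_hk c _ _ (test_bar (test_conf0 conf_jr hf))]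
  simp only [map_sum, J_smul, j.one _ _ _ hf, smul_smul, jr_apply, Complex.conj_ofReal]
  refine Finset.sum_congr rfl fun m _ => Finset.sum_congr rfl fun n _ => ?_
  congr 1
  push_cast
  ring

theorem J_TP (hg : Tst g) (hφ : Tst φ) (h k : V) :
    c.J (TP c h k g φ) = TP c (jr h) (jr k) (fl g) (ng φ) := by
  rw [TP, J_T j h k (test_pr hg hφ), TP, ← bar_pr (fl g)]
  congr 3
  funext z
  simp [pr, fl, ng, pl]

theorem J_TP_aa (hg : Tst g) (hφ : Tst φ) :
    c.J (TP c va va g φ) = TP c va va (fl g) (ng φ) := by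
  have := test_pr (tst_fl hg) (tst_ng hφ)
  rw [J_TP j hg hφ, jr_va, TP, Tv_neg_l this, Tv_neg_r this, neg_neg, TP]

theorem J_Tx (hg : Tst g) (hφ : Tst φ) (h : V) :
    c.J (Tx c h g φ) = Tx c (jr h) (fl g) (ng φ) := by
  have h1 := tst_ap 1 (tst_fl hg)
  have h2 := tst_tm (tst_ng hφ)
  rw [Tx, map_sub, J_TP j (tst_ap 1 hg) hφ, J_TP j hg (tst_tm hφ), fl_ap, ng_tm,
    TP_mul_g _ h1 (tst_ng hφ), TP_mul_p _ (tst_fl hg) h2, jr_va, jr_vb, TP, TP,
    Tv_neg_r (test_pr h1 (tst_ng hφ)), Tv_neg_r (test_pr (tst_fl hg) h2)]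
  simp [Tx, TP]

theorem J_pb (u : ℝ) (v : Completion D) : c.J (Pb c.Q u v) = Pb c.Q (-u) (c.J v) := by
  rw [Pb, j.ut, Pb]
  congr 2
  exact null_ext (by simp) (by simp) (by simp)

theorem J_K (hv : Dm c.SK v) : Dm c.SK (c.J v) ∧ gen c.SK (c.J v) = c.J (gen c.SK v) :=
  have := hv.gn.anti_neg c.J (W' := c.SK) fun t => j.S t v
  ⟨this.dm, this.gen_eq⟩

theorem jconj_pb (G : GRP c) (u : ℝ) (X : Completion D →L[ℂ] Completion D) :
    jconj c.J (Pb c.Q u * X * Pb c.Q (-u)) = Pb c.Q (-u) * jconj c.J X * Pb c.Q u := by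
  ext v
  simp [J_pb j]

end jc

theorem star_Y (X : Completion D →L[ℂ] Completion D) :
    star (jconj c.J X) c.Om = c.J (star X c.Om) := by
  rw [jconj_star c.J c.J_J, P132.jconj_apply, c.J_Om]

/-! ## the domain of `K` -/

section kd

variable (kd : KD c)
include kd

/-- test functions with compact support below the plane -/
theorem dm_T (hf : Dc f) (hs : tsupport f ⊆ {z | be z < 0}) (h k : V) :
    Dm c.SK (c.Tv (hk h k f)) := by
  rcases (tsupport f).eq_empty_or_nonempty with h0 | h0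
  · have : f = fun _ => 0 := funext fun z => image_eq_zero_of_notMem_tsupport (by simp [h0])
    rw [this, Tv_zero]
    exact dm_zero
  obtain ⟨z1, -, h1⟩ := hf.2.isCompact.exists_isMinOn h0 cont_be.continuousOn
  obtain ⟨z2, m2, h2⟩ := hf.2.isCompact.exists_isMaxOn h0 cont_be.continuousOn
  obtain ⟨m, C, H⟩ := kd.slab (be z1) (be z2) (Or.inl (hs m2))
  have := (H h k (sch f) (by
    rw [Ap.tsupport_sch (dc_sw hf)]
    exact fun z hz => ⟨h1 hz, h2 hz⟩)).1
  rwa [ev_sch (dc_sw hf)] at this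

theorem dm_TP (hg : Tst g) (hφ : Tst φ) (hs : tsupport φ ⊆ Iio 0) (h k : V) :
    Dm c.SK (TP c h k g φ) :=
  dm_T kd (dc_pr hg hφ) (fun _ hz => hs (tsupport_pr g φ hz).2) h k

theorem dm_Tx (hg : Tst g) (hφ : Tst φ) (hs : tsupport φ ⊆ Iio 0) (h : V) :
    Dm c.SK (Tx c h g φ) :=
  (dm_TP kd (tst_ap 1 hg) hφ hs h va).sub
    (dm_TP kd hg (tst_tm hφ) ((tsupport_tm φ).trans hs) h vb)

theorem dm_GG (hχ : Stp d χ) (hR : 0 < R) (hL : 0 < L) (hε : 0 < ε) : Dm c.SK (GG c χ R L ε) :=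
  (dm_Tx kd (tst_slab hχ hR hL) (tst_dlt tst_dps hε.ne') (tsupport_dlt_neg tsupport_dps_neg hε)
    va).neg.sub (dm_Tx kd (tst_face hR hL) (tst_edge hR hε) (tsupport_edge hR hε) vb)

end kd

theorem Qb.nonneg {N : ℝ} (h : Qb c v N) : 0 ≤ N := (norm_nonneg _).trans h.1

theorem Qb.mono {N N' : ℝ} (h : Qb c v N) (e : N ≤ N') : Qb c v N' :=
  ⟨h.1.trans e, h.2.trans (ENNReal.ofReal_le_ofReal (pow_le_pow_left₀ h.nonneg e 2))⟩
/-- the average along `b` is the convolution of the profiles -/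
theorem Rb_TP (G : GRP c) (hρ : Tst ρ) (hg : Tst g) (hφ : Tst φ) (h k : V) :
    Rb c ρ (TP c h k g φ) =
      TL c h k (sch fun z => (g (pl z) * ∫ u, ρ u * φ (be z - u) : ℝ)) := by
  have hD : Dc fun q : ℝ × V => (ρ q.1 : ℂ) * pr g φ (q.2 - q.1 • vb) := by
    have := cs_cle ((ContinuousLinearEquiv.refl ℝ ℝ).skewProd (ContinuousLinearEquiv.refl ℝ V)
      (-(ContinuousLinearMap.id ℝ ℝ).smulRight vb)) (cs_prod (dc_cx hρ) (dc_pr hg hφ))
    rw [dc_iff]
    simpa [ContinuousLinearEquiv.skewProd_apply, sub_eq_add_neg] using this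
  have e := (Api4.par volume hD (TL c h k)).2.2
  have e1 : (fun z => ∫ u, (ρ u : ℂ) * pr g φ (z - u • vb)) =
      fun z => ((g (pl z) * ∫ u, ρ u * φ (be z - u) : ℝ) : ℂ) := by
    funext z
    rw [← integral_const_mul, ← integral_complex_ofReal]
    congr 1
    funext u
    rw [pr_sub_vb]
    push_cast
    ring
  simp only [e1] at e
  rw [e, Rb]
  congr 1
  funext u
  have ht : IsTest fun z => pr g φ (z - u • vb) := by
    simpa only [sub_eq_add_neg] using test_tsl (test_pr hg hφ) (-(u • vb))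
  rw [Pb, TP, ut_T' G _ h k (test_pr hg hφ), Tv_sch ht, Ap.sch_cmul _ ht, map_smul]

/-- the two profiles can be swapped -/
theorem Rb_swap (G : GRP c) (hρ : Tst ρ) (hg : Tst g) (hφ : Tst φ) (h k : V) :
    Rb c ρ (TP c h k g φ) = Rb c φ (TP c h k g ρ) := by
  rw [Rb_TP G hρ hg hφ, Rb_TP G hφ hg hρ]
  congr 2
  funext z
  rw [← integral_sub_left_eq_self (fun u => ρ u * φ (be z - u)) volume (be z)]
  simp only [sub_sub_cancel, mul_comm]

theorem Rb_dlt {s : ℝ} (hs : 0 < s) (φ : ℝ → ℝ) (v : Completion D) :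
    Rb c (dlt s φ) v = ∫ t, (φ t : ℂ) • Pb c.Q (s * t) v := by
  have := Measure.integral_comp_mul_left (fun u => ((φ (u / s) : ℝ) : ℂ) • Pb c.Q u v) s
  simp only [mul_div_cancel_left₀ _ hs.ne'] at this
  rw [this, abs_of_pos (inv_pos.2 hs), ← integral_smul, Rb]
  congr 1
  funext u
  rw [← Complex.coe_smul, smul_smul, ← Complex.ofReal_mul, dlt, div_eq_inv_mul]

theorem Rb_dlt_lim (G : GRP c) (hφ : Tst φ) (v : Completion D) :
    Tendsto (fun s => Rb c (dlt s φ) v) (𝓝[>] 0) (𝓝 (((∫ t, φ t : ℝ) : ℂ) • v)) := by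
  have e : ((∫ t, φ t : ℝ) : ℂ) • v = ∫ t, (φ t : ℂ) • Pb c.Q (0 * t) v := by
    simp only [zero_mul, G.ugPb.zero', ContinuousLinearMap.one_apply, integral_smul_const,
      integral_complex_ofReal]
  rw [e]
  refine Tendsto.congr' (eventually_mem_nhdsWithin.mono fun s hs => (Rb_dlt hs φ v).symm)
    (tendsto_nhdsWithin_of_tendsto_nhds ?_)
  refine (continuous_of_dominated (bound := fun t => ‖(φ t : ℂ)‖ * ‖v‖) (fun s => ?_)
    (fun s => Eventually.of_forall fun t => ?_) ((cs_int (dc_cx hφ)).norm.mul_const _)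
    (Eventually.of_forall fun t => ?_)).tendsto 0
  · exact ((dc_cx hφ).1.continuous.smul (G.ugPb.cont' (continuous_const.mul continuous_id)
      continuous_const)).aestronglyMeasurable
  · rw [norm_smul, G.ugPb.nrm]
  · exact (G.ugPb.cont' (continuous_id.mul continuous_const) continuous_const).const_smul
      (φ t : ℂ)

theorem l1_le (G : GRP c) (hρ : Tst ρ) (hg : Tst g) (hφ : Tst φ) (h k : V) :
    ‖Rb c ρ (TP c h k g φ)‖ ≤ ‖TP c h k g ρ‖ * ∫ t, |φ t| := by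
  rw [Rb_swap G hρ hg hφ, mul_comm]
  exact Rb_norm G φ _

/-- thin slabs, with a rate -/
theorem l1_rate (G : GRP c) (N : GEN c) (hρ : Tst ρ) (hg : Tst g) (hφ : Tst φ) (h k : V) :
    ∃ C, 0 ≤ C ∧ ∀ s, 0 < s → ‖Rb c ρ (TP c h k g (dlt s φ)) -
      ((∫ t, φ t : ℝ) : ℂ) • TP c h k g ρ‖ ≤ C * s := by
  have hb := N.ut vb h k _ (test_pr hg hρ)
  set b := I • c.Tv (hk h k (dv vb (pr g ρ)))
  refine ⟨‖b‖ * ∫ t, |tm φ t|, mul_nonneg (norm_nonneg _) (integral_nonneg fun _ => abs_nonneg _),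
    fun s hs => ?_⟩
  set v := TP c h k g ρ
  have i1 : Integrable fun t => (φ t : ℂ) • Pb c.Q (s * t) v :=
    (G.ugPb.scale s).integrable_smul (cs_int (dc_cx hφ)) v
  have i2 : Integrable fun t => (φ t : ℂ) • v := (cs_int (dc_cx hφ)).smul_const v
  rw [Rb_swap G hρ hg (tst_dlt hφ hs.ne'), Rb_dlt hs, ← integral_complex_ofReal,
    ← integral_smul_const, ← integral_sub i1 i2, ← integral_const_mul, ← integral_mul_const]
  refine norm_integral_le_of_norm_le (((cs_int (tst_tm hφ)).abs.const_mul _).mul_const _)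
    (.of_forall fun t => ?_)
  rw [← smul_sub, norm_smul, Complex.norm_real, Real.norm_eq_abs]
  refine (mul_le_mul_of_nonneg_left (G.ugPb.lip hb (s * t)) (abs_nonneg _)).trans_eq ?_
  rw [tm, abs_mul, abs_mul, abs_of_pos hs]
  ring

end

end Vale.Agent.P352L.BL
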