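import Vale.Agent.P352L.BL1
import Vale.Agent.P352L.R.Br
import Vale.Agent.P352X.R.BAS
import Vale.Agent.P352X.R.BB.KtB
import Vale.Agent.P352X.R.BB.KS

/-!
# P352L, row BB: thin fluxes, small momenta, `K` on thin slabs (helper68)
-/

set_option linter.all false

open MeasureTheory Filter Topology Set
open scoped SchwartzMap ComplexConjugate ENNReal ContDiff

namespace Vale.Agent.P352L.BL

open Vale.Agent.P352 Vale.Agent.P352.GF Vale.Agent.P352.BW Vale.Agent.P352.H246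
open Vale.Agent.P352.H496 Vale.Agent.P352.H755 Vale.Agent.P352.H15
open Vale.Agent.P352X Vale.Agent.P352X.BX Vale.Agent.P352X.Ap
open Vale.Agent.P132 (ModData jconj)
open UniformSpace (Completion)
open Complex (I)

noncomputable section

variable {D : Type*} [NormedAddCommGroup D] [InnerProductSpace ℂ D] {c : Ctx D}
  {g : P3 → ℝ} {φ ρ : ℝ → ℝ}

/-! ## thin fluxes -/

section flux

open Flux

/-- weighted bounds for the boost field -/
theorem tx_bd (h : Two c) (hg : Tst g) (hφ : Tst φ) : ∃ K : ℝ, 0 ≤ K ∧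
    ∀ (x : ℝ) (h : V) (s M B A : ℝ) (m : V → ℝ) (v : Completion D), 0 < s → 0 ≤ M → 0 ≤ B →
      Wk x s A → Measurable m →
      (∀ p, 0 < m p) → (∀ p ∈ Fc, m p * nn p h * s * (2 * be p ^ 2 + 2 * (s * al p) ^ 2) ≤
        M ^ 2 * ((1 + be p ^ 2) ^ 2 * (1 + (s * al p) ^ 2) ^ 2) ∧ 0 ≤ nn p h) →
      ∫⁻ p, ENNReal.ofReal (m p)⁻¹ ∂c.nu v ≤ ENNReal.ofReal (B ^ 2) →
      ‖inner ℂ (Tx (c.sh x) h g (dil s φ)) v‖ ≤ K * A * M * B := by
  obtain ⟨C, C0, hC⟩ := h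
  obtain ⟨K1, a1, b1⟩ := thin (C := c.bt.toCalc) C0 (Ap.dc_cx (Ap.tst_ap 1 hg)) (Ap.dc_cx hφ)
  obtain ⟨K2, a2, b2⟩ := thin (C := c.bt.toCalc) C0 (Ap.dc_cx hg) (Ap.dc_cx (BX.tst_tm hφ))
  refine ⟨K1 + K2, by positivity, fun x h s M B A m v hs M0 B0 hA hm m0 hb hv => ?_⟩
  have A0 := hA.1
  have td := Ap.tst_dil hφ hs.ne'
  have k1 := pair c.bt.toCalc hm m0 (by positivity) B0 (b1 x h va (cx (dil s φ)) s 1 M A m _ hs M0
    (Ap.dc_cx td) (fun t => by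
      rw [ft1_dil hs, norm_mul, Complex.norm_real, Real.norm_of_nonneg hs.le, one_mul]; rfl) hm
    (fun p => (m0 p).le) hA (fun p hp => le_trans (by
      have := mul_nonneg (mul_nonneg (mul_nonneg (m0 p).le (hb p hp).2) hs.le) (sq_nonneg (s * al p))
      rw [nn_va]
      nlinarith) (hb p hp).1)
    (hC x h va _ (test_pf (Ap.dc_cx (Ap.tst_ap 1 hg)) (Ap.dc_cx td)))) hv
  have k2 := pair c.bt.toCalc hm m0 (by positivity) B0 (b2 x h vb (cx (tm (dil s φ))) s s M A m _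
    hs M0 (Ap.dc_cx (BX.tst_tm td)) (ft1_tm hs φ) hm (fun p => (m0 p).le) hA (fun p hp => le_trans (by
      have := mul_nonneg (mul_nonneg (mul_nonneg (m0 p).le (hb p hp).2) hs.le) (sq_nonneg (be p))
      rw [nn_vb]
      nlinarith) (hb p hp).1)
    (hC x h vb _ (test_pf (Ap.dc_cx hg) (Ap.dc_cx (BX.tst_tm td))))) hv
  rw [Tx, TP, TP, inner_sub_left, P352X.pr_eq, P352X.pr_eq]
  exact (norm_sub_le _ _).trans ((add_le_add k1 k2).trans_eq (by ring))

lemma qb_int (h : BAS c.toBase) {v : Completion D} {N : ℝ} (hv : Qb c v N) :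
    ∫⁻ p, ENNReal.ofReal (1 + |al p|) ∂c.nu v ≤ ENNReal.ofReal ((2 * N) ^ 2) := by
  have N0 := (norm_nonneg _).trans hv.1
  calc _ = ∫⁻ p, 1 + ENNReal.ofReal (al p) ∂c.nu v := by
        refine lintegral_congr_ae ((h.cone v).mono fun p hp => ?_)
        have := ((cone_iff p).1 hp).1
        simp only
        rw [abs_of_nonneg this, ENNReal.ofReal_add zero_le_one this, ENNReal.ofReal_one]
    _ = ENNReal.ofReal (‖v‖ ^ 2) + c.qb v := by
        rw [lintegral_add_left measurable_const, lintegral_one, ← c.bt.nu_univ, ofReal_measureReal]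
        rfl
    _ ≤ ENNReal.ofReal (N ^ 2) + ENNReal.ofReal (N ^ 2) :=
        add_le_add (ENNReal.ofReal_le_ofReal (pow_le_pow_left₀ (norm_nonneg _) hv.1 2)) hv.2
    _ ≤ _ := by
        rw [← ENNReal.ofReal_add (by positivity) (by positivity)]
        exact ENNReal.ofReal_le_ofReal (by nlinarith)

theorem face_bd (h : Two c) (hg : Tst g) (hφ : Tst φ) : ∃ K : ℝ, 0 ≤ K ∧
    ∀ (s B : ℝ) (v : Completion D), 0 < s → 0 ≤ B →
      ∫⁻ p, ENNReal.ofReal (ms s p)⁻¹ ∂c.nu v ≤ ENNReal.ofReal (B ^ 2) →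
      ‖inner ℂ (Tx (c.sh (Real.log s / 2)) vb g (dil s φ)) v‖ ≤ K * B := by
  obtain ⟨K, a, b⟩ := tx_bd h hg hφ
  refine ⟨K * 1 * 4, by positivity, fun s B v hs B0 hv => b _ vb s 4 B 1 _ v hs (by norm_num) B0
    (wk_run hs) (ms_meas s) (ms_pos hs) (fun p hp => ⟨?_, by rw [nn_vb]; positivity⟩) hv⟩
  have t0 := ((mem_Fc' p).1 hp).1
  refine le_trans (mul_le_mul_of_nonneg_right ?_ (by positivity)) (poly _ _ (mul_pos hs t0).le)
  have h1 : (1 + al p)⁻¹ * al p ≤ 1 := by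
    rw [inv_mul_le_iff₀ (by positivity)]
    linarith
  have h2 : 0 ≤ (1 + al p)⁻¹ * al p := by positivity
  have h3 := mul_le_mul_of_nonneg_left h1 (mul_pos hs t0).le
  have : ms s p * nn p vb * s =
      2 * (s * al p * ((1 + al p)⁻¹ * al p) + ((1 + al p)⁻¹ * al p) ^ 2) := by
    rw [ms, nn_vb, abs_of_pos t0]
    field_simp
  nlinarith

/-- transverse fluxes, fixed member -/
theorem fl_tr (t : Tm c) (i : Fin 2) (hg : Tst g) (hφ : Tst φ) : ∃ C : ℝ, ∀ s ∈ Ioc (0 : ℝ) 1,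
    ∀ v N, Qb c v N → ‖inner ℂ (Tx c (ex i) g (dil s φ)) v‖ ≤ C * √√s * N := by
  obtain ⟨K, a, b⟩ := tx_bd t.two hg hφ
  refine ⟨K * 16, fun s hs v N hv => ?_⟩
  have N0 := hv.nonneg
  have r := rt_fix hs.1 hs.2
  rw [← c.sh_zero]
  refine (b 0 (ex i) s (4 * √s) (2 * N) _ (fun p => (1 + |al p|)⁻¹) v hs.1 (by positivity)
    (by positivity) (wk_fix hs.1 hs.2) (by fun_prop) (fun p => by positivity) (fun p hp => ?_)
    (by simpa only [inv_inv] using qb_int t.bas hv)).trans ((le_of_eq (by ring)).trans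
      (mul_le_mul_of_nonneg_right (mul_le_mul_of_nonneg_left r (by positivity)) N0))
  obtain ⟨t0, m0⟩ := (mem_Fc' p).1 hp
  have a0 := ((mem_Fc p).1 hp).1
  have s0 := hs.1
  have e := mu_eq p
  have q := sq_le_d2 (tx p) i
  refine ⟨?_, by rw [nn_ex]; positivity⟩
  have h1 : (1 + |al p|)⁻¹ * nn p (ex i) ≤ 4 * be p := by
    rw [abs_of_pos t0, inv_mul_le_iff₀ (by positivity), nn_ex]
    nlinarith
  have h2 : 4 * be p * (2 * be p ^ 2 + 2 * (s * al p) ^ 2) ≤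
      4 ^ 2 * ((1 + be p ^ 2) ^ 2 * (1 + (s * al p) ^ 2) ^ 2) := by
    set a := be p
    set u := s * al p
    have h1 : a ≤ 1 + a ^ 2 := by nlinarith [sq_nonneg (a - 1)]
    have h2 : a ^ 2 + u ^ 2 ≤ (1 + a ^ 2) * (1 + u ^ 2) ^ 2 := by
      nlinarith [sq_nonneg a, sq_nonneg u, sq_nonneg (u ^ 2),
        mul_nonneg (sq_nonneg a) (sq_nonneg u), mul_nonneg (sq_nonneg (u ^ 2)) (sq_nonneg a)]
    have h3 := mul_le_mul h1 h2 (by positivity) (by positivity)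
    have : 0 ≤ (1 + a ^ 2) ^ 2 * (1 + u ^ 2) ^ 2 := by positivity
    nlinarith
  rw [mul_pow 4, Real.sq_sqrt s0.le]
  calc _ ≤ 4 * be p * s * (2 * be p ^ 2 + 2 * (s * al p) ^ 2) := by gcongr
    _ = s * (4 * be p * (2 * be p ^ 2 + 2 * (s * al p) ^ 2)) := by ring
    _ ≤ _ := (mul_le_mul_of_nonneg_left h2 s0.le).trans_eq (by ring)

/-- fluxes through the faces, running member -/
theorem fl_bd (t : Tm c) (hg : Tst g) (hφ : Tst φ) : ∃ C : ℝ, ∀ s ∈ Ioc (0 : ℝ) 1, ∀ v N,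
    Qb c v N → ‖inner ℂ (Tx (c.sh (Real.log s / 2)) vb g (dil s φ)) v‖ ≤ C * N := by
  obtain ⟨K, a, b⟩ := face_bd t.two hg hφ
  refine ⟨K * 2, fun s hs v N hv => ?_⟩
  have N0 := (norm_nonneg _).trans hv.1
  exact (b s (2 * N) v hs.1 (by positivity) ((lintegral_mono fun p =>
    ENNReal.ofReal_le_ofReal (ms_le hs.1 p)).trans (qb_int t.bas hv))).trans_eq (by ring)

theorem fl_lim (t : Tm c) (hg : Tst g) (hφ : Tst φ) {v : Completion D} {N : ℝ} (hv : Qb c v N) :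
    Tendsto (fun s => inner ℂ (Tx (c.sh (Real.log s / 2)) vb g (dil s φ)) v) (𝓝[>] 0) (𝓝 0) := by
  obtain ⟨K, a, b⟩ := face_bd t.two hg hφ
  have l : Tendsto (fun s => ∫⁻ p, ENNReal.ofReal (ms s p)⁻¹ ∂c.nu v) (𝓝[>] 0)
      (𝓝 (∫⁻ _, 0 ∂c.nu v)) := by
    refine tendsto_lintegral_filter_of_dominated_convergence
      (fun p => ENNReal.ofReal (1 + |al p|))
      (.of_forall fun s => (ms_meas s).inv.ennreal_ofReal) ?_
      ((qb_int t.bas hv).trans_lt ENNReal.ofReal_lt_top).ne (.of_forall fun p => ?_)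
    · filter_upwards [self_mem_nhdsWithin] with s hs
      exact .of_forall fun p => ENNReal.ofReal_le_ofReal (ms_le hs p)
    · rw [← ENNReal.ofReal_zero]
      refine ENNReal.tendsto_ofReal (squeeze_zero' (g := fun s => s * (1 + |al p|) ^ 2) ?_ ?_ ?_)
      · filter_upwards [self_mem_nhdsWithin] with s hs using (inv_pos.2 (ms_pos hs p)).le
      · filter_upwards [self_mem_nhdsWithin] with s hs using ms_le' hs p
      · exact (Continuous.tendsto' (f := fun s : ℝ => s * (1 + |al p|) ^ 2) (by fun_prop) 0 0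
          (zero_mul _)).mono_left nhdsWithin_le_nhds
  rw [lintegral_zero] at l
  refine NormedAddGroup.tendsto_nhds_zero.2 fun ε hε => ?_
  have d : 0 < ε / (K + 1) := by positivity
  filter_upwards [self_mem_nhdsWithin, l.eventually (ge_mem_nhds
    (ENNReal.ofReal_pos.2 (pow_pos d 2)))] with s hs h
  refine (b s _ v hs d.le h).trans_lt ?_
  rw [← mul_div_assoc, div_lt_iff₀ (by positivity)]
  nlinarith

end flux

/-! ## small light cone momenta -/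

variable (c) in
/-- small light cone momenta -/
def LOW : Prop := ∃ (m : ℕ) (C : ℝ), 0 ≤ C ∧ ∀ h k (f : Sch) (σ : ℝ), 0 < σ →
  ‖c.bt.P {p | al p < σ} (c.Tv (hk h k (ev f)))‖ ≤ C * Real.sqrt σ * ‖h‖ * ‖k‖ * sn m f ∧
  ‖c.bt.P {p | be p < σ} (c.Tv (hk h k (ev f)))‖ ≤ C * Real.sqrt σ * ‖h‖ * ‖k‖ * sn m f

theorem sn_nn {E : Type*} [NormedAddCommGroup E] [NormedSpace ℝ E] (m : ℕ) (f : 𝓢(E, ℂ)) :
    0 ≤ sn m f := apply_nonneg _ _

theorem sn_mo {m m' : ℕ} (h : m ≤ m') (f : Sch) : sn m f ≤ sn m' f := by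
  rw [Api4.sn_eq, Api4.sn_eq]
  exact ST.sn_mono h f

theorem low (t : Two c) : LOW c := by
  obtain ⟨C, C0, hC⟩ := t
  have e : ∀ h k (f : Sch), Tw c.bt.toCalc C 0 h k (ev f) (c.Tv (hk h k (ev f))) := fun h k f => by
    have := hC 0 h k _ ⟨f, rfl⟩
    rwa [c.sh_zero] at this
  obtain ⟨m1, C1, a1, b1⟩ := strip (C := c.bt.toCalc) C0 (.inl rfl)
  obtain ⟨m2, C2, a2, b2⟩ := strip (C := c.bt.toCalc) C0 (.inr rfl)
  refine ⟨max m1 m2, C1 + C2, by positivity, fun h k f σ hσ => ⟨(b1 h k f _ σ hσ (e h k f)).trans ?_,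
    (b2 h k f _ σ hσ (e h k f)).trans ?_⟩⟩
  · have := sn_nn m1 f
    gcongr
    exacts [le_add_of_nonneg_right a2, sn_mo (le_max_left _ _) f]
  · have := sn_nn m2 f
    gcongr
    exacts [le_add_of_nonneg_left a1, sn_mo (le_max_right _ _) f]

/-! ## operators on test functions -/

/-- directional derivatives -/
def dS (h : V) : Sch →L[ℂ] Sch := LineDeriv.lineDerivOpCLM ℂ Sch h

lemma pd_ev (m : Ix) (f : Sch) (x : V) : pd m (ev f) x = fderiv ℝ f x (bas m 1) := by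
  have h1 : HasDerivAt (fun t : ℝ => x + t • bas m 1) (bas m 1) 0 := by
    simpa using ((hasDerivAt_id (0 : ℝ)).smul_const (bas m 1)).const_add x
  have h2 := (f.differentiableAt (x := x)).hasFDerivAt.comp_hasDerivAt_of_eq (0 : ℝ) h1 (by simp)
  rw [← h2.deriv, pd]
  congr 1
  funext t
  show f _ = f _
  congr 1
  funext n
  simp [bas]

lemma ev_dS (h : V) (f : Sch) : ev (dS h f) = dv h (ev f) := by
  funext x
  have e : h = ∑ m, h m • bas m 1 := by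
    funext n
    simp [bas, Finset.sum_apply]
  show fderiv ℝ f x h = _
  conv_lhs => rw [e]
  simp only [map_sum, map_smul, dv, pd_ev, Complex.real_smul]

/-- multiplication by a linear function -/
def mS (l : V →L[ℝ] ℝ) : Sch →L[ℂ] Sch := SchwartzMap.smulLeftCLM ℂ fun z => (l z : ℂ)

lemma mS_apply (l : V →L[ℝ] ℝ) (f : Sch) (z : V) : mS l f z = l z * f z :=
  SchwartzMap.smulLeftCLM_apply_apply (Complex.ofRealCLM ∘L l).hasTemperateGrowth f z

section adm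

variable {H : Type*} [NormedAddCommGroup H] {Φ Ψ : V → V → Sch → H}

/-- bounds that are bilinear in the vectors and of finite order in the test function -/
def Adm (Φ : V → V → Sch → H) : Prop :=
  ∃ (m : ℕ) (C : ℝ), 0 ≤ C ∧ ∀ h k f, ‖Φ h k f‖ ≤ C * ‖h‖ * ‖k‖ * ST.sn V ℂ m f

lemma Adm.of_le {H' : Type*} [NormedAddCommGroup H'] {Ψ : V → V → Sch → H'} (h : Adm Φ)
    (e : ∀ h k f, ‖Ψ h k f‖ ≤ ‖Φ h k f‖) : Adm Ψ :=
  let ⟨m, C, hC, hb⟩ := h
  ⟨m, C, hC, fun h k f => (e h k f).trans (hb h k f)⟩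

lemma Adm.addn {H' : Type*} [NormedAddCommGroup H'] {Ψ : V → V → Sch → H'} (h : Adm Φ)
    (h' : Adm Ψ) : Adm fun a b f => ‖Φ a b f‖ + ‖Ψ a b f‖ := by
  obtain ⟨m, C, hC, hb⟩ := h
  obtain ⟨m', C', hC', hb'⟩ := h'
  refine ⟨max m m', C + C', by positivity, fun a b f => ?_⟩
  have h1 := mul_le_mul_of_nonneg_left (ST.sn_mono (le_max_left m m') f)
    (show 0 ≤ C * ‖a‖ * ‖b‖ by positivity)
  have h2 := mul_le_mul_of_nonneg_left (ST.sn_mono (le_max_right m m') f)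
    (show 0 ≤ C' * ‖a‖ * ‖b‖ by positivity)
  rw [Real.norm_of_nonneg (by positivity)]
  linarith [hb a b f, hb' a b f]

lemma Adm.sub (h : Adm Φ) (h' : Adm Ψ) : Adm fun a b f => Φ a b f - Ψ a b f :=
  (h.addn h').of_le fun _ _ _ => (norm_sub_le _ _).trans (le_abs_self _)

lemma Adm.comp (h : Adm Φ) (L L' : V →L[ℝ] V) (A : Sch →L[ℝ] Sch) :
    Adm fun a b f => Φ (L a) (L' b) (A f) := by
  obtain ⟨m, C, hC, hb⟩ := h
  obtain ⟨C', m', hC', hA⟩ := ST.clm_sn' A m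
  refine ⟨m', C * ‖L‖ * ‖L'‖ * C', by positivity, fun a b f => (hb _ _ _).trans ?_⟩
  calc _ ≤ C * (‖L‖ * ‖a‖) * (‖L'‖ * ‖b‖) * (C' * ST.sn V ℂ m' f) := by
        gcongr
        exacts [L.le_opNorm a, L'.le_opNorm b, hA f]
    _ = _ := by ring

end adm

theorem adm_TL (G : GEN c) : Adm fun h k f => TL c h k f := by
  obtain ⟨m, C, h⟩ := G.bd
  refine ⟨m, |C|, abs_nonneg C, fun a b f => ?_⟩
  beta_reduce
  rw [← Api4.sn_eq, TL_apply]
  have := sn_nn m f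
  refine (h a b f).trans ?_
  gcongr
  exact le_abs_self C

theorem ut_TL (g : GRP c) (a h k : V) (f : Sch) :
    Ut c.Q a (TL c h k f) = TL c h k (ST.tsl a f) := by
  rw [TL_apply, TL_apply, ut_T' g a h k (test_ev f)]
  rfl

lemma tsupport_tsl (a : V) (f : Sch) : tsupport (ST.tsl a f) ⊆ {z | z - a ∈ tsupport f} :=
  closure_minimal (fun _ hz => subset_tsupport _ hz)
    ((isClosed_tsupport f).preimage (continuous_id.sub continuous_const))

/-- the transverse coordinates -/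
def xL (i : Fin 2) : V →L[ℝ] ℝ := ContinuousLinearMap.proj (R := ℝ) (φ := fun _ : Fin 2 => ℝ) i ∘L txL

/-- multiplication by `x_i` -/
def xS (i : Fin 2) : Sch →L[ℂ] Sch := mS (xL i)

lemma xS_apply (i : Fin 2) (f : Sch) (z : V) : xS i f z = (tx z i : ℝ) * f z := mS_apply _ f z

/-- multiplication by `|x|^2` -/
def qS : Sch →L[ℂ] Sch := xS 0 ∘L xS 0 + xS 1 ∘L xS 1

lemma qS_apply (f : Sch) (z : V) : qS f z = (d2 (tx z) (tx z) : ℝ) * f z := by
  show xS 0 (xS 0 f) z + xS 1 (xS 1 f) z = _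
  simp only [xS_apply, d2]
  push_cast
  ring

/-- the vector field of `M_i` -/
def MS (i : Fin 2) : Sch →L[ℂ] Sch := xS i ∘L dS va + mS beL ∘L dS (ex i)

lemma ev_MS (i : Fin 2) (f : Sch) : ev (MS i f) = Mc i (ev f) := by
  funext z
  show xS i (dS va f) z + mS beL (dS (ex i) f) z = _
  rw [xS_apply, mS_apply, Mc, ← ev_dS, ← ev_dS]
  rfl

/-! ## small `p_b` for `K T(f) Ω` -/

section hilbert

variable {H : Type*} [NormedAddCommGroup H] [InnerProductSpace ℂ H] [CompleteSpace H]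
  {W G : ℝ → H →L[ℂ] H} {r ξ ζ a b : H}

/-- `|A K r|^2 = <K^2 r, A* A r>` -/
lemma sq_le (g : UG W) (h1 : Gn W r ξ) (h2 : Gn W ξ ζ) {A : H →L[ℂ] H}
    (h : ∀ t, star A * A * W t = W t * (star A * A)) : ‖A ξ‖ ^ 2 ≤ ‖ζ‖ * ‖star A (A r)‖ := by
  have e := g.symm h2 (h1.comm h)
  rw [ContinuousLinearMap.mul_apply, inner_star, inner_self_eq_norm_sq_to_K] at e
  have := norm_inner_le_norm (𝕜 := ℂ) ζ ((star A * A) r)
  rwa [← e, norm_pow, RCLike.norm_ofReal, abs_norm] at this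

/-- Lipschitz bounds for `K r` under a commuting group -/
lemma lip_le (g : UG W) (g' : UG G) (h : ∀ s t, G s * W t = W t * G s) (h1 : Gn W r ξ)
    (h2 : Gn W ξ ζ) (ha : Gn G r a) (hb : Gn G a b) (s : ℝ) :
    ‖G s ξ - ξ‖ ^ 2 ≤ ‖ζ‖ * (‖b‖ * |s| * |s|) := by
  have c : ∀ s t, (G s - 1) * W t = W t * (G s - 1) := fun s t => by
    rw [sub_mul, mul_sub, h, one_mul, mul_one]
  have e : star (G s - 1) = G (-s) - 1 := by rw [star_sub, g'.star_eq, star_one]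
  refine (sq_le g h1 h2 (A := G s - 1) fun t => ?_).trans
    (mul_le_mul_of_nonneg_left ?_ (norm_nonneg _))
  · rw [e, mul_assoc, c, ← mul_assoc, c, mul_assoc]
  · have := g'.lip ((g'.shift ha s).sub ha) (-s)
    rw [abs_neg] at this
    rw [e]
    exact this.trans (mul_le_mul_of_nonneg_right (g'.lip hb s) (abs_nonneg s))

end hilbert

/-- `M_i` on vectors -/
def muL (i : Fin 2) : V →L[ℝ] V :=
  (ContinuousLinearMap.proj i ∘L txL).smulRight va + beL.smulRight (ex i)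

lemma muL_apply (i : Fin 2) (h : V) : muL i h = tx h i • va + be h • ex i := rfl

/-- the action of `M_i` -/
def nm {H : Type*} [NormedAddCommGroup H] [NormedSpace ℂ H] (i : Fin 2) (Φ : V → V → Sch → H)
    (h k : V) (f : Sch) : H :=
  I • (Φ h k (MS i f) - Φ (muL i h) k f - Φ h (muL i k) f)

lemma adm_nm {H : Type*} [NormedAddCommGroup H] [NormedSpace ℂ H] {Φ : V → V → Sch → H}
    (i : Fin 2) (h : Adm Φ) : Adm (nm i Φ) :=
  (((h.comp 1 1 ((MS i).restrictScalars ℝ)).sub (h.comp (muL i) 1 1)).sub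
    (h.comp 1 (muL i) 1)).of_le fun _ _ _ => by
      rw [nm, norm_smul, Complex.norm_I, one_mul]
      exact le_rfl

lemma gn_tau (G : GEN c) (i : Fin 2) (h k : V) (f : Sch) :
    Gn (Mi c.Q i) (TL c h k f) (nm i (fun h k f => TL c h k f) h k f) := by
  simp only [nm, TL_apply, ev_MS, muL_apply]
  exact G.mi i h k _ ⟨f, rfl⟩

lemma gn_nm (i : Fin 2) {Φ Ψ : V → V → Sch → Completion D}
    (hΦ : ∀ h k f, Gn (Mi c.Q i) (Φ h k f) (Ψ h k f)) (h k : V) (f : Sch) :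
    Gn (Mi c.Q i) (nm i Φ h k f) (nm i Ψ h k f) :=
  (((hΦ _ _ _).sub (hΦ _ _ _)).sub (hΦ _ _ _)).smul I

/-- `M_i` and `M_i ^ 2` on `T(h, k)(f) Ω` -/
lemma two_M (G : GEN c) (i : Fin 2) : ∃ (m : ℕ) (C : ℝ), 0 ≤ C ∧ ∀ h k (f : Sch), ∃ a b,
    Gn (Mi c.Q i) (c.Tv (hk h k (ev f))) a ∧ Gn (Mi c.Q i) a b ∧
      ‖a‖ ≤ C * ‖h‖ * ‖k‖ * sn m f ∧ ‖b‖ ≤ C * ‖h‖ * ‖k‖ * sn m f := by
  obtain ⟨m, C, h0, hC⟩ := (adm_nm i (adm_TL G)).addn (adm_nm i (adm_nm i (adm_TL G)))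
  refine ⟨m, C, h0, fun h k f => ⟨_, _, (gn_tau G i h k f).cast (TL_apply h k f).symm rfl,
    gn_nm i (gn_tau G i) h k f, ?_⟩⟩
  have := (le_abs_self _).trans (hC h k f)
  rw [Api4.sn_eq]
  exact ⟨(le_add_of_nonneg_right (norm_nonneg _)).trans this,
    (le_add_of_nonneg_left (norm_nonneg _)).trans this⟩

/-- the functions of `P` commute with `K` -/
lemma P_K (c : Ctx D) {A : Set ℝ} (hA : MeasurableSet A) (t : ℝ) :
    c.bt.P (be ⁻¹' A) * c.SK t = c.SK t * c.bt.P (be ⁻¹' A) := by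
  have e : ∀ v, c.bt.P (be ⁻¹' A) v = c.kc.Phi (fun q => A.indicator (fun _ => (1 : ℂ)) q.2.2) v :=
    fun v => ((Kin.common_P c.kc c.hS.toGrp0 null_va c.ct).1 _ (SN.Bd.ind hA) v).symm
  ext v
  rw [ContinuousLinearMap.mul_apply, ContinuousLinearMap.mul_apply, e, e, c.SK_Phi, c.SK_Phi]
  exact c.kc.comm ((SN.Bd.ind hA).comp (by fun_prop)) (SN.Bd.expI (by fun_prop)) v

lemma nrt_eq (Q : Theory D) (t : ℝ) (z : Completion D) :
    Mi Q 0 (2 * t) z = Ue Q 1 (H746.nrt va (t • ex 0)) 0 z := by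
  have : tv ((1 / 2 : ℝ) • (2 * t) • e2 0) = t • ex 0 := by
    rw [smul_smul, tv_smul, ← mul_assoc, one_div_mul_cancel two_ne_zero, one_mul]
    rfl
  rw [Mi, Ga, this]
  exact Ug_apply Q one_pos (H26.lor_c null_va (be_ex 0) t) 0 z

/-- the pigeonhole bound -/
lemma pig (c : Ctx D) {ξ : Completion D} {Λ t : ℝ} (h0 : 0 < t) (h1 : t ≤ 1)
    (h : ∀ s, ‖Mi c.Q 0 s ξ - ξ‖ ≤ Λ * |s|) :
    ‖c.bt.P {p | al p ≤ t ^ 20 ∧ t ^ 4 ≤ be p} ξ‖ ≤ ‖ξ‖ * t + 8 * Λ * t := by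
  have hΛ : 0 ≤ Λ := by simpa using (norm_nonneg _).trans (h 1)
  have hN : 0 < ⌈t⁻¹ ^ 2⌉₊ := Nat.ceil_pos.2 (by positivity)
  have hN2 : (⌈t⁻¹ ^ 2⌉₊ : ℝ) ≤ 2 * t⁻¹ ^ 2 := by
    linarith [Nat.ceil_lt_add_one (sq_nonneg t⁻¹), one_le_pow₀ (n := 2) ((one_le_inv₀ h0).2 h1)]
  refine (Kin.pig c.bR c.ct null_vb null_va al_va (al_ex 0) (be_ex 0) (by simp [md_ex, -tx_0])
    (ρ := t ^ 20) (lam := t ^ 4) (σ := 2 * t ^ 8) (Λ := 2 * Λ) (by positivity) (by positivity)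
    (by linarith [pow_pos h0 20]) (w := ξ) (fun s hs => ?_) hN).trans (add_le_add ?_ ?_)
  · rw [← nrt_eq]
    refine (h _).trans_eq ?_
    rw [abs_of_nonneg (by positivity)]
    ring
  · rw [← inv_inv t, ← div_eq_mul_inv, inv_inv]
    exact div_le_div_of_nonneg_left (norm_nonneg _) (inv_pos.2 h0)
      (Real.le_sqrt_of_sq_le (Nat.le_ceil _))
  · calc _ ≤ 2 * Λ * (2 * t⁻¹ ^ 2 * (2 * t ^ 8)) := by gcongr
      _ = 8 * Λ * t ^ 6 := by field_simp; ring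
      _ ≤ _ := mul_le_mul_of_nonneg_left (pow_le_of_le_one h0.le h1 (by norm_num)) (by positivity)

variable (c) in
/-- small `p_b` for `K T(f) Ω` -/
def RATE : Prop := ∀ b1 b2 : ℝ, b2 < 0 → ∃ (m : ℕ) (C : ℝ), 0 ≤ C ∧ ∀ h k (f : Sch) (t : ℝ),
  tsupport f ⊆ {z | b1 ≤ be z ∧ be z ≤ b2} → 0 < t → t ≤ 1 →
  ‖c.bt.P {p | al p < t ^ 20} (gen c.SK (c.Tv (hk h k (ev f))))‖ ≤ C * t * ‖h‖ * ‖k‖ * sn m f

theorem rate (T : Tm c) : RATE c := fun b1 b2 hb => by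
  have g := T.grp
  obtain ⟨m1, C1, k1⟩ := T.kd.slab b1 b2 (.inl hb)
  obtain ⟨m2, C2, p2, k2⟩ := low T.two
  obtain ⟨m3, C3, p3, k3⟩ := two_M T.gen 0
  refine ⟨m1 + m2 + m3, 10 * (|C1| + C2 + C3), by positivity, fun h k f t hf h0 h1 => ?_⟩
  obtain ⟨d1, d2, n1, n2⟩ := k1 h k f hf
  obtain ⟨a, b, ha, hb, -, n3⟩ := k3 h k f
  have n4 := (k2 h k f (t ^ 4) (by positivity)).2
  rw [show t ^ 4 = (t ^ 2) ^ 2 by ring, Real.sqrt_sq (by positivity), ← pow_mul] at n4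
  set n := (|C1| + C2 + C3) * (‖h‖ * ‖k‖ * sn (m1 + m2 + m3) f) with hn
  have up : ∀ {m C}, m ≤ m1 + m2 + m3 → C ≤ |C1| + C2 + C3 → C * ‖h‖ * ‖k‖ * sn m f ≤ n :=
    fun hm hC => by
      rw [mul_assoc, mul_assoc, ← mul_assoc ‖h‖]
      exact mul_le_mul hC (mul_le_mul_of_nonneg_left (sn_mo hm f) (by positivity))
        (mul_nonneg (by positivity) (sn_nn _ _)) (by positivity)
  have q1 : C1 ≤ |C1| + C2 + C3 := by linarith [le_abs_self C1]
  replace n1 := n1.trans (up (by omega) q1)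
  replace n2 := n2.trans (up (by omega) q1)
  replace n3 := n3.trans (up (by omega) (by linarith [abs_nonneg C1]))
  replace n4 : _ ≤ t ^ 2 * n := n4.trans ((le_of_eq (by ring)).trans (mul_le_mul_of_nonneg_left
    (up (m := m2) (C := C2) (by omega) (by linarith [abs_nonneg C1])) (sq_nonneg t)))
  have n0 : 0 ≤ n := (norm_nonneg _).trans n1
  have hA : MeasurableSet {p | be p < t ^ 4} := measurableSet_lt meas_be measurable_const
  have hB : MeasurableSet {p | al p ≤ t ^ 20 ∧ t ^ 4 ≤ be p} :=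
    (measurableSet_le meas_al measurable_const).inter (measurableSet_le measurable_const meas_be)
  have sa : star (c.bt.P {p | be p < t ^ 4}) = c.bt.P {p | be p < t ^ 4} :=
    ContinuousLinearMap.ext fun v => ext_inner_right ℂ fun w => by
      rw [star_inner, SN.Calc.P_adj hA]
  have a1 := sq_le c.ugK d1.gn d2.gn (A := c.bt.P {p | be p < t ^ 4}) fun s => by
    have := P_K c (measurableSet_Iio (a := t ^ 4)) s
    rw [sa, mul_assoc]
    exact (congrArg _ this).trans (by rw [← mul_assoc, ← mul_assoc]; exact congrArg (· * _) this)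
  rw [sa, SN.Calc.P_P hA hA, Set.inter_self] at a1
  have a2 := abs_le_of_sq_le_sq' (b := t * n) (a1.trans ((mul_le_mul n2 n4 (norm_nonneg _) n0).trans_eq
    (by ring))) (by positivity)
  have a3 := pig c h0 h1 (Λ := n) fun s => (abs_le_of_sq_le_sq' ((lip_le c.ugK (g.ugM 0)
    (fun _ _ => g.ga_S _ _) d1.gn d2.gn ha hb s).trans ((mul_le_mul n2 (mul_le_mul_of_nonneg_right
      (mul_le_mul_of_nonneg_right n3 (abs_nonneg s)) (abs_nonneg s)) (by positivity) n0).trans_eq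
        (by ring))) (by positivity)).2
  refine (SN.Calc.norm_P_mono (measurableSet_lt meas_al measurable_const) (hA.union hB)
    (.of_forall fun p hp => (lt_or_ge (be p) (t ^ 4)).imp id fun q => ⟨le_of_lt hp, q⟩)).trans
    ((Br.norm_P_union _ hA hB _).trans ?_)
  have a4 := mul_le_mul_of_nonneg_right n1 h0.le
  calc _ ≤ 10 * (t * n) := by linarith [a2.2]
    _ = _ := by rw [hn]; ring

end

end Vale.Agent.P352L.BL
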