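import Vale.Agent.P352L.BL2

/-!
# P352L, row BB: the covariant part of `K`, `K` on thin slabs (helper68)
-/

set_option linter.all false

open MeasureTheory Filter Topology Set
open scoped SchwartzMap ComplexConjugate ENNReal ContDiff

namespace Vale.Agent.P352L.BL

open Vale.Agent.P352 Vale.Agent.P352.GF Vale.Agent.P352.BW Vale.Agent.P352.H246
open Vale.Agent.P352.H496 Vale.Agent.P352.H755 Vale.Agent.P352.H15
open Vale.Agent.P352X Vale.Agent.P352X.BX Vale.Agent.P352X.Ap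
open Vale.Agent.P132 (ModData jconj)
open UniformSpace (Completion)
open Complex (I)

noncomputable section

variable {D : Type*} [NormedAddCommGroup D] [InnerProductSpace ℂ D] {c : Ctx D}

section pol

variable {H H' : Type*} [NormedAddCommGroup H] [InnerProductSpace ℂ H] [CompleteSpace H]
  [NormedAddCommGroup H'] [NormedSpace ℂ H'] {J : ℕ} {F : ℝ → H}

theorem pol_clm (h : IsPol J F) (A : H →L[ℂ] H') : IsPol J fun x => A (F x) :=
  h.map' A (map_add A) fun t x => A.map_smul_of_tower t x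

theorem pol_gen {W : ℝ → H →L[ℂ] H} (h : IsPol J F) (d : ∀ x, Dm W (F x)) :
    IsPol J fun x => gen W (F x) :=
  h.map_on (gen W) (Dm W) d dm_zero (fun _ _ => Dm.add) (fun t _ => Dm.rsmul t) gen_zero
    (fun _ _ => gen_add) fun t _ => gen_rsmul t

theorem pol_inl (h : IsPol J F) (w : H) : IsPol J fun x => inner ℂ (F x) w :=
  h.map' (fun v => inner ℂ v w) (fun _ _ => inner_add_left _ _ _) fun t x => by
    rw [← Complex.coe_smul, inner_smul_left, Complex.conj_ofReal, Complex.real_smul]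

theorem pol_inr (h : IsPol J F) (w : H) : IsPol J fun x => inner ℂ w (F x) :=
  pol_clm h (innerSL ℂ w)

end pol

/-! ## covariance of `Kt` -/

lemma gn_M (G : GEN c) (i : Fin 2) (h k : V) (f : Sch) : Gn (Mi c.Q i) (TL c h k f)
    (I • (TL c h k (MS i f) - TL c (tx h i • va + be h • ex i) k f -
      TL c h (tx k i • va + be k • ex i) f)) := by
  simp only [TL_apply, ev_MS]
  exact G.mi i h k _ ⟨f, rfl⟩

lemma gn_P (G : GEN c) (h k : V) (f : Sch) :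
    Gn (Pa c.Q) (TL c h k f) (I • TL c h k (dS va f)) := by
  simp only [TL_apply, ev_dS]
  exact G.ut va h k _ ⟨f, rfl⟩

/-- `K ψ - 2 M_i χ_i + P w` -/
def K3 (c : Base D) (ψ : Completion D) (χ : Fin 2 → Completion D) (w : Completion D) :
    Completion D :=
  gen c.SK ψ - (2 : ℂ) • ∑ i, gen (Mi c.Q i) (χ i) + gen (Pa c.Q) w

/-- `Kt` on Schwartz functions -/
def KS (c : Ctx D) (h k : V) (f : Sch) : Completion D :=
  K3 c (TL c h k f) (fun i => TL c h k (xS i f)) (TL c h k (qS f))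

lemma Kt_ev (h k : V) (f : Sch) : Kt c h k (ev f) = KS c h k f := by
  have e1 : ∀ i, ev (xS i f) = fun z => (tx z i : ℝ) * ev f z := fun i => funext (xS_apply i f)
  have e2 : ev (qS f) = fun z => (d2 (tx z) (tx z) : ℝ) * ev f z := funext (qS_apply f)
  simp only [KS, K3, Kt, TL_apply, e1, e2]

lemma KS_zero (h k : V) : KS c h k 0 = 0 := by simp [KS, K3, gen_zero]

lemma KS_add (G : GEN c) (h k : V) {f f' : Sch} (d : Dm c.SK (TL c h k f))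
    (d' : Dm c.SK (TL c h k f')) : KS c h k (f + f') = KS c h k f + KS c h k f' := by
  simp only [KS, K3, map_add, gen_add d d', gen_add (gn_M G _ h k _).dm (gn_M G _ h k _).dm,
    gen_add (gn_P G h k _).dm (gn_P G h k _).dm, Finset.sum_add_distrib, smul_add]
  abel

/-! ## transverse translations -/

section tr

variable (g : GRP c) (y : R2) {ψ χ w k m p : Completion D}
include g

lemma gn_P_ut (a : V) (h : Gn (Pa c.Q) ψ p) : Gn (Pa c.Q) (Ut c.Q a ψ) (Ut c.Q a p) :=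
  h.comm fun t => g.ut_comm _ _

lemma gn_M_ut (i : Fin 2) (h : Gn (Mi c.Q i) ψ m) (h' : Gn (Pa c.Q) ψ p) :
    Gn (Mi c.Q i) (Ut c.Q (tv y) ψ) (Ut c.Q (tv y) (m + ((y i : ℝ) : ℂ) • p)) := by
  have h1 : Gn (fun t => Pa c.Q (y i * t)) ψ (y i • p) :=
    h'.scale (ContinuousLinearMap.id ℂ _) (y i) fun _ => rfl
  have h2 := (g.ugPa.scale (y i)).gn_mul h1 (by rw [(g.ugM i).zero']; rfl) h
  refine (h2.map (W' := Mi c.Q i) (Ut c.Q (tv y)) fun t => ?_).cast rfl (by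
    rw [add_comm, Complex.coe_smul])
  have e : gap (t • e2 i) (tv y) = tv y + (y i * t) • va :=
    null_ext (by simp [d2_smul_l, mul_comm]) (by simp) (by simp)
  have := DFunLike.congr_fun (g.ga_ut (t • e2 i) (tv y)) ψ
  rw [e, g.ut] at this
  exact this

lemma gn_K_ut (G : GEN c) (h : Dm c.SK ψ) (hM : ∀ i, Dm (Mi c.Q i) ψ) (hP : Dm (Pa c.Q) ψ) :
    Gn c.SK (Ut c.Q (tv y) ψ) (Ut c.Q (tv y) (gen c.SK ψ +
      ∑ i, ((2 * y i : ℝ) : ℂ) • gen (Mi c.Q i) ψ + ((d2 y y : ℝ) : ℂ) • gen (Pa c.Q) ψ)) := by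
  have := (g.gn_Ky _).1 (G.ky (-y) ψ h hM hP)
  rw [tv_neg, neg_neg] at this
  refine this.cast rfl ?_
  congr 1
  simp only [Pi.neg_apply, mul_neg, Complex.ofReal_neg, neg_smul, Finset.sum_neg_distrib,
    sub_neg_eq_add, d2_neg, d2_neg_l, neg_neg, Complex.coe_smul]

end tr

lemma xS_tsl (y : R2) (i : Fin 2) (f : Sch) : xS i (ST.tsl (tv y) f) =
    ST.tsl (tv y) (xS i f + ((y i : ℝ) : ℂ) • f) := by
  ext z
  simp only [xS_apply, ST.tsl_apply, SchwartzMap.add_apply, SchwartzMap.smul_apply, tx_sub, tx_tv,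
    Pi.sub_apply, smul_eq_mul]
  push_cast
  ring

lemma qS_tsl (y : R2) (f : Sch) : qS (ST.tsl (tv y) f) =
    ST.tsl (tv y) (qS f + (((2 * y 0 : ℝ) : ℂ) • xS 0 f + ((2 * y 1 : ℝ) : ℂ) • xS 1 f) +
      ((d2 y y : ℝ) : ℂ) • f) := by
  ext z
  simp only [xS_apply, qS_apply, ST.tsl_apply, SchwartzMap.add_apply, SchwartzMap.smul_apply,
    tx_sub, tx_tv, Pi.sub_apply, smul_eq_mul, d2]
  push_cast
  ring

/-- `Kt` is covariant under the transverse translations -/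
theorem KS_tsl (g : GRP c) (G : GEN c) (h k : V) (y : R2) {f : Sch}
    (d : Dm c.SK (TL c h k f)) : KS c h k (ST.tsl (tv y) f) = Ut c.Q (tv y) (KS c h k f) := by
  have hM := fun i u => (gn_M G i h k u).dm
  have hP := fun u => (gn_P G h k u).dm
  have e1 := (gn_K_ut g y G d (fun i => hM i f) (hP f)).gen_eq
  have e2 := fun i => (gn_M_ut g y i ((hM i (xS i f)).gn.add ((hM i f).gn.smul (y i : ℝ)))
    ((hP (xS i f)).gn.add ((hP f).gn.smul (y i : ℝ)))).gen_eq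
  have e3 := (gn_P_ut g (tv y) (((hP (qS f)).gn.add (((hP (xS 0 f)).gn.smul (2 * y 0 : ℝ)).add
    ((hP (xS 1 f)).gn.smul (2 * y 1 : ℝ)))).add ((hP f).gn.smul (d2 y y : ℝ)))).gen_eq
  simp only [KS, K3, xS_tsl, qS_tsl, ← ut_TL g, map_add (TL c h k), map_smul (TL c h k), e1,
    e2, e3]
  rw [← map_sum, ← map_smul, ← map_sub, ← map_add]
  congr 1
  simp only [Fin.sum_univ_two, d2]
  push_cast
  module

/-! ## scalings -/

section sc

variable (g : GRP c) {s : ℝ} (hs : 0 < s) {ψ k : Completion D}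
include g hs

lemma gn_K_sc (h : Gn c.SK ψ k) : Gn c.SK (Usc c.Q 1 s ψ) (s • Usc c.Q 1 s k) :=
  h.scale _ s fun t => by
    have := DFunLike.congr_fun (g.sc_S 1 s (s * t) one_pos hs) ψ
    rw [mul_div_cancel_left₀ _ hs.ne'] at this
    exact this.symm

lemma gn_M_sc (i : Fin 2) (h : Gn (Mi c.Q i) ψ k) :
    Gn (Mi c.Q i) (Usc c.Q 1 s ψ) (Real.sqrt s • Usc c.Q 1 s k) :=
  h.scale _ _ fun t => by
    have := DFunLike.congr_fun (g.sc_ga 1 s ((Real.sqrt s * t) • e2 i) one_pos hs) ψ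
    rw [smul_smul, one_div, Real.sqrt_inv, inv_mul_cancel_left₀ (Real.sqrt_pos.2 hs).ne'] at this
    exact this.symm

lemma gn_P_sc (h : Gn (Pa c.Q) ψ k) : Gn (Pa c.Q) (Usc c.Q 1 s ψ) (Usc c.Q 1 s k) :=
  h.comm fun t => by
    rw [Pa, g.sc_ut _ _ _ one_pos hs]
    congr 2
    exact null_ext (by simp) (by simp) (by simp)

lemma pb_sc (u : ℝ) (v : Completion D) :
    Pb c.Q u (Usc c.Q 1 s v) = Usc c.Q 1 s (Pb c.Q (u / s) v) := by
  have := DFunLike.congr_fun (g.sc_ut 1 s ((u / s) • vb) one_pos hs) v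
  rw [show scp 1 s ((u / s) • vb) = u • vb from
    null_ext (by simp) (by simp [mul_div_cancel₀ _ hs.ne']) (by simp)] at this
  exact this.symm

end sc

/-- the scalings on `T(h, k)(f) Ω`, for eigenvectors `h`, `k` -/
lemma usc_TL (g : GRP c) {r s a b : ℝ} (hr : 0 < r) (hs : 0 < s) {h k : V}
    (eh : scp r s h = a • h) (ek : scp r s k = b • k) {F f : Sch}
    (e : ∀ z, f z = F (scp r s z)) : Usc c.Q r s (TL c h k f) =
      ((a * b / (r * s) : ℝ) : ℂ) • TL (c.sh (Real.log (r * s) / 2)) h k F := by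
  have := usc_T g hr hs h k (test_ev F)
  rw [eh, ek, Tv_smul_l (test_ev F), Tv_smul_r (test_ev F), smul_smul,
    show (fun z => ev F (scp r s z)) = ev f from funext fun z => (e z).symm] at this
  have p : ((r * s : ℝ) : ℂ) ≠ 0 := Complex.ofReal_ne_zero.2 (by positivity)
  refine smul_right_injective _ p ?_
  simp only [TL_apply, this, smul_smul, ← Complex.ofReal_mul]
  congr 2
  field_simp

/-- `Kt` is covariant under the scalings `sc(1, s)` -/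
theorem KS_sc (g : GRP c) (G : GEN c) {s a b : ℝ} (hs : 0 < s) (ha : a ≠ 0) (hb : b ≠ 0) {h k : V}
    (eh : scp 1 s h = a • h) (ek : scp 1 s k = b • k) {F f : Sch}
    (e : ∀ z, f z = F (scp 1 s z)) (d : Dm c.SK (TL c h k f)) :
    KS (c.sh (Real.log (1 * s) / 2)) h k F = ((s * s / (a * b) : ℝ) : ℂ) • Usc c.Q 1 s (KS c h k f) := by
  have hq := Real.sqrt_pos.2 hs
  have hq2 : ((Real.sqrt s : ℝ) : ℂ) * (Real.sqrt s : ℝ) = s := by
    rw [← Complex.ofReal_mul, Real.mul_self_sqrt hs.le]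
  have h0 : ∀ {F f : Sch}, (∀ z, f z = F (scp 1 s z)) →
      TL (c.sh (Real.log (1 * s) / 2)) h k F = ((s / (a * b) : ℝ) : ℂ) • Usc c.Q 1 s (TL c h k f) := fun e => by
    rw [usc_TL g one_pos hs eh ek e, smul_smul, ← Complex.ofReal_mul,
      show s / (a * b) * (a * b / (1 * s)) = 1 by field_simp, Complex.ofReal_one, one_smul]
  have e1 := ((gn_K_sc g hs d.gn).smul (s / (a * b) : ℝ)).gen_eq
  have e2 := fun i => ((gn_M_sc g hs i ((gn_M G i h k (xS i f)).dm.gn.smul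
    (Real.sqrt s : ℝ))).smul (s / (a * b) : ℝ)).gen_eq
  have e3 := ((gn_P_sc g hs ((gn_P G h k (qS f)).dm.gn.smul (s : ℝ))).smul
    (s / (a * b) : ℝ)).gen_eq
  have f2 : ∀ i, TL (c.sh (Real.log (1 * s) / 2)) h k (xS i F) = ((s / (a * b) : ℝ) : ℂ) •
      Usc c.Q 1 s (((Real.sqrt s : ℝ) : ℂ) • TL c h k (xS i f)) := fun i => by
    rw [← map_smul (TL c h k)]
    refine h0 fun z => ?_
    simp only [SchwartzMap.smul_apply, xS_apply, e, tx_scp, one_mul, Pi.smul_apply, smul_eq_mul]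
    push_cast
    ring
  have f3 : TL (c.sh (Real.log (1 * s) / 2)) h k (qS F) = ((s / (a * b) : ℝ) : ℂ) •
      Usc c.Q 1 s (((s : ℝ) : ℂ) • TL c h k (qS f)) := by
    rw [← map_smul (TL c h k)]
    refine h0 fun z => ?_
    simp only [SchwartzMap.smul_apply, qS_apply, e, tx_scp, one_mul, d2_smul, d2_smul_l,
      smul_eq_mul]
    push_cast
    linear_combination (-(d2 (tx z) (tx z) : ℂ) * F (scp 1 s z)) * hq2
  simp only [KS, K3, h0 e, f2, f3, e1, e2, e3]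
  simp only [Fin.sum_univ_two, map_add, map_sub, map_smul, ← Complex.coe_smul, smul_smul]
  push_cast
  have hq3 : ((s : ℂ) / (a * b)) * ((Real.sqrt s : ℝ) * (Real.sqrt s : ℝ)) = s * s / (a * b) := by
    rw [hq2]
    ring
  rw [hq3]
  module

theorem pol_KS (t : TB c) (h k : V) {f : Sch} (d : ∀ x, Dm c.SK (TL (c.sh x) h k f)) :
    IsPol c.n0 fun x => KS (c.sh x) h k f := by
  have p : ∀ f, IsPol c.n0 fun x => TL (c.sh x) h k f := fun f =>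
    (pol_T t.grp h k (test_ev f)).congr fun x => TL_apply h k f
  exact ((pol_gen (p f) d).sub ((IsPol.sum _ fun i _ => pol_gen (W := Mi c.Q i) (p _)
    fun x => (gn_M (t.all x).gen i h k _).dm).smul 2)).add
    (pol_gen (W := Pa c.Q) (p _) fun x => (gn_P (t.all x).gen h k _).dm)

/-! ## small `p_b` -/

lemma meas_lt (σ : ℝ) : MeasurableSet {p : V | al p < σ} :=
  (isOpen_lt cont_al continuous_const).measurableSet

/-- bounds with a gain at small `p_b` -/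
def Lo (c : Base D) (S : Set V) (Φ : Sch → Completion D) : Prop := ∃ (m : ℕ) (C : ℝ), 0 ≤ C ∧
  ∀ f : Sch, tsupport f ⊆ S → ‖Φ f‖ ≤ C * sn m f ∧
    ∀ t : ℝ, 0 < t → t ≤ 1 → ‖c.bt.P {p | al p < t ^ 20} (Φ f)‖ ≤ C * t * sn m f

variable {S : Set V} {Φ Ψ : Sch → Completion D}

lemma Lo.add (h : Lo c S Φ) (h' : Lo c S Ψ) : Lo c S fun f => Φ f + Ψ f := by
  obtain ⟨m, C, hC, hb⟩ := h
  obtain ⟨m', C', hC', hb'⟩ := h'
  refine ⟨max m m', C + C', by positivity, fun f hf => ?_⟩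
  have h1 := sn_mo (le_max_left m m') f
  have h2 := sn_mo (le_max_right m m') f
  refine ⟨(norm_add_le _ _).trans ?_, fun t h0 ht => ?_⟩
  · nlinarith [(hb f hf).1, (hb' f hf).1]
  · rw [map_add]
    refine (norm_add_le _ _).trans ?_
    nlinarith [(hb f hf).2 t h0 ht, (hb' f hf).2 t h0 ht, mul_nonneg hC h0.le, mul_nonneg hC' h0.le]

lemma Lo.smul (a : ℂ) (h : Lo c S Φ) : Lo c S fun f => a • Φ f := by
  obtain ⟨m, C, hC, hb⟩ := h
  refine ⟨m, ‖a‖ * C, by positivity, fun f hf => ⟨?_, fun t h0 ht => ?_⟩⟩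
  · rw [norm_smul, mul_assoc]
    exact mul_le_mul_of_nonneg_left (hb f hf).1 (norm_nonneg a)
  · rw [map_smul, norm_smul, mul_assoc, mul_assoc, ← mul_assoc C]
    exact mul_le_mul_of_nonneg_left ((hb f hf).2 t h0 ht) (norm_nonneg a)

lemma Lo.sub (h : Lo c S Φ) (h' : Lo c S Ψ) : Lo c S fun f => Φ f - Ψ f := by
  simpa only [neg_one_smul, ← sub_eq_add_neg] using h.add (h'.smul (-1))

lemma lo_TL (hl : LOW c) (h k : V) (A : Sch →L[ℂ] Sch) : Lo c S fun f => TL c h k (A f) := by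
  obtain ⟨m, C, hC, hb⟩ := hl
  obtain ⟨C1, m1, hC1, h1⟩ := ST.clm_sn' (A.restrictScalars ℝ) m
  obtain ⟨C2, m2, hC2, h2⟩ := ST.clm_sn_c (TL c h k ∘L A)
  refine ⟨max m1 m2, C * ‖h‖ * ‖k‖ * C1 + C2, by positivity, fun f _ => ?_⟩
  have a1 := sn_mo (le_max_left m1 m2) f
  have a2 := sn_mo (le_max_right m1 m2) f
  have a3 := h1 f
  have a4 := h2 f
  rw [← Api4.sn_eq, ← Api4.sn_eq] at a3
  rw [← Api4.sn_eq] at a4
  have a5 := sn_nn m1 f
  have a6 := sn_nn m2 f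
  have a7 : 0 ≤ C * ‖h‖ * ‖k‖ * C1 := by positivity
  refine ⟨a4.trans (by nlinarith), fun t h0 ht => ?_⟩
  have a8 := (hb h k (A f) (t ^ 20) (by positivity)).1
  have a9 : Real.sqrt (t ^ 20) ≤ t := Real.sqrt_le_iff.2 ⟨h0.le,
    pow_le_pow_of_le_one h0.le ht (by norm_num)⟩
  beta_reduce
  rw [TL_apply]
  calc _ ≤ C * t * ‖h‖ * ‖k‖ * (C1 * sn (max m1 m2) f) := a8.trans (by
        gcongr
        · exact sn_nn _ _
        · exact a3.trans (mul_le_mul_of_nonneg_left a1 hC1))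
    _ ≤ _ := by nlinarith [mul_nonneg (mul_nonneg hC2 h0.le) (a5.trans a1)]

lemma lo_K (t : Tm c) (hr : RATE c) (b1 : ℝ) {b2 : ℝ} (hb : b2 < 0) (h k : V) :
    Lo c {z | b1 ≤ be z ∧ be z ≤ b2} fun f => gen c.SK (TL c h k f) := by
  obtain ⟨m, C, hC, h1⟩ := hr b1 b2 hb
  obtain ⟨m', C', h2⟩ := t.kd.slab b1 b2 (.inl hb)
  refine ⟨max m m', (C + |C'|) * ‖h‖ * ‖k‖, by positivity, fun f hf => ?_⟩
  have a1 := sn_mo (le_max_left m m') f
  have a2 := sn_mo (le_max_right m m') f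
  have a3 := sn_nn m f
  have a4 := sn_nn m' f
  have a5 := abs_nonneg C'
  beta_reduce
  rw [TL_apply]
  refine ⟨(h2 h k f hf).2.2.1.trans ?_, fun t h0 ht => (h1 h k f t hf h0 ht).trans ?_⟩
  · gcongr
    linarith [le_abs_self C']
  · calc _ ≤ (C + |C'|) * t * ‖h‖ * ‖k‖ * sn (max m m') f := by
          gcongr
          linarith
      _ = _ := by ring

lemma lo_KS (t : Tm c) (hl : LOW c) (hr : RATE c) (b1 : ℝ) {b2 : ℝ} (hb : b2 < 0) (h k : V) :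
    Lo c {z | b1 ≤ be z ∧ be z ≤ b2} (KS c h k) := by
  have hM : ∀ i, Lo c {z | b1 ≤ be z ∧ be z ≤ b2} fun f =>
      gen (Mi c.Q i) (TL c h k (xS i f)) := fun i => by
    simp only [(gn_M t.gen i h k _).gen_eq]
    exact (((lo_TL hl h k (MS i ∘L xS i)).sub (lo_TL hl _ k (xS i))).sub
      (lo_TL hl h _ (xS i))).smul I
  have hP : Lo c {z | b1 ≤ be z ∧ be z ≤ b2} fun f => gen (Pa c.Q) (TL c h k (qS f)) := by
    simp only [(gn_P t.gen h k _).gen_eq]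
    exact (lo_TL hl h k (dS va ∘L qS)).smul I
  have := ((lo_K t hr b1 hb h k).sub (((hM 0).add (hM 1)).smul 2)).add hP
  unfold KS K3
  simpa only [Fin.sum_univ_two] using this

/-- the multiplier of the average -/
def mul (ρ : ℝ → ℝ) (s : ℝ) (p : V) : ℂ := ft1 (cx ρ) (al p / s)

lemma av_eq {ρ : ℝ → ℝ} (hρ : Tst ρ) (s : ℝ) (v : Completion D) : SN.Bd (mul ρ s) ∧
    ∫ u, (ρ u : ℂ) • Pb c.Q (u / s) v = c.bt.Phi (mul ρ s) v := by
  have := c.bt.smear SN.isPair_mdot (y := fun u : ℝ => (u / s) • vb) (by fun_prop) (m := volume)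
    (u := cx ρ) (cs_int (dc_cx hρ)) v
  have e : (fun p => ∫ u, cx ρ u * SN.ch (fun p y : V => mdot p y) ((u / s) • vb) p) = mul ρ s := by
    funext p
    simp only [mul, ft1, SN.ch, md_smul, md_vb']
    congr 1
    funext u
    congr 4
    ring
  rw [e] at this
  exact this

lemma mul_bd {ρ : ℝ → ℝ} (hρ : Tst ρ) : ∃ C : ℝ, 0 ≤ C ∧ ∀ t : ℝ, 0 < t → t ≤ 1 → ∀ p,
    ‖mul ρ (t ^ 22) p‖ ≤ C ∧ (¬ al p < t ^ 20 → ‖mul ρ (t ^ 22) p‖ ≤ C * t) := by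
  obtain ⟨m, C, hC, h⟩ := ft1_decay 1
  refine ⟨C * sn m (sch (cx ρ)), mul_nonneg hC (sn_nn _ _), fun t h0 ht p => ?_⟩
  have h1 := h (sch (cx ρ)) (al p / t ^ 22)
  rw [Api4.coe_sch (Api4.dc_cx hρ), pow_one] at h1
  have h2 := norm_nonneg (ft1 (cx ρ) (al p / t ^ 22))
  have h3 := norm_nonneg (al p / t ^ 22)
  rw [mul]
  refine ⟨by nlinarith, fun hp => ?_⟩
  have h4 : 1 ≤ t * ‖al p / t ^ 22‖ := by
    refine le_trans ?_ (mul_le_mul_of_nonneg_left (le_abs_self _) h0.le)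
    rw [← mul_div_assoc, le_div_iff₀ (by positivity), one_mul]
    have : t ^ 22 ≤ t ^ 21 := pow_le_pow_of_le_one h0.le ht (by norm_num)
    nlinarith [not_lt.1 hp]
  nlinarith

lemma av_le {ρ : ℝ → ℝ} (hρ : Tst ρ) (h : Lo c S Φ) : ∃ (m : ℕ) (C : ℝ), 0 ≤ C ∧
    ∀ f : Sch, tsupport f ⊆ S → ∀ t : ℝ, 0 < t → t ≤ 1 →
      ‖c.bt.Phi (mul ρ (t ^ 22)) (Φ f)‖ ≤ C * t * sn m f := by
  obtain ⟨m, C, hC, hb⟩ := h
  obtain ⟨C1, hC1, h1⟩ := mul_bd hρ
  refine ⟨m, 2 * (C1 * C), by positivity, fun f hf t h0 ht => ?_⟩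
  have hB := (av_eq (c := c) hρ (t ^ 22) 0).1
  have hA := meas_lt (t ^ 20)
  have e : Φ f = c.bt.P {p | al p < t ^ 20} (Φ f) + c.bt.P {p | al p < t ^ 20}ᶜ (Φ f) := by
    rw [SN.Calc.P_compl hA, add_sub_cancel]
  have a1 := c.bt.norm_le hB hC1 (c.bt.P {p | al p < t ^ 20} (Φ f))
    (.of_forall fun p => (h1 t h0 ht p).1)
  have a2 := c.bt.norm_le hB (mul_nonneg hC1 h0.le) (c.bt.P {p | al p < t ^ 20}ᶜ (Φ f)) (by
    rw [SN.Calc.nu_P hA.compl]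
    exact (ae_restrict_mem hA.compl).mono fun p hp => (h1 t h0 ht p).2 hp)
  have a3 := mul_le_mul_of_nonneg_left ((hb f hf).2 t h0 ht) hC1
  have a4 := mul_le_mul_of_nonneg_left ((SN.Calc.norm_P_le (C := c.bt.toCalc) hA.compl _).trans
    (hb f hf).1) (mul_nonneg hC1 h0.le)
  rw [e, map_add]
  refine (norm_add_le _ _).trans ?_
  linarith

lemma rb_sc (g : GRP c) {ρ : ℝ → ℝ} (hρ : Tst ρ) {s : ℝ} (hs : 0 < s) (a : ℂ)
    (v : Completion D) :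
    Rb c ρ (a • Usc c.Q 1 s v) = a • Usc c.Q 1 s (c.bt.Phi (mul ρ s) v) := by
  have hi := (g.ugPb.scale s⁻¹).integrable_smul (cs_int (dc_cx hρ)) v
  simp only [← div_eq_inv_mul] at hi
  rw [← (av_eq hρ s v).2, ← (Usc c.Q 1 s).integral_comp_comm hi, ← integral_smul, Rb]
  congr 1
  funext u
  rw [map_smul, pb_sc g hs, map_smul, smul_comm]

lemma KS_sum (G : GEN c) (h k : V) {ι : Type*} (J : Finset ι) {f : ι → Sch}
    (d : ∀ j, Dm c.SK (TL c h k (f j))) :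
    KS c h k (∑ j ∈ J, f j) = ∑ j ∈ J, KS c h k (f j) := by
  classical
  induction J using Finset.induction_on with
  | empty => simpa using KS_zero h k
  | insert j J hj ih =>
    rw [Finset.sum_insert hj, Finset.sum_insert hj, KS_add G h k (d j) (by
      rw [map_sum]
      exact Dm.sum _ fun j _ => d j), ih]

lemma ex_slab {φ : ℝ → ℝ} (hφ : Tst φ) (h : tsupport φ ⊆ Iio 0) :
    ∃ b1 b2 : ℝ, b2 < 0 ∧ tsupport φ ⊆ Icc b1 b2 := by
  rcases (tsupport φ).eq_empty_or_nonempty with e | e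
  · exact ⟨0, -1, by norm_num, e ▸ empty_subset _⟩
  · obtain ⟨a, -, ha⟩ := hφ.2.isCompact.exists_isLeast e |>.imp fun a ha => ha
    obtain ⟨b, hb, hb'⟩ := hφ.2.isCompact.exists_isGreatest e
    exact ⟨a, b, h hb, fun t ht => ⟨ha ht, hb' ht⟩⟩

theorem le_rt {t : ℝ} (h : t ∈ Ioc (0 : ℝ) 1) : t ≤ √t :=
  Real.le_sqrt_of_sq_le (by nlinarith [h.1, h.2])

/-- the wide averages for the members `a log τ` -/
theorem av_pol (t : TB c) {ρ : ℝ → ℝ} (hρ : Tst ρ) (b1 : ℝ) {b2 : ℝ} (hb : b2 < 0) (h k : V)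
    (a : ℝ) : ∃ (m : ℕ) (C : ℝ), 0 ≤ C ∧ ∀ f : Sch, tsupport f ⊆ {z | b1 ≤ be z ∧ be z ≤ b2} →
      ∀ τ ∈ Ioc (0 : ℝ) 1, ‖c.bt.Phi (mul ρ (τ ^ 22)) (KS (c.sh (a * Real.log τ)) h k f)‖ ≤
        C * √τ * sn m f := by
  obtain ⟨m, C, C0, hC⟩ := IsPol.unifm (J := c.n0)
    (F := fun (q : Sch × ℝ) x => c.bt.Phi (mul ρ (q.2 ^ 22)) (KS (c.sh x) h k q.1))
    (r := fun m q => q.2 * sn m q.1)
    (P := fun q => tsupport q.1 ⊆ {z | b1 ≤ be z ∧ be z ≤ b2} ∧ q.2 ∈ Ioc (0 : ℝ) 1)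
    (fun q hq => pol_clm (pol_KS t h k fun x => by
      obtain ⟨_, _, h3⟩ := (t.all x).kd.slab b1 b2 (.inl hb)
      exact TL_apply (c := c.sh x) h k _ ▸ (h3 h k _ hq.1).1) _)
    (fun m q hq => mul_nonneg hq.2.1.le (sn_nn _ _))
    (fun m m' q e hq => mul_le_mul_of_nonneg_left (sn_mo e _) hq.2.1.le) fun x => by
      obtain ⟨m, C, -, h1⟩ := av_le hρ (lo_KS (t.all x) (low (t.all x).two) (rate (t.all x)) b1 hb h k)
      exact ⟨m, C, fun q hq => (h1 _ hq.1 _ hq.2.1 hq.2.2).trans_eq (mul_assoc _ _ _)⟩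
  obtain ⟨B, B0, hB⟩ := log_le_rpow_bot c.n0 a 0 (show (0 : ℝ) < 1 / 2 by norm_num)
  refine ⟨m, C * B, by positivity, fun f hf τ hτ => (hC (f, τ) ⟨hf, hτ⟩ _).trans ?_⟩
  have h1 := hB τ hτ.1 hτ.2
  rw [zero_add] at h1
  have h2 : τ ^ (-(1 / 2) : ℝ) * τ = √τ := by
    rw [← Real.rpow_add_one hτ.1.ne', Real.sqrt_eq_rpow]
    norm_num
  have := sn_nn m f
  have := hτ.1
  calc _ ≤ C * (B * τ ^ (-(1 / 2) : ℝ)) * (τ * sn m f) := by gcongr
    _ = _ := by rw [← h2]; ring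

/-- the estimate for eigenvectors of the scalings -/
theorem kt_main (t : TB c) {ρ φ : ℝ → ℝ} {g : P3 → ℝ} (hρ : Tst ρ)
    (hg : Tst g) (hφ : Tst φ) (hn : tsupport φ ⊆ Iio 0) (h k : V) : ∃ C : ℝ, 0 ≤ C ∧
    ∀ τ ∈ Ioc (0 : ℝ) 1, ∀ a b : ℝ, 0 < a → 0 < b → scp 1 (τ ^ 22) h = a • h →
      scp 1 (τ ^ 22) k = b • k →
      ‖Rb c ρ (Kt c h k (pr g (dil (τ ^ 22) φ)))‖ ≤ C * √τ * (τ ^ 22 / (a * b)) := by
  obtain ⟨b1, b2, hb, hs⟩ := ex_slab hφ hn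
  obtain ⟨m, C, hC, h1⟩ := av_pol t hρ b1 hb h k (-11)
  obtain ⟨C', hC', h2⟩ := Ktp.cells hg hφ m
  refine ⟨C * C' * C', by positivity, fun τ hτ a b ha hb' eh ek => ?_⟩
  have h0 := hτ.1
  have hs0 : 0 < τ ^ 22 := by positivity
  have ex : (c.sh (-11 * Real.log τ)).sh (Real.log (1 * τ ^ 22) / 2) = c := by
    rw [c.sh_sh, one_mul, Real.log_pow, show -11 * Real.log τ + (22 : ℕ) * Real.log τ / 2 = 0 by
      push_cast; ring, c.sh_zero]
  have t' := t.all (-11 * Real.log τ)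
  set c' := c.sh (-11 * Real.log τ)
  obtain ⟨_, _, h3⟩ := t'.kd.slab b1 b2 (.inl hb)
  obtain ⟨J, y, u, u1, u2, u3, u4⟩ := h2 (τ ^ 11) ⟨by positivity, pow_le_one₀ h0.le hτ.2⟩
  have u5 : ∀ j, tsupport (u j) ⊆ {z | b1 ≤ be z ∧ be z ≤ b2} := fun j z hz => hs (u1 j hz)
  have d1 : ∀ j, Dm c.SK (TL c' h k (u j)) := fun j => TL_apply (c := c') h k _ ▸ (h3 h k _ (u5 j)).1
  have d2 : ∀ j, Dm c.SK (TL c' h k (ST.tsl (tv (y j)) (u j))) := fun j =>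
    TL_apply (c := c') h k _ ▸ (h3 h k _ fun z hz => by
      simpa using u5 j (tsupport_tsl _ _ hz)).1
  have hF := test_pr hg (tst_dil hφ hs0.ne')
  have hq : Real.sqrt (τ ^ 22) = τ ^ 11 := by
    rw [show τ ^ 22 = (τ ^ 11) ^ 2 by ring, Real.sqrt_sq (by positivity)]
  have hB := (av_eq (c := c) hρ (τ ^ 22) 0).1
  have e := KS_sc t'.grp t'.gen hs0 ha.ne' hb'.ne' eh ek (F := sch (pr g (dil (τ ^ 22) φ)))
    (f := ∑ j ∈ J, ST.tsl (tv (y j)) (u j)) (fun z => by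
      rw [sch_apply hF, SchwartzMap.sum_apply]
      simp only [ST.tsl_apply, u4, pr, pl, dil, al_scp, be_scp, tx_scp, hq, one_mul,
        mul_div_cancel_left₀ _ hs0.ne']) (by
      rw [map_sum]
      exact Dm.sum _ fun j _ => d2 j)
  rw [ex] at e
  rw [← ev_sch hF, Kt_ev, e, rb_sc t.grp hρ hs0, norm_smul, Usc, t.grp.ug_norm,
    KS_sum t'.gen h k J d2, map_sum, Complex.norm_real, Real.norm_of_nonneg (by positivity)]
  have h4 : ‖∑ j ∈ J, c.bt.Phi (mul ρ (τ ^ 22)) (KS c' h k (ST.tsl (tv (y j)) (u j)))‖ ≤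
      J.card * (C * √τ * C') := by
    rw [← nsmul_eq_mul, ← Finset.sum_const]
    refine norm_sum_le_of_le _ fun j hj => ?_
    rw [KS_tsl t'.grp t'.gen h k _ (d1 j), c.bt.Phi_U SN.isPair_mdot _ hB, Ut, t.grp.ug_norm]
    exact (h1 _ (u5 j) τ hτ).trans (mul_le_mul_of_nonneg_left (u2 j hj) (by positivity))
  calc _ ≤ τ ^ 22 * τ ^ 22 / (a * b) * (J.card * (C * √τ * C')) := by gcongr
    _ = C * C' * (J.card * (τ ^ 11) ^ 2) * √τ * (τ ^ 22 / (a * b)) := by ring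
    _ ≤ _ := by gcongr

variable {g : P3 → ℝ} {φ ρ : ℝ → ℝ} {F F' : ℝ → Completion D}

/-- the covariant part of `K` on thin slabs -/
theorem kt (t : TB c) (hρ : Tst ρ) (hg : Tst g) (hφ : Tst φ) (hn : tsupport φ ⊆ Iio 0) :
  ∃ C : ℝ, ∀ t ∈ Set.Ioc (0 : ℝ) 1,
    ‖Rb c ρ (Kt c va va (pr g (dil (t ^ 22) φ)))‖ ≤ C * √t * t ^ 22 ∧
    ‖Rb c ρ (Kt c va vb (pr g (dil (t ^ 22) φ)))‖ ≤ C * √t ∧
    ‖Rb c ρ (Kt c vb va (pr g (dil (t ^ 22) φ)))‖ ≤ C * √t ∧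
    t ^ 22 * ‖Rb c ρ (Kt c vb vb (pr g (dil (t ^ 22) φ)))‖ ≤ C * √t := by
  obtain ⟨C1, a1, h1⟩ := kt_main t hρ hg hφ hn va va
  obtain ⟨C2, a2, h2⟩ := kt_main t hρ hg hφ hn va vb
  obtain ⟨C3, a3, h3⟩ := kt_main t hρ hg hφ hn vb va
  obtain ⟨C4, a4, h4⟩ := kt_main t hρ hg hφ hn vb vb
  refine ⟨C1 + C2 + C3 + C4, fun τ hτ => ?_⟩
  have h0 := hτ.1
  have hs : 0 < τ ^ 22 := by positivity
  have ea : scp 1 (τ ^ 22) va = (1 : ℝ) • va := null_ext (by simp) (by simp) (by simp)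
  have eb : scp 1 (τ ^ 22) vb = τ ^ 22 • vb := null_ext (by simp) (by simp) (by simp)
  have b1 := h1 τ hτ _ _ one_pos one_pos ea ea
  have b2 := h2 τ hτ _ _ one_pos hs ea eb
  have b3 := h3 τ hτ _ _ hs one_pos eb ea
  have b4 := mul_le_mul_of_nonneg_left (h4 τ hτ _ _ hs hs eb eb) hs.le
  rw [one_mul, div_one] at b1
  rw [one_mul, div_self hs.ne', mul_one] at b2
  rw [mul_one, div_self hs.ne', mul_one] at b3
  rw [show τ ^ 22 * (C4 * √τ * (τ ^ 22 / (τ ^ 22 * τ ^ 22))) = C4 * √τ by field_simp] at b4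
  refine ⟨b1.trans ?_, b2.trans ?_, b3.trans ?_, b4.trans ?_⟩ <;> gcongr <;> linarith

/-! ## `K` on thin slabs -/

open Ks (mv da_xi da_x2)

variable (c) in
/-- the terms without a derivative along `a` -/
def Rm (h k : V) (g : P3 → ℝ) (φ : ℝ → ℝ) : Completion D := ∑ i,
  (TP c h k (di i (xi i g)) (tm φ) - TP c (mv i h) k (xi i g) φ - TP c h (mv i k) (xi i g) φ)

theorem K_TP (G : GEN c) (hg : Tst g) (hφ : Tst φ) (h k : V) : gen c.SK (TP c h k g φ) =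
    Kt c h k (pr g φ) + I • TP c h k (x2 (da g)) φ + (2 * I) • Rm c h k g φ := by
  have e1 (i : Fin 2) : (fun z => ((tx z i : ℝ) : ℂ) * pr g φ z) = pr (xi i g) φ := by
    funext z; simp [pr, xi, pl, mul_assoc]
  have e2 : (fun z => ((d2 (tx z) (tx z) : ℝ) : ℂ) * pr g φ z) = pr (x2 g) φ := by
    funext z; simp [pr, x2, pl, mul_assoc]
  have e3 (i : Fin 2) : c.Tv (hk h k (Mc i (pr (xi i g) φ))) =
      TP c h k (xi i (xi i (da g))) φ + TP c h k (di i (xi i g)) (tm φ) := by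
    rw [TP, TP, ← Tv_add (test_pr (tst_xi i (tst_xi i (tst_da hg))) hφ)
      (test_pr (tst_di i (tst_xi i hg)) (tst_tm hφ)), ← da_xi i (tst_diff hg)]
    congr 2
    funext z
    rw [Mc, dv_pr_a (tst_diff (tst_xi i hg)) (tst_diff hφ),
      dv_pr_ex (tst_diff (tst_xi i hg)) (tst_diff hφ)]
    simp only [pr, xi, da, di, dx, tm, pl]
    push_cast
    ring
  have e4 : gen (Pa c.Q) (c.Tv (hk h k (pr (x2 g) φ))) = I • TP c h k (x2 (da g)) φ := by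
    have := (G.ut va h k _ (test_pr (tst_x2 hg) hφ)).gen_eq
    rw [dv_pr_a (tst_diff (tst_x2 hg)) (tst_diff hφ)] at this
    rw [← da_x2 (tst_diff hg)]
    exact this
  have e5 : TP c h k (x2 (da g)) φ = ∑ i, TP c h k (xi i (xi i (da g))) φ := by
    rw [← TP_sum_g (fun i _ => tst_xi i (tst_xi i (tst_da hg))) hφ]
    congr 1
    funext y
    simp [x2, xi, d2]
    ring
  simp only [Kt, e1, e2, e4, (G.mi _ h k _ (test_pr (tst_xi _ hg) hφ)).gen_eq, e3, e5]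
  simp only [Rm, mv, Fin.sum_univ_two, TP]
  module

/-- vectors of order `t` -/
def Ot (F : ℝ → Completion D) : Prop := ∃ C : ℝ, ∀ t ∈ Ioc (0 : ℝ) 1, ‖F t‖ ≤ C * √t

theorem Ot.add (h : Ot F) (h' : Ot F') : Ot fun t => F t + F' t := by
  obtain ⟨C, h⟩ := h
  obtain ⟨C', h'⟩ := h'
  exact ⟨C + C', fun t ht => (norm_add_le _ _).trans (by linarith [h t ht, h' t ht])⟩

theorem Ot.smul {a : ℝ → ℂ} {A : ℝ} (ha : ∀ t ∈ Ioc (0 : ℝ) 1, ‖a t‖ ≤ A) (h : Ot F) :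
    Ot fun t => a t • F t := by
  obtain ⟨C, h⟩ := h
  refine ⟨A * C, fun t ht => ?_⟩
  rw [norm_smul, mul_assoc]
  exact mul_le_mul (ha t ht) (h t ht) (norm_nonneg _) ((norm_nonneg _).trans (ha t ht))

theorem Ot.cs (a : ℂ) (h : Ot F) : Ot fun t => a • F t := h.smul fun _ _ => le_rfl

theorem Ot.sub (h : Ot F) (h' : Ot F') : Ot fun t => F t - F' t := by
  simpa only [neg_one_smul, ← sub_eq_add_neg] using h.add (h'.cs (-1))

theorem Ot.pw (h : Ot F) : Ot fun t => ((t ^ 22 : ℝ) : ℂ) • F t := h.smul (A := 1) fun t ht => by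
  rw [Complex.norm_real, Real.norm_of_nonneg (pow_pos ht.1 _).le]
  exact pow_le_one₀ ht.1.le ht.2

theorem Ot.congr (h : Ot F) (e : ∀ t ∈ Ioc (0 : ℝ) 1, F' t = F t) : Ot F' :=
  h.imp fun C h t ht => (e t ht).symm ▸ h t ht

theorem Ot.geo (h : Ot F) : ∃ C : ℝ, ∀ n : ℕ, ‖F ((1 / 2) ^ n)‖ ≤ C * (3 / 4) ^ n := by
  obtain ⟨C, h⟩ := h
  exact ⟨|C|, fun n => (h _ (half_mem n)).trans
    (mul_le_mul (le_abs_self C) (rt_half n) (Real.sqrt_nonneg _) (abs_nonneg _))⟩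

theorem pw_le {t : ℝ} (h : t ∈ Ioc (0 : ℝ) 1) : t ^ 22 ≤ √t :=
  (pow_le_of_le_one h.1.le h.2 (by norm_num)).trans (le_rt h)

theorem ot_TP (l : GRP c) (hρ : Tst ρ) (hg : Tst g) (hφ : Tst φ) (h k : V) :
    Ot fun t => Rb c ρ (TP c h k g (dil (t ^ 22) φ)) := by
  refine ⟨‖TP c h k g ρ‖ * ∫ t, |φ t|, fun t ht =>
    (l1_le l hρ hg (tst_dil hφ (pow_pos ht.1 _).ne') h k).trans ?_⟩
  have h0 : 0 ≤ ∫ t, |φ t| := integral_nonneg fun _ => abs_nonneg _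
  have h1 := pow_pos ht.1 22
  rw [show (fun u => |dil (t ^ 22) φ u|) = dil (t ^ 22) fun u => |φ u| from rfl,
    integral_dil h1, mul_comm (t ^ 22), mul_assoc]
  have := pw_le ht
  gcongr

theorem TP_tm (hg : Tst g) (hφ : Tst φ) (h k : V) {s : ℝ} (hs : 0 < s) :
    TP c h k g (tm (dil s φ)) = (s : ℂ) • TP c h k g (dil s (tm φ)) := by
  rw [tm_dil s hs.ne', TP_mul_p s hg (tst_dil (tst_tm hφ) hs.ne')]

theorem ot_ex (T : TB c) (hρ : Tst ρ) (hg : Tst g) (hφ : Tst φ) (h k : V) :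
    Ot fun t => Rb c ρ (gen c.SK (TP c h k g (dil (t ^ 22) φ))) -
      Rb c ρ (Kt c h k (pr g (dil (t ^ 22) φ))) := by
  have o (i) := ((ot_TP T.grp hρ (tst_di i (tst_xi i hg)) (tst_tm hφ) h k).pw.sub
    (ot_TP T.grp hρ (tst_xi i hg) hφ (mv i h) k)).sub (ot_TP T.grp hρ (tst_xi i hg) hφ h (mv i k))
  refine (((ot_TP T.grp hρ (tst_x2 (tst_da hg)) hφ h k).cs I).add
    (((o 0).add (o 1)).cs (2 * I))).congr fun t ht => ?_
  have s := pow_pos ht.1 22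
  simp only [K_TP T.gen hg (tst_dil hφ s.ne'), Rm, Fin.sum_univ_two, Rb_add T.grp hρ,
    Rb_sub T.grp hρ, Rb_smul, TP_tm (tst_di _ (tst_xi _ hg)) hφ _ _ s]
  abel

theorem ks_face (T : TB c) (hρ : Tst ρ) (hg : Tst g) (hφ : Tst φ)
    (hs : tsupport φ ⊆ Iio 0) :
    Ot fun t => Rb c ρ (gen c.SK (Tx c vb g (dil (t ^ 22) φ))) := by
  have hs' := (tsupport_tm φ).trans hs
  have o1 : Ot fun t => Rb c ρ (Kt c vb va (pr (ap 1 g) (dil (t ^ 22) φ))) :=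
    (kt T hρ (tst_ap 1 hg) hφ hs).imp fun C h t ht => (h t ht).2.2.1
  have o2 : Ot fun t => ((t ^ 22 : ℝ) : ℂ) • Rb c ρ (Kt c vb vb (pr g (dil (t ^ 22) (tm φ)))) :=
    (kt T hρ hg (tst_tm hφ) hs').imp fun C h t ht => by
      rw [norm_smul, Complex.norm_real, Real.norm_of_nonneg (pow_pos ht.1 _).le]
      exact (h t ht).2.2.2
  refine ((o1.add (ot_ex T hρ (tst_ap 1 hg) hφ vb va)).sub
    (o2.add (ot_ex T hρ hg (tst_tm hφ) vb vb).pw)).congr fun t ht => ?_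
  have s := pow_pos ht.1 22
  have d := dm_TP T.kd hg (tst_dil (tst_tm hφ) s.ne') (tsupport_dil_neg hs' s) vb vb
  rw [Tx, TP_tm hg hφ _ _ s, gen_sub (dm_TP T.kd (tst_ap 1 hg) (tst_dil hφ s.ne')
    (tsupport_dil_neg hs s) vb va) (d.smul _), gen_smul _ d, Rb_sub T.grp hρ, Rb_smul]
  module

theorem ks_slab (T : TB c) (hρ : Tst ρ) (hg : Tst g) (hφ : Tst φ)
    (hs : tsupport φ ⊆ Iio 0) :
    Ot fun t : ℝ => Rb c ρ (gen c.SK (Tx c va g (dlt (t ^ 22) φ))) -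
      ((∫ t, φ t : ℝ) : ℂ) • I • TP c va va (x2 (da (ap 1 g))) ρ := by
  have hs' := (tsupport_tm φ).trans hs
  have g1 := tst_ap 1 hg
  have o1 : Ot fun t => (((t ^ 22)⁻¹ : ℝ) : ℂ) •
      Rb c ρ (Kt c va va (pr (ap 1 g) (dil (t ^ 22) φ))) :=
    (kt T hρ g1 hφ hs).imp fun C h t ht => by
      have s := pow_pos ht.1 22
      rw [norm_smul, Complex.norm_real, Real.norm_of_nonneg (inv_pos.2 s).le,
        inv_mul_le_iff₀ s, mul_comm]
      exact (h t ht).1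
  have o2 : Ot fun t => Rb c ρ (Kt c va vb (pr g (dil (t ^ 22) (tm φ)))) :=
    (kt T hρ hg (tst_tm hφ) hs').imp fun C h t ht => (h t ht).2.1
  have o (i) := ot_TP T.grp hρ (tst_di i (tst_xi i g1)) (tst_tm hφ) va va
  have l1 : Ot fun t => Rb c ρ (TP c va va (x2 (da (ap 1 g))) (dlt (t ^ 22) φ)) -
      ((∫ t, φ t : ℝ) : ℂ) • TP c va va (x2 (da (ap 1 g))) ρ := by
    obtain ⟨C, C0, h⟩ := l1_rate T.grp T.gen hρ (tst_x2 (tst_da g1)) hφ va va
    exact ⟨C, fun t ht => (h _ (pow_pos ht.1 _)).trans (mul_le_mul_of_nonneg_left (pw_le ht) C0)⟩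
  refine ((l1.cs I).add ((o1.add (((o 0).add (o 1)).cs (2 * I))).sub
    (o2.add (ot_ex T hρ hg (tst_tm hφ) va vb)))).congr fun t ⟨ht, _⟩ => ?_
  have s := pow_pos ht 22
  have s' : (((t ^ 22)⁻¹ : ℝ) : ℂ) * (t ^ 22 : ℝ) = 1 := by
    rw [← Complex.ofReal_mul, inv_mul_cancel₀ s.ne', Complex.ofReal_one]
  have d := dm_TP T.kd g1 (tst_dil hφ s.ne') (tsupport_dil_neg hs s) va va
  have m (i) : mv i va = 0 := by simp [mv]
  have t1 := tst_dil hφ s.ne'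
  rw [Tx, tm_dlt, dlt_eq, TP_mul_p _ g1 t1, gen_sub (d.smul _) (dm_TP T.kd hg
    (tst_dil (tst_tm hφ) s.ne') (tsupport_dil_neg hs' s) va vb), gen_smul _ d, K_TP T.gen g1 t1]
  simp only [Function.comp, dlt_eq, TP_mul_p _ (tst_x2 (tst_da g1)) t1, Rm, m, Fin.sum_univ_two,
    TP_tm (tst_di _ (tst_xi _ g1)) hφ _ _ s]
  simp only [TP, Tv_zero_l (test_pr (tst_xi _ g1) t1), Tv_zero_r (test_pr (tst_xi _ g1) t1),
    sub_zero, Rb_add T.grp hρ, Rb_sub T.grp hρ, Rb_smul, smul_add, smul_comm _ (2 * I),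
    smul_smul (((t ^ 22)⁻¹ : ℝ) : ℂ) ((t ^ 22 : ℝ) : ℂ), s', one_smul]
  module

end

end Vale.Agent.P352L.BL
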