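import Vale.Agent.P352L.BL3
import Vale.Agent.P352X.R.BB.Half
import Vale.Agent.P352X.R.BB.MI
import Vale.Agent.P352X.R.BB.Dom
import Vale.Agent.P352X.R.BB.LIP
import Vale.Agent.P352X.R.BB.Dec
import Vale.Agent.P352X.R.BB.Core
import Vale.Agent.P352X.R.BB.Cross

/-!
# P352L, row BB: the master identity for every member (helper68)
-/

set_option linter.all false

open MeasureTheory Filter Topology Set
open scoped SchwartzMap ComplexConjugate ENNReal ContDiff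

namespace Vale.Agent.P352L.BL

open Vale.Agent.P352 Vale.Agent.P352.GF Vale.Agent.P352.BW Vale.Agent.P352.H246
open Vale.Agent.P352.H496 Vale.Agent.P352.H755 Vale.Agent.P352.H15
open Vale.Agent.P352X Vale.Agent.P352X.BX Vale.Agent.P352X.Ap
open Vale.Agent.P132 (ModData jconj)
open UniformSpace (Completion)
open Complex (I)

noncomputable section

variable {D : Type*} [NormedAddCommGroup D] [InnerProductSpace ℂ D] {c : Ctx D}

/-! ## the Ward identity of the boost on the surface below the plane -/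

section half

open Half (st ct bf chg supp_ct dr_st ct_slab ct_face)

variable {χ : ℝ → ℝ} {d e R L ε : ℝ}

variable (c)

theorem Tv_sub2 {F G : Ix → Ix → Fn} (hF : ∀ m n, IsTest (F m n)) (hG : ∀ m n, IsTest (G m n)) :
    c.Tv (fun m n z => F m n z - G m n z) = c.Tv F - c.Tv G := by
  choose f hf using hF
  choose g hg using hG
  rw [Ctx.Tv, Ctx.Tv, Ctx.Tv, ← UniformSpace.Completion.coe_sub]
  simp only [Ctx.Tf, ← Finset.sum_sub_distrib, ← hf, ← hg]
  exact congrArg _ (Finset.sum_congr rfl fun m _ => Finset.sum_congr rfl fun n _ =>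
    map_sub (Grp.fC (T_fld c m n) c.Q.vac) (f m n) (g m n))

theorem Tx_eq (h : V) {g : P3 → ℝ} {φ : ℝ → ℝ} (hg : Tst g) (hφ : Tst φ) :
    Tx c h g φ = c.Tv (hX h bf (pr g φ)) := by
  rw [Tx, TP, TP, ← Tv_sub2 c (test_hk _ _ (test_pr (tst_ap 1 hg) hφ))
    (test_hk _ _ (test_pr hg (tst_tm hφ)))]
  congr 1
  funext m n z
  simp only [hk, hX, pr, ap, tm, bf, pl_1, Pi.sub_apply, Pi.smul_apply, smul_eq_mul]
  push_cast
  ring

theorem GG_eq (h : Stp d χ) (hR : 0 < R) (hε : 0 < ε) (h1 : ε ≤ 2 * R) (hd : d / 2 ≤ L)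
    (hL : 0 < L) : GG c χ R L ε = c.Tv (dens (ct χ R L ε) (st L ε) bf) := by
  have b : bf.HasTemperateGrowth := by unfold bf; fun_prop
  have a1 := tst_slab h hR hL
  have a2 := tst_dlt tst_dps hε.ne'
  have a3 := test_hX va b (test_pr a1 a2)
  have a4 := test_hX vb b (test_pr (tst_face hR hL) (tst_edge hR hε))
  have z : c.Tv (fun _ _ _ => 0) = 0 := by
    simpa using Tv_sub2 c a3 a3
  rw [GG, Tx_eq c _ a1 a2, Tx_eq c _ (tst_face hR hL) (tst_edge hR hε), ← zero_sub, ← z,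
    ← Tv_sub2 c (fun _ _ => sw_zero) a3, ← Tv_sub2 c (fun m n => sw_sub sw_zero (a3 m n)) a4]
  congr 1
  funext m n z
  simp only [hX, pr, dens, dr_st, ← ct_slab hε h1 hL, ← ct_face h hε hd hL]
  push_cast
  ring

/-- BB.half: the Ward identity of the boost on the surface below the plane -/
def HALF : Prop := ∀ (d d1 e R L ε : ℝ) χ y r X k, 0 < d → d / 2 < d1 → d ≤ R → 2 * R ≤ L →
  0 < ε → 2 * ε ≤ e → e ≤ R → Stp d χ → 0 < r → X ∈ c.N (dc y r) →
  closure (dc y r) ⊆ Box d e R → Gn (Bo c.Q) (X c.Om) k →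
  Pr (c.N (Wdg va vb (-(d1 • va)))) c.Om (k + X (GG c χ R L ε)) (star X (GG c χ R L ε))

variable {c}

theorem half (t : Tm c) : HALF c := by
  intro d d1 e R L ε χ y r X k hd h0 h1 h2 hε h3 h4 h hr hX hB hk
  have hR := hd.trans_le h1
  have w : ∀ z, be z < 0 → -d1 < al z → z ∈ Wdg va vb (-(d1 • va)) := fun z a b =>
    ⟨by simpa [md_va] using a, by simpa [md_vb] using neg_lt_iff_pos_add.1 b⟩
  rw [GG_eq c h hR hε (by linarith) (by linarith) (by linarith)]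
  refine t.f2 y r va vb _ _ _ (fun s => bst va vb (Real.exp s - 1) (Real.exp (-s) - 1)) (fun _ => 0)
    bf X k hr null_va null_vb (by simp [md_ab]) hX (chg hd h1 h2 hε h3 h4 h hB)
    (fun z hz => ?_) (fun z hz => ?_) (by funext m; simp [bst, GF.one]) rfl Grp.lor_bo
    (fun n z => ?_) (by simpa only [← Grp.bo_eq] using hk)
  · obtain ⟨-, a, b, -⟩ := hB (subset_closure hz)
    exact w z (by linarith) (by linarith)
  · obtain ⟨a, b⟩ := supp_ct h hε hz
    exact w z (by linarith) (by linarith)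
  · simp only [sim_bst, md_va, md_vb, bf, Pi.add_apply, Pi.sub_apply, Pi.smul_apply, smul_eq_mul]
    refine ((((((Real.hasDerivAt_exp 0).sub_const 1).mul_const (al z)).mul_const (va n)).const_add
      (z n)).add (((((hasDerivAt_neg (0 : ℝ)).exp).sub_const 1).mul_const (be z)).mul_const
        (vb n))).congr_deriv ?_
    rw [neg_zero, Real.exp_zero]
    ring

end half

/-! ## the master identity, domains -/

section base

variable (c : Base D)

/-- BB.mi: the master identity -/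
def MI : Prop := ∀ (d1 r : ℝ) (X X' : Completion D →L[ℂ] Completion D) (G G' : Completion D),
  0 ≤ d1 → 0 < r → X ∈ c.N (Rc r (d1 • va)) → X' ∈ c.N (Rc r (d1 • va)) → Dm c.SK G →
  Dm c.SK G' →
  Reg c (X c.Om) → Dm (Bo c.Q) (star X' c.Om) → Dm c.SK (star X' c.Om) →
  Pr (c.N (Wdg va vb (-(d1 • va)))) c.Om (gen (Bo c.Q) (X c.Om) + X G) (star X G) →
  Pr (c.N (Wdg va vb (-(d1 • va)))) c.Om (gen (Bo c.Q) (star X' c.Om) + star X' G') (X' G') →
  inner ℂ (c.J (star X' c.Om)) (gen c.SK (X c.Om)) =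
    I * inner ℂ (gen c.SK G) (jconj c.J X' (X c.Om)) +
    I * inner ℂ (gen c.SK G') (c.J (star X (c.J (star X' c.Om)))) -
    I * inner ℂ (G - c.J G') (jconj c.J X' (gen c.SK (X c.Om))) +
    I * inner ℂ (star X (c.J (gen c.SK (star X' c.Om)))) (G - c.J G')

/-- BB.dom: domains, uniformly under small translations along `b` -/
def DOM : Prop := ∀ (u0 u1 d0 d1 : ℝ) y r X, u1 < u0 → 0 ≤ d1 → d1 < d0 → 0 < r →
  dc y r ⊆ {z | be z < -u0 ∧ d0 < al z} → X ∈ c.N (dc y r) → Sm c X →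
  ∃ r' N : ℝ, 0 < r' ∧ (∀ u ∈ Set.Icc (-u1) u1,
    Pb c.Q (-u) * X * Pb c.Q u ∈ c.N (Rc r' (d1 • va)) ∧ Reg c (Pb c.Q (-u) (X c.Om)) ∧
    Qb c (gen c.SK (Pb c.Q (-u) (X c.Om))) N) ∧
    ContinuousOn (fun u => gen c.SK (Pb c.Q (-u) (X c.Om))) (Set.Icc (-u1) u1)

/-- BB.lip: stability of the form domain of `P_b` -/
structure LIP : Prop where
  op : ∀ X, Sm c X → ∃ C : ℝ, ∀ u v N, Qb c v N → Qb c ((Pb c.Q (-u) * X * Pb c.Q u) v) (C * N)
  j : ∃ C : ℝ, ∀ v N, Qb c v N → Qb c (c.J v) (C * N)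

end base

section mi

open Vale.Agent.P132 (jconj_apply)

/-- conjugation by `exp (i t K)` for small `t` -/
lemma mem_S (g : GRP c) {r d t : ℝ} (hr : 0 < r) (ht : t ≤ r) {X : Completion D →L[ℂ] Completion D}
    (h : X ∈ c.N (Rc r (d • va))) : c.SK (-t) * X * c.SK t ∈ c.N (Rc (r - t) (d • va)) := by
  have h1 := g.mem_ut h (-(d • va)) (O' := Rc r 0) fun z hz => by
    simpa only [Rc, Set.mem_setOf_eq, sub_zero, ← sub_eq_add_neg] using hz
  have h2 := g.mem_ut ((g.geo r (r - t) _ hr.le (sub_nonneg.2 ht)).1 h1) (d • va)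
    (O' := Rc (r - t) (d • va)) fun z hz => by
      simpa only [Rc, Set.mem_setOf_eq, sub_zero, add_sub_cancel_right] using hz
  have e1 : ∀ s, Ut c.Q (d • va) * c.SK s = c.SK s * Ut c.Q (d • va) := g.pa_S d
  rw [neg_neg, sub_sub_cancel_left, sub_sub_cancel] at h2
  simp only [← mul_assoc] at h2
  rwa [e1, mul_assoc _ (Ut c.Q _) (Ut c.Q (-_)), g.ut_inv, mul_one, mul_assoc _ _ (c.SK t), e1,
    ← mul_assoc, mul_assoc _ (Ut c.Q _) (Ut c.Q (-_)), g.ut_inv, mul_one] at h2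

lemma mem_Z (g : GRP c) (j : JC c) {r d : ℝ} (hr : 0 < r) {X : Completion D →L[ℂ] Completion D}
    (h : X ∈ c.N (Rc r (d • va))) : ∀ᶠ t in 𝓝 (0 : ℝ), c.SK t * jconj c.J X * c.SK (-t) ∈
      (c.N (Wdg va vb (-(d • va)))).commutant := by
  have h0 : 0 < GF.mdot va vb := by rw [g.nab]; exact one_pos
  filter_upwards [Iio_mem_nhds hr] with t ht
  have h1 := j.alg va vb _ g.na g.nb h0 _ (c.N_mono (fun z hz => rc_wdg
    (sub_nonneg.2 (le_of_lt ht)) hz) _ (mem_S g hr (le_of_lt ht) h))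
  have e : jconj c.J (c.SK (-t) * X * c.SK t) = c.SK t * jconj c.J X * c.SK (-t) := by
    ext z
    simp only [jconj_apply, ContinuousLinearMap.mul_apply, j.S, neg_neg]
  rw [j.dual va vb _ g.na g.nb h0, ← e]
  refine c.N_mono ?_ _ h1
  rintro _ ⟨z, ⟨h2, h3⟩, rfl⟩
  simp only [Wdg, Set.mem_setOf_eq, md_va, md_vb, al_sub, be_sub, al_jr, be_jr, al_neg, be_neg,
    al_smul, be_smul, al_va, be_va] at h2 h3 ⊢
  constructor <;> linarith

/-- **sub-row BB.mi** -/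
theorem mi (t : Tm c) : MI c.toBase := by
  intro d r X X' G G' hd hr hX hX' hG hG' ⟨h1, h2, h3, h4⟩ h5 h6 p1 p2
  have g := t.grp
  have j := t.jc
  have hs : Rc r (d • va) ⊆ Wdg va vb (-(d • va)) := fun z hz => by
    obtain ⟨h2, h3⟩ := rc_wdg hr.le hz
    simp only [Wdg, Set.mem_setOf_eq, md_va, md_vb, al_sub, be_sub, al_neg, be_neg,
      al_smul, be_smul, al_va, be_va] at h2 h3 ⊢
    constructor <;> linarith
  have k1 := h6.gn.anti_neg c.J fun t => j.S t _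
  have k2 := h2.gn.anti_neg c.J fun t => j.S t _
  have b1 := h5.gn.anti_pos c.J (W' := Bo c.Q) fun t => by
    have := c.E.J_U (-t / (2 * Real.pi)) (star X' c.Om)
    rwa [c.bw, c.bw, show -(2 * Real.pi * (-t / (2 * Real.pi))) = t by field_simp] at this
  have e1 := mi_der c.ugK c.K_vac (c.N_mono hs _ hX) (mem_Z g j hr hX') p1 hG.gn h2.gn
    (k1.cast (by rw [jconj_star _ c.J_J, jconj_apply, c.J_Om]) rfl)
  have e2 := mi_der c.ugK c.K_vac (c.N_mono hs _ (star_mem hX')) (mem_Z g j hr (star_mem hX))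
    (p2.cast rfl (by rw [star_star])) hG'.gn h6.gn
    (k2.cast (by rw [jconj_star _ c.J_J, star_star, jconj_apply, c.J_Om]) rfl)
  have e3 := g.ugB.symm b1 h4
  have e4 := c.ugK.symm k1 h3.gn
  have e5 := J_left c.J c.J_J (gen c.SK (X c.Om)) (gen (Bo c.Q) (star X' c.Om))
  have e6 := J_inner c.J G' (X' (c.J (gen c.SK (X c.Om))))
  have e7 := J_right c.J c.J_J G' (star X (c.J (gen c.SK (star X' c.Om))))
  simp only [star_star, jconj_apply, inner_sub_left, inner_sub_right, inner_neg_left,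
    inner_smul_right] at e1 e2 e3 ⊢
  linear_combination -I * e1 - I * e2 + I * e5 - I * e4 + I * e3 - I * e6 - I * e7 +
    inner ℂ (c.J (star X' c.Om)) (gen c.SK (X c.Om)) * Complex.I_mul_I

end mi

section dom

open Dom (Nice Sv nice ex_cone)

lemma sv_of (g : GRP c) {X} (h : Sm c X) : Sv (Bo c.Q) (Pb c.Q) (X c.Om) := by
  have := ((ContinuousLinearMap.apply ℂ (Completion D) c.Om).restrictScalars ℝ).contDiff.comp h
  refine (congrArg (ContDiff ℝ ∞) (funext fun q => ?_)).mp this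
  simp only [Function.comp_apply, ContinuousLinearMap.coe_restrictScalars',
    ContinuousLinearMap.apply_apply, ContinuousLinearMap.mul_apply, pb_om g, bo_om g]

lemma pb_bo (g : GRP c) (s t : ℝ) (v : Completion D) :
    Pb c.Q s (Bo c.Q t v) = Bo c.Q t (Pb c.Q (Real.exp t * s) v) := by
  have := DFunLike.congr_fun (g.bo_pb t (Real.exp t * s)) v
  rw [← mul_assoc, ← Real.exp_add, neg_one_mul, neg_add_cancel, Real.exp_zero, one_mul] at this
  exact this.symm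

lemma nice_of (g : GRP c) {X} (h : Sm c X) :
    Nice (Bo c.Q) (Pb c.Q) fun u => Pb c.Q (-u) (X c.Om) :=
  nice (sv_of g h) g.ugB g.ugPb (pb_bo g)

variable {φ φ' : ℝ → Completion D} {r : ℝ} {S : Set ℝ}

lemma reg (t : Tm c) (hr : 0 < r) (n : Nice (Bo c.Q) (Pb c.Q) φ)
    (n' : Nice (Bo c.Q) (Pb c.Q) φ') {u : ℝ}
    (p : Pr (c.N (Rc r 0)) c.Om (φ u) (φ' u)) : Reg c (φ u) := by
  obtain ⟨C, hC⟩ := t.kd.a r hr
  have k := (t.kd.a2 r 0 _ _ le_rfl hr p (n.db u) (n'.db u)).2 (n.dbb u)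
  exact ⟨n.db u, (hC _ _ p (n.db u)).1, k.1, k.2⟩

lemma contOn (t : Tm c) (hr : 0 < r) (n : Nice (Bo c.Q) (Pb c.Q) φ)
    (n' : Nice (Bo c.Q) (Pb c.Q) φ')
    (p : ∀ u ∈ S, Pr (c.N (Rc r 0)) c.Om (φ u) (φ' u)) :
    ContinuousOn (fun u => gen c.SK (φ u)) S := fun v hv => by
  obtain ⟨C, hC⟩ := t.kd.a r hr
  have h0 : Continuous fun u => C * (‖φ u - φ v‖ + ‖φ' u - φ' v‖ +
      ‖gen (Bo c.Q) (φ u) - gen (Bo c.Q) (φ v)‖) :=
    continuous_const.mul (((n.c0.sub continuous_const).norm.add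
      (n'.c0.sub continuous_const).norm).add (n.cb.sub continuous_const).norm)
  have h1 := (h0.tendsto v).mono_left (nhdsWithin_le_nhds (s := S))
  simp only [sub_self, norm_zero, add_zero, mul_zero] at h1
  refine tendsto_iff_norm_sub_tendsto_zero.2 (squeeze_zero' (.of_forall fun _ => norm_nonneg _)
    (eventually_mem_nhdsWithin.mono fun u hu => ?_) h1)
  have := (hC _ _ ((p u hu).sub (p v hv)) ((n.db u).sub (n.db v))).2
  rwa [gen_sub (hC _ _ (p u hu) (n.db u)).1 (hC _ _ (p v hv) (n.db v)).1,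
    gen_sub (n.db u) (n.db v)] at this

lemma bound (t : Tm c) (hr : 0 < r) (n : Nice (Bo c.Q) (Pb c.Q) φ)
    (n' : Nice (Bo c.Q) (Pb c.Q) φ') (hS : IsCompact S)
    (p : ∀ u ∈ S, Pr (c.N (Rc r 0)) c.Om (φ u) (φ' u)) :
    ∃ N, ∀ u ∈ S, Qb c (gen c.SK (φ u)) N := by
  obtain ⟨C, hC⟩ := t.a2.abs r hr
  obtain ⟨N1, h1⟩ := hS.exists_bound_of_continuousOn (contOn t hr n n' p)
  have h0 : Continuous fun u => C * (‖φ u‖ + ‖φ' u‖ + ‖gen (Pb c.Q) (φ u)‖ +
      ‖gen (Pb c.Q) (φ' u)‖ + ‖gen (Bo c.Q) (φ u)‖ + ‖gen (Bo c.Q) (φ' u)‖ +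
      ‖gen (Pb c.Q) (gen (Bo c.Q) (φ u))‖ + ‖gen (Bo c.Q) (gen (Bo c.Q) (φ u))‖) ^ 2 :=
    continuous_const.mul ((((((((n.c0.norm.add n'.c0.norm).add n.cp.norm).add n'.cp.norm).add
      n.cb.norm).add n'.cb.norm).add n.cpb.norm).add n.cbb.norm).pow 2)
  obtain ⟨N2, h2⟩ := hS.exists_bound_of_continuousOn h0.continuousOn
  refine ⟨|N1| + |N2| + 1, fun u hu => ⟨(h1 u hu).trans ?_, (hC _ _ (p u hu) (n.dp u) (n'.dp u)
    (n.db u) (n'.db u) (n.dpb u) (n.dbb u)).trans (ENNReal.ofReal_le_ofReal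
      ((le_abs_self _).trans ((h2 u hu).trans ?_)))⟩⟩
  · linarith [le_abs_self N1, abs_nonneg N2]
  · nlinarith [le_abs_self N2, abs_nonneg N2, abs_nonneg N1]

theorem dom (t : Tm c) : DOM c.toBase := fun u0 u1 d0 d1 y r X hu h1 hd _ hs hX sX => by
  have g := t.grp
  obtain ⟨r', hr, hc⟩ := ex_cone hu h1 hd hs
  have n := nice_of g sX
  have n' := nice_of g (Sm.star g sX)
  have p : ∀ u ∈ Set.Icc (-u1) u1,
      Pr (c.N (Rc r' 0)) c.Om (Pb c.Q (-u) (X c.Om)) (Pb c.Q (-u) (star X c.Om)) := fun u hu =>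
    g.pr_ut (Pr.of_mem hX) _ fun z hz => (hc u hu z hz).1
  obtain ⟨N, hN⟩ := bound t hr n n' isCompact_Icc p
  refine ⟨r', N, hr, fun u hu => ⟨?_, reg t hr n n' (p u hu), hN u hu⟩, contOn t hr n n' p⟩
  have := g.mem_ut hX ((-u) • vb) fun z hz => (hc u hu z hz).2
  rwa [← neg_smul, neg_neg] at this

end dom

lemma qb_abs (b : BAS c.toBase) (v : Completion D) :
    ∫⁻ p, ENNReal.ofReal |GF.mdot p vb| ∂c.bt.nu v = c.qb v :=
  lintegral_congr_ae ((b.cone v).mono fun p hp => by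
    simp only [md_vb', abs_of_nonneg ((cone_iff p).1 hp).1])

lemma qb_lip (g : GRP c) (b : BAS c.toBase) {T : Completion D → Completion D} {M L N : ℝ} {y : V}
    (hy : y = vb ∨ y = -vb) (hM : 0 ≤ M) (hL : 0 ≤ L) (hT : ∀ v w, ‖T v - T w‖ ≤ M * ‖v - w‖)
    {v : Completion D} (h : Qb c v N) (h1 : ‖T v‖ ≤ M * ‖v‖) (h2 : ∀ s ∈ Set.Ioc (0 : ℝ) 1,
      ‖Ut c.Q (s • y) (T v) - T (Ut c.Q (s • vb) v)‖ ≤ L * ‖v‖ * s) :
    Qb c (T v) (8 * (M + L) * N) := by
  have N0 : 0 ≤ N := (norm_nonneg _).trans h.1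
  have h3 := h1.trans (mul_le_mul_of_nonneg_left h.1 hM)
  have a1 := SN.Qn_lip (U := fun y z => Ut c.Q y z) (U' := fun y z => Ut c.Q y z) hT h2
  have a2 := c.bt.Qn_le SN.isPair_mdot vb v
  have a3 := c.bt.le_Qn SN.isPair_mdot vb (T v)
  have a4 : SN.Qn (fun y z => Ut c.Q y z) y (T v) = SN.Qn (fun y z => Ut c.Q y z) vb (T v) := by
    rcases hy with rfl | rfl
    exacts [rfl, SN.Qn_neg g.urT vb _]
  rw [qb_abs b] at a2 a3
  rw [a4] at a1
  refine ⟨h3.trans (by nlinarith [mul_nonneg hM N0, mul_nonneg hL N0]), a3.trans ?_⟩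
  calc _ ≤ ENNReal.ofReal (‖T v‖ ^ 2) + ENNReal.ofReal 3 * (ENNReal.ofReal (2 * (L * ‖v‖) ^ 2) +
        ENNReal.ofReal (2 * M ^ 2) * (ENNReal.ofReal 9 * ENNReal.ofReal (N ^ 2))) := by
        simp only [ENNReal.ofReal_ofNat]
        gcongr
        exact a1.trans (by gcongr; exact a2.trans (by gcongr; exact h.2))
    _ ≤ _ := by
        rw [← ENNReal.ofReal_mul (by norm_num), ← ENNReal.ofReal_mul (by positivity),
          ← ENNReal.ofReal_add (by positivity) (by positivity), ← ENNReal.ofReal_mul (by norm_num),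
          ← ENNReal.ofReal_add (by positivity) (by positivity)]
        refine ENNReal.ofReal_le_ofReal ?_
        have b1 := pow_le_pow_left₀ (norm_nonneg _) h3 2
        have b2 := pow_le_pow_left₀ (by positivity) (mul_le_mul_of_nonneg_left h.1 hL) 2
        nlinarith [mul_nonneg (mul_nonneg hM hL) (sq_nonneg N), sq_nonneg (M * N),
          sq_nonneg (L * N)]

/-- **sub-row BB.lip** -/
theorem lip (t : Tm c) : LIP c.toBase where
  op X hX := by
    have g := t.grp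
    have h1 : ContDiff ℝ 1 fun s : ℝ => Pb c.Q s * X * Pb c.Q (-s) := by
      have := (hX.of_le (by simp : (1 : WithTop ℕ∞) ≤ _)).comp
        (contDiff_const.prodMk contDiff_id : ContDiff ℝ 1 fun s : ℝ => ((0 : ℝ), s))
      simpa only [Function.comp_def, neg_zero, g.ugB.zero', one_mul, mul_one] using this
    obtain ⟨L, hL⟩ := h1.contDiffOn.exists_lipschitzOnWith one_ne_zero (convex_Icc 0 1) isCompact_Icc
    have h2 : ∀ u z, ‖(Pb c.Q (-u) * X * Pb c.Q u) z‖ ≤ ‖X‖ * ‖z‖ := fun u z => by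
      change ‖Pb c.Q (-u) (X (Pb c.Q u z))‖ ≤ _
      rw [g.ugPb.nrm, ← g.ugPb.nrm u z]
      exact X.le_opNorm _
    refine ⟨8 * (‖X‖ + L), fun u v N h => qb_lip g t.bas (.inl rfl) (norm_nonneg _) L.2
      (fun v w => by rw [← map_sub]; exact h2 u _) h (h2 u v) fun s hs => ?_⟩
    have h3 := hL.norm_sub_le ⟨hs.1.le, hs.2⟩ ⟨le_rfl, zero_le_one⟩
    have e : Pb c.Q s ((Pb c.Q (-u) * X * Pb c.Q u) v) - (Pb c.Q (-u) * X * Pb c.Q u) (Pb c.Q s v) =
        Pb c.Q (-u) ((Pb c.Q s * X * Pb c.Q (-s) - X) (Pb c.Q s (Pb c.Q u v))) := by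
      simp only [ContinuousLinearMap.sub_apply, ContinuousLinearMap.mul_apply, map_sub,
        g.ugPb.neg_left]
      rw [g.ugPb.comm s, g.ugPb.comm s u]
    rw [neg_zero, g.ugPb.zero', one_mul, mul_one, sub_zero, Real.norm_of_nonneg hs.1.le] at h3
    refine (congrArg norm e).trans_le ?_
    rw [g.ugPb.nrm, mul_right_comm]
    refine (ContinuousLinearMap.le_opNorm _ _).trans ?_
    rw [g.ugPb.nrm, g.ugPb.nrm]
    exact mul_le_mul_of_nonneg_right h3 (norm_nonneg _)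
  j := ⟨8 * (1 + 0), fun v N h => qb_lip t.grp t.bas (T := c.J) (.inr rfl) zero_le_one le_rfl
    (fun v w => by rw [← map_sub, c.J.norm_map, one_mul]) h (by rw [c.J.norm_map, one_mul])
    fun s hs => by
      have e : jr (s • vb) = s • -vb := null_ext (by simp) (by simp) (by simp)
      rw [t.jc.ut, e, sub_self, norm_zero, zero_mul, zero_mul]⟩

/-! ## the total surface, by conservation -/

section dec

open Dec (gm ph fc tst_gm tst_ph da_cut0 slab_sum ng_dlt dlt_step edge_step)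

variable {χ : ℝ → ℝ} {d R L ε : ℝ}

variable (c) in
/-- the total surface at scale one -/
def Gm (R ε : ℝ) : Completion D := -Tx c va (cut0 R) (dlt ε (deriv ps)) - Tx c vb (fc R) (edge R ε) -
  Tx c vb (fl (fc R)) fun t => ng (edge R ε) t + dil ε gm t

variable (c) in
/-- the flux through the gap -/
def Gp (χ : ℝ → ℝ) (R L ε : ℝ) : Completion D :=
  Tx c vb (fun y => da (fl (slab (opp χ) R L)) y + fl (face R L) y) (dil ε gm)

variable (c) in
/-- the total surface without the flux through the gap -/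
def Rs (χ : ℝ → ℝ) (R L ε : ℝ) : Completion D :=
  GG c χ R L ε - c.J (GG c (opp χ) R L ε) - Gp c χ R L ε

theorem tst_gp (h : Stp d χ) (r : 0 < R) (l : 0 < L) :
    Tst fun y => da (fl (slab (opp χ) R L)) y + fl (face R L) y :=
  cs_add (tst_da (tst_fl (tst_slab h.opp r l))) (tst_fl (tst_face r l))

theorem tst_eg (r : 0 < R) (e : 0 < ε) : Tst fun t => ng (edge R ε) t + dil ε gm t :=
  cs_add (tst_ng (tst_edge r e)) (tst_dil tst_gm e.ne')

theorem perp_Gm (G : GRP c) (r : 0 < R) (e : 0 < ε) : inner ℂ c.Om (Gm c R ε) = 0 := by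
  have tf : Tst (fc R) := tst_face0 r
  rw [Gm, inner_sub_right, inner_sub_right, inner_neg_right,
    perp_Tx G (tst_cut0 r) (tst_dlt tst_dps e.ne'), perp_Tx G tf (tst_edge r e),
    perp_Tx G (tst_fl tf) (tst_eg r e)]
  simp

theorem Gm_step (G : GRP c) (r : 0 < R) {n : ℕ} (hn : ep n ≤ R) :
    Gm c R (ep (n + 1)) - Gm c R (ep n) =
      ∑ i, Tx c (ex i) (fun y => -di i (cut0 R) y) (dil (ep n) ph) := by
  have t0 := tst_cut0 r
  have tf : Tst (fc R) := tst_face0 r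
  have tf' := tst_fl tf
  have e := ep_pos n
  have e1 : ep (n + 1) = ep n * (1 / 2) ^ 22 := by unfold ep; ring
  have th := tst_dil tst_ph e.ne'
  have e2 : (fun t => ng (edge R (ep n * (1 / 2) ^ 22)) t + dil (ep n * (1 / 2) ^ 22) gm t) =
      fun t => (ng (edge R (ep n)) t + dil (ep n) gm t) - dil (ep n) ph t := funext fun t => by
    simp only [ng, edge_step e hn, dil, Dec.gm, Dec.ph, div_div, neg_div]
    ring
  have k := cons G t0 th
  rw [da_cut0 r, Tx_sub_g tf tf' th] at k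
  simp only [Tx_neg_g (tst_di _ t0) th, Finset.sum_neg_distrib, ← k]
  rw [e1, Gm, Gm, e2, funext (edge_step e hn), dlt_step,
    Tx_add_p t0 (tst_dlt tst_dps e.ne') (cs_deriv th),
    Tx_add_p tf (tst_edge r e) th, Tx_sub_p tf' (tst_eg r e) th]
  abel

theorem Rs_eq (T : TB c) (h : Stp d χ) (hd : 0 < d) (hR : d ≤ R) (hL : R ≤ L) (e : 0 < ε) :
    Rs (c.sh (Real.log L / 2)) χ R L ε = Usc c.Q L 1 (Gm c R ε) + ∑ i,
      Tx (c.sh (Real.log L / 2)) (ex i) (fun y => -di i (fl (slab (opp χ) R L)) y) (dil ε gm) := by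
  have G := T.grp
  have j := (T.all (Real.log L / 2)).jc
  have r := hd.trans_le hR
  have t0 := tst_cut0 r
  have tf : Tst (fc R) := tst_face0 r
  have tf' := tst_fl tf
  have tp := tst_dlt tst_dps e.ne'
  have tg := tst_dil tst_gm e.ne'
  have l := r.trans_le hL
  have s1 := tst_slab h r l
  have s2 := tst_slab h.opp r l
  have s3 := tst_fl s2
  have f1 := tst_face r l
  have f2 := tst_fl f1
  have e1 : kL (cut0 R) L = fun y => slab χ R L y + fl (slab (opp χ) R L) y :=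
    funext fun y => (slab_sum h hd (hR.trans hL) y).symm
  have e2 : (fun y => L⁻¹ * kL (fc R) L y) = face R L := rfl
  have e3 : (fun y => L⁻¹ * kL (fl (fc R)) L y) = fl (face R L) :=
    funext fun y => by simp [fl, face, kL, fc, neg_div]
  have k := cons (T.all (Real.log L / 2)).grp s3 tg
  simp only [Tx_neg_g (tst_di _ s3) tg, Finset.sum_neg_distrib, ← k]
  rw [Rs, GG, GG, Gm, Gp, map_sub, map_sub, map_sub, map_neg, map_neg, J_Tx j s2 tp,
    J_Tx j f1 (tst_edge r e), jr_va, jr_vb, Tx_neg_l s3 (tst_ng tp),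
    Tx_neg_l f2 (tst_ng (tst_edge r e)),
    usc_Tx_a G l t0 tp, usc_Tx_b G l tf (tst_edge r e), usc_Tx_b G l tf' (tst_eg r e), e1, e2, e3,
    ng_dlt, Tx_add_p s3 tp (cs_deriv tg), Tx_add_g s1 s3 tp,
    Tx_add_p f2 (tst_ng (tst_edge r e)) tg, Tx_add_g (tst_da s3) f2 tg]
  abel

end dec

/-! ## averages of vectors in the form domain of `P_b` -/

section av

open Cr (av_int av_lim lim_half)

variable {ρ φ : ℝ → ℝ} {L N : ℝ} {V : Completion D}

/-- the scalings that commute with `P_b` preserve its form -/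
theorem qb_usc (hL : 0 < L) (w : Completion D) : c.qb (Usc c.Q L 1 w) = c.qb w := by
  have h : (c.nu (Usc c.Q L 1 w)).map (Br.dsc L 1) = c.nu w := by
    rw [Br.Usc_apply _ hL one_pos]
    exact Kin.nu_U c.bR c.ct (Br.sc_pos hL one_pos) (Br.scL_lor hL one_pos) 0 w
  rw [Base.qb, Base.qb, ← h, lintegral_map (by fun_prop) (Br.dsc_meas L 1)]
  simp only [Br.al_dsc hL one_pos, one_mul]

theorem Qb_usc (G : GRP c) (hL : 0 < L) {w : Completion D} (h : Qb c w N) :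
    Qb c (Usc c.Q L 1 w) N := ⟨(usc_norm G _ _ w).trans_le h.1, (qb_usc hL w).trans_le h.2⟩

theorem inner_usc (G : GRP c) (hL : 0 < L) (w z : Completion D) :
    inner ℂ (Usc c.Q L 1 w) z = inner ℂ w (Usc c.Q L⁻¹ 1 z) := by
  have := G.star_sc hL one_pos
  rw [inv_one] at this
  rw [← this, ContinuousLinearMap.star_eq_adjoint, ContinuousLinearMap.adjoint_inner_right]

/-- averages of bounded families in the form domain -/
def Av (c : Base D) (V : Completion D) : Prop := ∃ (ρ : ℝ → ℝ) (S : Set ℝ) (N : ℝ)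
  (v : ℝ → Completion D), Tst ρ ∧ tsupport ρ ⊆ S ∧ Integrable (fun u => (ρ u : ℂ) • v u) ∧
    (∀ u ∈ S, Qb c (v u) N) ∧ V = ∫ u, (ρ u : ℂ) • v u

theorem Av.le {c : Base D} (h : Av c V) : ∃ M, ∀ w K, (∀ v N, Qb c v N → ‖inner ℂ w v‖ ≤ K * N) →
    ‖inner ℂ w V‖ ≤ M * K := by
  obtain ⟨ρ, S, N, v, hρ, hs, hi, hq, rfl⟩ := h
  refine ⟨(∫ u, |ρ u|) * N, fun w K h => ?_⟩
  rw [← Cr.av_eq hi, mul_assoc, mul_comm N]
  exact Cr.av_le hρ hs fun u hu => h _ _ (hq u hu)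

theorem Av.lim {c : Base D} (h : Av c V) {w : ℕ → Completion D} {K : ℝ}
    (hb : ∀ n v N, Qb c v N → ‖inner ℂ (w n) v‖ ≤ K * N)
    (h0 : ∀ v N, Qb c v N → Tendsto (fun n => inner ℂ (w n) v) atTop (𝓝 0)) :
    Tendsto (fun n => inner ℂ (w n) V) atTop (𝓝 0) := by
  obtain ⟨ρ, S, N, v, hρ, hs, hi, hq, rfl⟩ := h
  exact av_lim hρ hs hi (fun n u hu => hb n _ _ (hq u hu)) fun u hu => h0 _ _ (hq u hu)

theorem tr_sum (t : Tm c) {g : Fin 2 → P3 → ℝ} (hg : ∀ i, Tst (g i)) (hφ : Tst φ) :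
    ∃ C : ℝ, 0 ≤ C ∧ ∀ n w N, Qb c w N →
      ‖inner ℂ (∑ i, Tx c (ex i) (g i) (dil (ep n) φ)) w‖ ≤ C * (3 / 4) ^ n * N := by
  choose C hC using fun i => fl_tr t i (hg i) hφ
  refine ⟨∑ i, |C i|, by positivity, fun n w N h => ?_⟩
  rw [sum_inner, Finset.sum_mul, Finset.sum_mul]
  refine norm_sum_le_of_le _ fun i _ => (hC i _ (ep_mem n) w N h).trans ?_
  exact mul_le_mul_of_nonneg_right (mul_le_mul (le_abs_self _) ((rt_ep n).trans (half_le n))
    (Real.sqrt_nonneg _) (abs_nonneg _)) h.nonneg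

theorem tr_av (t : Tm c) (h : Av c V) {g : Fin 2 → P3 → ℝ} (hg : ∀ i, Tst (g i)) (hφ : Tst φ) :
    ∃ C : ℝ, ∀ L, 0 < L → ∀ n,
      ‖inner ℂ (Usc c.Q L 1 (∑ i, Tx c (ex i) (g i) (dil (ep n) φ))) V‖ ≤ C * (3 / 4) ^ n := by
  obtain ⟨C, -, hC⟩ := tr_sum t hg hφ
  obtain ⟨M, hM⟩ := h.le
  refine ⟨M * C, fun L hL n => (hM _ _ fun v N q => ?_).trans_eq (mul_assoc _ _ _).symm⟩
  rw [inner_usc t.grp hL]
  exact hC n _ _ (Qb_usc t.grp (inv_pos.2 hL) q)

end av

/-! ## the master identity, averaged along `b` -/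

variable (c) in
/-- the averaged master identity -/
def Key (χ ρ : ℝ → ℝ) (R L ε : ℝ) (w z V V' : Completion D) (k : ℂ) : Prop := k =
  I * inner ℂ (Rb c ρ (gen c.SK (GG c χ R L ε))) w +
    I * inner ℂ (Rb c (ng ρ) (gen c.SK (GG c (opp χ) R L ε))) z -
    I * inner ℂ (GG c χ R L ε - c.J (GG c (opp χ) R L ε)) V +
    I * inner ℂ V' (GG c χ R L ε - c.J (GG c (opp χ) R L ε))

open Co in
theorem key_pw (t : Tm c) {u0 d0 r1 r2 ra rb u e R L ε : ℝ} {y1 y2 : V}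
    {X X' : Completion D →L[ℂ] Completion D} {χ : ℝ → ℝ} (dat : Dat c u0 d0 y1 r1 y2 r2 X X')
    (hχ : Stp d0 χ) (hdR : d0 ≤ R) (hL : 2 * R ≤ L) (hε : 0 < ε) (he : 2 * ε ≤ e) (heR : e ≤ R)
    (b1 : closure (dc (y1 + (-u) • vb) r1) ⊆ Box d0 e R)
    (b2 : closure (dc (y2 + (- -u) • vb) r2) ⊆ Box d0 e R) (hra : 0 < ra) (hrb : 0 < rb)
    (m1 : Pb c.Q (-u) * X * Pb c.Q u ∈ c.N (Rc ra ((3 * d0 / 4) • va)))
    (g1 : Reg c (Pb c.Q (-u) (X c.Om)))
    (m2 : Pb c.Q u * star X' * Pb c.Q (-u) ∈ c.N (Rc rb ((3 * d0 / 4) • va)))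
    (g2 : Reg c (Pb c.Q u (star X' c.Om))) :
    inner ℂ (star (jconj c.J X') c.Om) (gen (c.Ky (u • vb)) (X c.Om)) =
      I * inner ℂ (gen c.SK (GG c χ R L ε)) (Pb c.Q (-u) (jconj c.J X' (X c.Om))) +
      I * inner ℂ (gen c.SK (GG c (opp χ) R L ε))
        (Pb c.Q u (c.J (star X (star (jconj c.J X') c.Om)))) -
      I * inner ℂ (GG c χ R L ε - c.J (GG c (opp χ) R L ε))
        (Pb c.Q (-u) (jconj c.J X' (Pb c.Q u (gen c.SK (Pb c.Q (-u) (X c.Om)))))) +
      I * inner ℂ (Pb c.Q (-u) (star X (Pb c.Q u (c.J (gen c.SK (Pb c.Q u (star X' c.Om)))))))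
        (GG c χ R L ε - c.J (GG c (opp χ) R L ε)) := by
  have G := t.grp
  have j := t.jc
  have hd := dat.hd
  have hR : 0 < R := hd.trans_le hdR
  have hL0 : 0 < L := by linarith
  set Y := jconj c.J X' with hY
  set φ := X c.Om with hφ
  set φ' := star X' c.Om with hφ'
  have eψ : star Y c.Om = c.J φ' := star_Y X'
  set G1 := GG c χ R L ε
  set G2 := GG c (opp χ) R L ε
  have e1 : (Pb c.Q (-u) * X * Pb c.Q u) c.Om = Pb c.Q (-u) φ := by
    simp only [ContinuousLinearMap.mul_apply, pb_om G, hφ]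
  have e0 : star (Pb c.Q u * X' * Pb c.Q (-u)) = Pb c.Q u * star X' * Pb c.Q (-u) := by
    simp only [star_mul, G.ugPb.star_eq, neg_neg, mul_assoc]
  have e0' : star (Pb c.Q (-u) * X * Pb c.Q u) = Pb c.Q (-u) * star X * Pb c.Q u := by
    simp only [star_mul, G.ugPb.star_eq, neg_neg, mul_assoc]
  have e2 : (Pb c.Q u * star X' * Pb c.Q (-u)) c.Om = Pb c.Q u φ' := by
    simp only [ContinuousLinearMap.mul_apply, pb_om G, hφ']
  have n1 : Pb c.Q (-u) * X * Pb c.Q u ∈ c.N (dc (y1 + (-u) • vb) r1) := by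
    have := G.mem_ut dat.m1 ((-u) • vb) fun z hz => mem_dc.2 hz
    rwa [← neg_smul, neg_neg] at this
  have n2 : Pb c.Q u * star X' * Pb c.Q (-u) ∈ c.N (dc (y2 + (- -u) • vb) r2) := by
    have := G.mem_ut (star_mem dat.m2) ((- -u) • vb) fun z hz => mem_dc.2 hz
    rwa [← neg_smul, neg_neg (-u), show Ut c.Q ((- -u) • vb) = Pb c.Q u by rw [neg_neg]; rfl]
      at this
  have h1 := half t d0 (3 * d0 / 4) _ R L ε χ _ r1 _ _ hd (by linarith) hdR hL hε he heR hχ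
    dat.h1 n1 b1 (e1.symm ▸ g1.1.gn)
  have h2 := half t d0 (3 * d0 / 4) _ R L ε (opp χ) _ r2 _ _ hd (by linarith) hdR hL hε he heR
    hχ.opp dat.h2 n2 b2 (e2.symm ▸ g2.1.gn)
  have m2' : Pb c.Q u * X' * Pb c.Q (-u) ∈ c.N (Rc rb ((3 * d0 / 4) • va)) := by
    have := star_mem m2
    rwa [← e0, star_star] at this
  have := mi t (3 * d0 / 4) (min ra rb) _ _ G1 G2 (by positivity) (lt_min hra hrb)
    (c.N_mono (rc_sub (lt_min hra hrb).le (min_le_left _ _) _) _ m1)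
    (c.N_mono (rc_sub (lt_min hra hrb).le (min_le_right _ _) _) _ m2')
    (dm_GG t.kd hχ hR hL0 hε) (dm_GG t.kd hχ.opp hR hL0 hε) (e1.symm ▸ g1)
    (by rw [e0, e2]; exact g2.1) (by rw [e0, e2]; exact g2.2.1) h1
    (by rw [← e0, star_star] at h2; exact h2)
  rw [e0, e1, e2, e0', jconj_pb j G] at this
  have e3 : gen (c.Ky (u • vb)) φ = Pb c.Q u (gen c.SK (Pb c.Q (-u) φ)) := by
    have h : Ut c.Q (-(u • vb)) = Pb c.Q (-u) := by rw [← neg_smul]; rfl
    rw [G.gen_Ky _ (by rw [h]; exact g1.2.1), h]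
    rfl
  simp only [ContinuousLinearMap.mul_apply, J_pb j, pb_pb G, add_neg_cancel, neg_neg,
    G.ugPb.zero', ContinuousLinearMap.one_apply] at this
  rw [e3, eψ, G.ugPb.adj', this]

open Co in
theorem key (t : TB c) {u0 d0 r1 r2 : ℝ} {y1 y2 : V} {X X' : Completion D →L[ℂ] Completion D}
    {χ ρ : ℝ → ℝ} (dat : Dat c u0 d0 y1 r1 y2 r2 X X') (sX : Sm c X) (sX' : Sm c X')
    (hχ : Stp d0 χ) (hρ : Tst ρ) (hs : tsupport ρ ⊆ Set.Ioo (-u0) u0) :
    ∃ (R e : ℝ) (V V' : Completion D), d0 ≤ R ∧ 0 < e ∧ Av c V ∧ Av c V' ∧ ∀ L ε, 2 * R ≤ L →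
      0 < ε → ε ≤ e → All (fun c' => Key c' χ ρ R L ε (jconj c.J X' (X c.Om))
        (c.J (star X (star (jconj c.J X') c.Om))) V V' (∫ u, (ρ u : ℂ) *
          inner ℂ (star (jconj c.J X') c.Om) (gen (c.Ky (u • vb)) (X c.Om)))) c := by
  have G := t.grp
  have j := t.jc
  have hd := dat.hd
  obtain ⟨u1, hu1, hρ1⟩ := ex_u1 hρ hs
  obtain ⟨R, b1, b2, hdR, heR⟩ := ((ex_box (u1 := u1) dat.s1).and ((ex_box (u1 := u1) dat.s2).and
    ((eventually_ge_atTop d0).and (eventually_ge_atTop (u0 - u1))))).exists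
  have hR : 0 < R := hd.trans_le hdR
  obtain ⟨ra, Na, hra, da1, ca⟩ := dom t.toTm u0 u1 d0 (3 * d0 / 4) y1 r1 X hu1 (by positivity)
    (by linarith) dat.h1 dat.s1 dat.m1 sX
  obtain ⟨rb, Nb, hrb, db1, cb⟩ := dom t.toTm u0 u1 d0 (3 * d0 / 4) y2 r2 (star X') hu1 (by positivity)
    (by linarith) dat.h2 dat.s2 (star_mem dat.m2) (Sm.star G sX')
  obtain ⟨C1, l1⟩ := (lip t.toTm).op X' sX'
  obtain ⟨C2, l2⟩ := (lip t.toTm).op (star X) (Sm.star G sX)
  obtain ⟨Cj, lj⟩ := (lip t.toTm).j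
  set Y := jconj c.J X' with hY
  set φ := X c.Om with hφ
  set φ' := star X' c.Om with hφ'
  set w := Y φ with hw
  set w' := star X (star Y c.Om) with hw'
  let v : ℝ → Completion D := fun u => Pb c.Q (-u) (Y (Pb c.Q u (gen c.SK (Pb c.Q (-u) φ))))
  let v' : ℝ → Completion D := fun u =>
    Pb c.Q (-u) (star X (Pb c.Q u (c.J (gen c.SK (Pb c.Q u φ')))))
  have cb' : ContinuousOn (fun u => gen c.SK (Pb c.Q u φ')) (Icc (-u1) u1) := by
    have := cb.comp continuous_neg.continuousOn fun u hu => neg_mem hu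
    simpa only [Function.comp_def, neg_neg] using this
  have cv : ContinuousOn v (Icc (-u1) u1) := cont_on G.ugPb continuous_neg
    (Y.continuous.comp_continuousOn (cont_on G.ugPb continuous_id ca))
  have cv' : ContinuousOn v' (Icc (-u1) u1) := cont_on G.ugPb continuous_neg
    ((star X).continuous.comp_continuousOn (cont_on G.ugPb continuous_id
      (c.J.continuous.comp_continuousOn cb')))
  have qv : ∀ u ∈ Icc (-u1) u1, Qb c (v u) (Cj * (C1 * (Cj * Na))) := fun u hu => by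
    have := lj _ _ (l1 (-u) _ _ (lj _ _ (da1 u hu).2.2))
    simpa only [v, hY, P132.jconj_apply, J_pb j, neg_neg, ContinuousLinearMap.mul_apply] using this
  have qv' : ∀ u ∈ Icc (-u1) u1, Qb c (v' u) (C2 * (Cj * Nb)) := fun u hu => by
    have := l2 u _ _ (lj _ _ (db1 _ (neg_mem hu)).2.2)
    simpa only [v', neg_neg, ContinuousLinearMap.mul_apply] using this
  set k := ∫ u, (ρ u : ℂ) * inner ℂ (star Y c.Om) (gen (c.Ky (u • vb)) φ) with hk
  have iv := Cr.av_int hρ isCompact_Icc hρ1 cv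
  have iv' := Cr.av_int hρ isCompact_Icc hρ1 cv'
  refine ⟨R, (u0 - u1) / 2, _, _, hdR, by linarith, ⟨ρ, _, _, v, hρ, hρ1, iv, qv, rfl⟩,
    ⟨ρ, _, _, v', hρ, hρ1, iv', qv', rfl⟩, fun L ε hL hε he0 x => ?_⟩
  have he : 2 * ε ≤ u0 - u1 := by linarith
  change k = I * inner ℂ (Rb c ρ (gen c.SK _)) w + I * inner ℂ (Rb c (ng ρ) (gen c.SK _)) _ -
    I * inner ℂ (_ - c.J _) _ + I * inner ℂ _ (_ - c.J _)
  rw [← inner_conj_symm (∫ u, (ρ u : ℂ) • v' u), ← Cr.av_eq iv, ← Cr.av_eq iv']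
  set G1 := GG (c.sh x) χ R L ε
  set G2 := GG (c.sh x) (opp χ) R L ε
  have pw : ∀ u, (ρ u : ℂ) * inner ℂ (star Y c.Om) (gen (c.Ky (u • vb)) φ) =
      I * ((ρ u : ℂ) * inner ℂ (gen c.SK G1) (Pb c.Q (-u) w)) +
      I * ((ρ u : ℂ) * inner ℂ (gen c.SK G2) (Pb c.Q u (c.J w'))) -
      I * ((ρ u : ℂ) * inner ℂ (G1 - c.J G2) (v u)) +
      I * ((ρ u : ℂ) * inner ℂ (v' u) (G1 - c.J G2)) := fun u => by
    by_cases hu : u ∈ Icc (-u1) u1
    swap
    · simp [image_eq_zero_of_notMem_tsupport fun h => hu (hρ1 h)]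
    obtain ⟨m1, g1, -⟩ := da1 u hu
    obtain ⟨m2, g2, -⟩ := db1 _ (neg_mem hu)
    rw [neg_neg] at m2 g2
    rw [key_pw (t.all x) dat hχ hdR hL hε he heR (b1 u hu) (b2 _ (neg_mem hu)) hra hrb m1 g1 m2 g2]
    ring
  have i1 : Integrable fun u => (ρ u : ℂ) * inner ℂ (gen c.SK G1) (Pb c.Q (-u) w) :=
    int_on hρ hρ1 (ContinuousOn.inner (𝕜 := ℂ) continuousOn_const
      (cont_on G.ugPb continuous_neg continuousOn_const))
  have i2 : Integrable fun u => (ρ u : ℂ) * inner ℂ (gen c.SK G2) (Pb c.Q u (c.J w')) :=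
    int_on hρ hρ1 (ContinuousOn.inner (𝕜 := ℂ) continuousOn_const
      (cont_on G.ugPb continuous_id continuousOn_const))
  have i3 : Integrable fun u => (ρ u : ℂ) * inner ℂ (G1 - c.J G2) (v u) :=
    int_on hρ hρ1 (ContinuousOn.inner (𝕜 := ℂ) continuousOn_const cv)
  have i4 : Integrable fun u => (ρ u : ℂ) * inner ℂ (v' u) (G1 - c.J G2) :=
    int_on hρ hρ1 (ContinuousOn.inner (𝕜 := ℂ) cv' continuousOn_const)
  rw [hk, integral_congr_ae (Eventually.of_forall pw), int4 i1 i2 i3 i4, inner_Rb G hρ,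
    inner_Rb G (tst_ng hρ), ← integral_conj, ← integral_neg_eq_self fun u => (ng ρ u : ℂ) * _]
  simp only [ng, neg_neg, map_mul, Complex.conj_ofReal, inner_conj_symm]

end

end Vale.Agent.P352L.BL
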