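import Vale.Agent.P352L.BL4
import Vale.Agent.P352L.BL5

/-!
# P352L, row BB for the running member (helper68)
-/

set_option linter.all false

open MeasureTheory Filter Topology Set
open scoped SchwartzMap ComplexConjugate ENNReal ContDiff

namespace Vale.Agent.P352L.BL

open Vale.Agent.P352 Vale.Agent.P352.GF Vale.Agent.P352.BW Vale.Agent.P352.H246
open Vale.Agent.P352.H496 Vale.Agent.P352.H755 Vale.Agent.P352.H15
open Vale.Agent.P352X Vale.Agent.P352X.BX Vale.Agent.P352X.Ap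
open Vale.Agent.P132 (ModData jconj)
open UniformSpace (Completion)
open Complex (I)

noncomputable section

variable {D : Type*} [NormedAddCommGroup D] [InnerProductSpace ℂ D] {c : Ctx D}
  {d R L : ℝ} {χ ρ : ℝ → ℝ} {g : P3 → ℝ} {w z V V' : Completion D}

theorem q0 : (0 : ℝ) < 3 / 4 := by norm_num

theorem q1 : (3 / 4 : ℝ) < 1 := by norm_num

theorem lim_q (C : ℝ) : Tendsto (fun n : ℕ => C * (3 / 4 : ℝ) ^ n) atTop (𝓝 0) := by
  simpa using (tendsto_pow_atTop_nhds_zero_of_lt_one q0.le q1).const_mul C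

theorem ev_ep (hR : 0 < R) : ∀ᶠ n in atTop, ep n ≤ R :=
  (tendsto_ep.mono_right nhdsWithin_le_nhds).eventually_le_const hR

theorem geo_inl {F : ℕ → Completion D} {q : ℝ} (h : Geo q F) (w : Completion D) :
    Geo q fun n => inner ℂ (F n) w :=
  h.lip (fun v => inner ℂ v w) (norm_nonneg w) fun x y => by
    rw [← inner_sub_left, mul_comm]
    exact norm_inner_le_norm _ _

theorem geo_I {F : ℕ → ℂ} {q : ℝ} (h : Geo q F) : Geo q fun n => I * F n :=
  h.lip (fun v => I * v) zero_le_one fun x y => by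
    rw [← mul_sub, norm_mul, Complex.norm_I]

theorem geo_conj {F : ℕ → ℂ} {q : ℝ} (h : Geo q F) : Geo q fun n => conj (F n) :=
  h.lip (fun v => conj v) zero_le_one fun x y => by
    rw [← map_sub, RCLike.norm_conj, one_mul]

/-! ## the main terms -/

theorem face_step (T : TB c) (hR : 0 < R) (hρ : Tst ρ) (hg : Tst g) : ∃ C : ℝ, ∀ j, ep j ≤ R →
    ‖Rb c ρ (gen c.SK (Tx c vb g (edge R (ep (j + 1))))) -
      Rb c ρ (gen c.SK (Tx c vb g (edge R (ep j))))‖ ≤ C * (3 / 4) ^ j := by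
  obtain ⟨C, hC⟩ := (ks_face T hρ hg tst_ph0 tsupport_ph0).geo
  refine ⟨C, fun j hj => ?_⟩
  have p := tst_dil tst_ph0 (ep_pos j).ne'
  rw [show edge R (ep (j + 1)) = fun t => edge R (ep j) t + dil (ep j) ph0 t from
    funext (edge_succ hR hj), Tx_add_p hg (tst_edge hR (ep_pos j)) p,
    gen_add (dm_Tx T.kd hg (tst_edge hR (ep_pos j)) (tsupport_edge hR (ep_pos j)) vb)
      (dm_Tx T.kd hg p (tsupport_dil_neg tsupport_ph0 (ep_pos j)) vb), Rb_add T.grp hρ,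
    add_sub_cancel_left]
  exact hC j

theorem Rb_GG (T : Tm c) (hχ : Stp d χ) (hR : 0 < R) (hL : 0 < L) (hρ : Tst ρ) {ε : ℝ}
    (e : 0 < ε) : Rb c ρ (gen c.SK (GG c χ R L ε)) =
      -Rb c ρ (gen c.SK (Tx c va (slab χ R L) (dlt ε (deriv ps)))) -
        Rb c ρ (gen c.SK (Tx c vb (face R L) (edge R ε))) := by
  have d1 := dm_Tx T.kd (tst_slab hχ hR hL) (tst_dlt tst_dps e.ne')
    (tsupport_dlt_neg tsupport_dps_neg e) va
  rw [GG, gen_sub d1.neg (dm_Tx T.kd (tst_face hR hL) (tst_edge hR e) (tsupport_edge hR e) vb),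
    gen_neg d1, Rb_sub T.grp hρ, Rb_neg]

theorem main_geo (T : TB c) (hχ : Stp d χ) (hR : 0 < R) (hL : 0 < L) (hρ : Tst ρ) :
    Geo (3 / 4) fun n => Rb c ρ (gen c.SK (GG c χ R L (ep n))) := by
  obtain ⟨C, hC⟩ := (ks_slab T hρ (tst_slab hχ hR hL) tst_dps tsupport_dps_neg).geo
  obtain ⟨C', hC'⟩ := face_step T hR hρ (tst_face hR hL)
  exact ((Geo.of_rate q0 q1 (.of_forall hC)).neg.sub ⟨C', (ev_ep hR).mono hC'⟩).congr
    (.of_forall fun n => Rb_GG T.toTm hχ hR hL hρ (ep_pos n))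

theorem main_run (T : TB c) (hχ : Stp d χ) (hR : 0 < R) (hρ : Tst ρ) (w : Completion D) {η : ℝ}
    (hη : 0 < η) : ∀ᶠ L in atTop, ∀ᶠ n in atTop,
      ‖I * inner ℂ (Rb c ρ (gen c.SK (GG (c.sh (Real.log L / 2)) χ R L (ep n)))) w -
        inner ℂ (TP (c.sh (Real.log L / 2)) va va (x2 (da (ap 1 (slab χ R L)))) ρ) w‖ ≤ η := by
  have G := T.grp
  have g0 := tst_face0 hR
  set F : ℕ → Completion D := fun n =>
    Rb c ρ (gen c.SK (Tx c vb (k3 (deriv kk) (kp R)) (edge R (ep n)))) with hF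
  have dm := fun n => dm_Tx T.kd g0 (tst_edge hR (ep_pos n)) (tsupport_edge hR (ep_pos n)) vb
  obtain ⟨C, hC⟩ := face_step T hR hρ g0
  have h3 : 0 < η / 3 := by positivity
  have t0 := (lim_q (C / (1 - 3 / 4))).mul_const ‖w‖
  rw [zero_mul] at t0
  obtain ⟨m, m1, m2⟩ := ((ev_ep hR).and (t0.eventually_le_const h3)).exists
  have st : ∀ j, m ≤ j → ‖F (j + 1) - F j‖ ≤ C * (3 / 4) ^ j := fun j hj =>
    hC j ((ep_anti hj).trans m1)
  have wk := (wn G T.bas (perp_Rb G hρ (perp_K (dm m))) w).norm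
  rw [norm_zero] at wk
  filter_upwards [wk.eventually_le_const h3, eventually_gt_atTop 0] with L h1 hL
  obtain ⟨C', hC'⟩ := (ks_slab (T.sh (Real.log L / 2)) hρ (tst_slab hχ hR hL) tst_dps
    tsupport_dps_neg).geo
  have t1 := (lim_q C').mul_const ‖w‖
  rw [zero_mul] at t1
  filter_upwards [t1.eventually_le_const h3, eventually_ge_atTop m] with n h2 hn
  have a1 : ‖inner ℂ (Usc c.Q L 1 (F n - F m)) w‖ ≤ η / 3 := by
    refine (norm_inner_le_norm _ _).trans (le_trans ?_ m2)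
    rw [usc_norm G]
    exact mul_le_mul_of_nonneg_right (geo_sum q0 q1 st hn) (norm_nonneg _)
  have a2 := (norm_inner_le_norm (𝕜 := ℂ) _ w).trans
    ((mul_le_mul_of_nonneg_right (hC' n) (norm_nonneg w)).trans h2)
  have a3 : Rb c ρ (gen c.SK (GG (c.sh (Real.log L / 2)) χ R L (ep n))) =
      -Rb c ρ (gen c.SK (Tx (c.sh (Real.log L / 2)) va (slab χ R L) (dlt (ep n) (deriv ps)))) -
        Usc c.Q L 1 (F n) := by
    rw [hF, ← Rb_usc G hρ hL, ← (usc_K G hL (dm n)).2, ← usc_face G hR hL (tst_edge hR (ep_pos n))]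
    exact Rb_GG (T.all _) hχ hR hL hρ (ep_pos n)
  rw [integral_dps, inner_sub_left, inner_smul_left, inner_smul_left] at a2
  rw [map_sub, inner_sub_left] at a1
  rw [a3, inner_sub_left, inner_neg_left]
  change ‖inner ℂ (Rb c ρ (gen c.SK (Tx _ va _ (dlt (ep n) _)))) w - _‖ ≤ _ at a2
  generalize inner ℂ (Rb c ρ (gen c.SK (Tx _ va _ (dlt (ep n) _)))) w = a at a2 ⊢
  generalize inner ℂ (TP _ va va _ ρ) w = b at a2 ⊢
  generalize inner ℂ (Usc c.Q L 1 (F n)) w = x at a1 ⊢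
  have e : ∀ y, I * (-a - x) - b = -(I * (a - conj ((-1 : ℝ) : ℂ) * (conj I * b))) - I * y -
      I * (x - y) := fun y => by
    simp only [Complex.conj_ofReal, Complex.conj_I]
    push_cast
    linear_combination -b * Complex.I_mul_I
  rw [e (inner ℂ (Usc c.Q L 1 (F m)) w)]
  refine (norm_sub_le _ _).trans ((add_le_add (norm_sub_le _ _) le_rfl).trans ?_)
  simp only [norm_neg, norm_mul, Complex.norm_I, one_mul]
  linarith

/-! ## the cross terms -/

section cross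

open Dec (gm ph tst_gm tst_ph)

theorem tr_av0 (t : Tm c) (h : Av c V) {g : Fin 2 → P3 → ℝ} (hg : ∀ i, Tst (g i)) (hρ : Tst ρ) :
    ∃ C : ℝ, ∀ n, ‖inner ℂ (∑ i, Tx c (ex i) (g i) (dil (ep n) ρ)) V‖ ≤ C * (3 / 4) ^ n := by
  obtain ⟨C, -, hC⟩ := tr_sum t hg hρ
  obtain ⟨M, hM⟩ := h.le
  exact ⟨M * C, fun n => (hM _ _ (hC n)).trans_eq (mul_assoc _ _ _).symm⟩

theorem Gm_av (t : Tm c) (h : Av c V) (hR : 0 < R) : ∃ C : ℝ, ∀ L, 0 < L → ∀ j, ep j ≤ R →
    ‖inner ℂ (Usc c.Q L 1 (Gm c R (ep (j + 1)))) V - inner ℂ (Usc c.Q L 1 (Gm c R (ep j))) V‖ ≤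
      C * (3 / 4) ^ j := by
  obtain ⟨C, hC⟩ := tr_av t h (g := fun i y => -di i (cut0 R) y)
    (fun i => cs_neg (tst_di i (tst_cut0 hR))) tst_ph
  refine ⟨C, fun L hL j hj => ?_⟩
  rw [← inner_sub_left, ← map_sub, Gm_step t.grp hR hj]
  exact hC L hL j

theorem tst_g3 (hχ : Stp d χ) (hR : 0 < R) (hL : 0 < L) (i : Fin 2) :
    Tst fun y => -di i (fl (slab (opp χ) R L)) y :=
  cs_neg (tst_di i (tst_fl (tst_slab hχ.opp hR hL)))

theorem cross_geo (T : TB c) (h : Av c V) (hχ : Stp d χ) (hd : 0 < d) (hR : d ≤ R) (hL : R ≤ L) :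
    Geo (3 / 4) fun n => inner ℂ (Rs c χ R L (ep n)) V := by
  have r := hd.trans_le hR
  have l := r.trans_le hL
  obtain ⟨C, hC⟩ := Gm_av (T.all (-(Real.log L / 2))) h r
  obtain ⟨C', hC'⟩ := tr_av0 T.toTm h (tst_g3 hχ r l) tst_gm
  have g1 : Geo (3 / 4) fun n =>
      inner ℂ (Usc c.Q L 1 (Gm (c.sh (-(Real.log L / 2))) R (ep n))) V :=
    ⟨C, (ev_ep r).mono (hC L l)⟩
  have g2 := Geo.of_rate q0 q1 (a := 0) (F := fun n => inner ℂ (∑ i, Tx c (ex i)
    (fun y => -di i (fl (slab (opp χ) R L)) y) (dil (ep n) gm)) V)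
    (.of_forall fun n => (congrArg _ (sub_zero _)).trans_le (hC' n))
  refine (g1.add g2).congr (.of_forall fun n => ?_)
  have := Rs_eq (T.sh (-(Real.log L / 2))) hχ hd hR hL (ep_pos n)
  rw [sh_back'] at this
  rw [this, inner_add_left]

theorem cross_run (T : TB c) (h : Av c V) (hχ : Stp d χ) (hd : 0 < d) (hR : d ≤ R) {η : ℝ}
    (hη : 0 < η) : ∀ᶠ L in atTop, ∀ᶠ n in atTop,
      ‖inner ℂ (Rs (c.sh (Real.log L / 2)) χ R L (ep n)) V‖ ≤ η := by
  have r := hd.trans_le hR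
  have h3 : 0 < η / 3 := by positivity
  obtain ⟨C, hC⟩ := Gm_av T.toTm h r
  obtain ⟨m, m1, m2⟩ := ((ev_ep r).and ((lim_q (C / (1 - 3 / 4))).eventually_le_const h3)).exists
  have wk := (wn T.grp T.bas (perp_Gm T.grp r (ep_pos m)) V).norm
  rw [norm_zero] at wk
  filter_upwards [eventually_ge_atTop R, wk.eventually_le_const h3] with L l1 l2
  have l := r.trans_le l1
  obtain ⟨C', hC'⟩ := tr_av0 (T.all (Real.log L / 2)) h (tst_g3 hχ r l) tst_gm
  filter_upwards [eventually_ge_atTop m, (lim_q C').eventually_le_const h3] with n n1 n2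
  have a1 := geo_sum q0 q1 (F := fun j => inner ℂ (Usc c.Q L 1 (Gm c R (ep j))) V)
    (fun j hj => hC L l j ((ep_anti hj).trans m1)) n1
  have a2 := norm_le_norm_add_norm_sub' (inner ℂ (Usc c.Q L 1 (Gm c R (ep n))) V)
    (inner ℂ (Usc c.Q L 1 (Gm c R (ep m))) V)
  rw [Rs_eq T hχ hd hR l1 (ep_pos n), inner_add_left]
  refine (norm_add_le _ _).trans ?_
  linarith [hC' n]

/-! ## the flux through the gap -/

theorem gap_run (t : Tm c) (h : Av c V) (hχ : Stp d χ) (hR : 0 < R) (hL : 0 < L) :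
    Tendsto (fun n : ℕ => inner ℂ (Gp (c.sh (0 + -(11 * Real.log 2) * n)) χ R L (ep n)) V) atTop
      (𝓝 0) := by
  obtain ⟨C, hC⟩ := fl_bd t (tst_gp hχ hR hL) tst_gm
  simp only [← log_ep]
  exact h.lim (fun n => hC _ (ep_mem n)) fun v N q =>
    (fl_lim t (tst_gp hχ hR hL) tst_gm q).comp tendsto_ep

theorem gap_zero (T : TB c) (h : Av c V) (h' : Av c V') (hχ : Stp d χ) (hd : 0 < d) (hR : d ≤ R)
    (hL : R ≤ L) (hρ : Tst ρ) {k : ℂ}
    (e : ∀ᶠ n in atTop, All (fun c' => Key c' χ ρ R L (ep n) w z V V' k) c) (σ : ℝ) :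
    Tendsto (fun n => I * conj (inner ℂ (Gp (c.sh σ) χ R L (ep n)) V') -
      I * inner ℂ (Gp (c.sh σ) χ R L (ep n)) V) atTop (𝓝 0) := by
  have r := hd.trans_le hR
  have l := r.trans_le hL
  have p := fun n => pol_Tx T.grp (tst_gp hχ r l) (tst_dil tst_gm (ep_pos n).ne') vb
  refine IsPol.run_geo (J := c.n0) q0 q1 (F := fun n σ =>
    I * conj (inner ℂ (Gp (c.sh σ) χ R L (ep n)) V') - I * inner ℂ (Gp (c.sh σ) χ R L (ep n)) V)
    (a := -(11 * Real.log 2)) (b := 0)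
    (neg_ne_zero.2 (mul_pos (by norm_num) (Real.log_pos one_lt_two)).ne')
    (.of_forall fun n => ?_) (fun σ => ?_) ?_ σ
  · simp only [inner_conj_symm]
    exact ((pol_inr (p n) V').smul I).sub ((pol_inl (p n) V).smul I)
  · have S := T.sh σ
    refine (((((Geo.const _ k).sub (geo_I (geo_inl (main_geo S hχ r l hρ) w))).sub
      (geo_I (geo_inl (main_geo S hχ.opp r l (tst_ng hρ)) z))).add
      (geo_I (cross_geo S h hχ hd hR hL))).sub
      (geo_I (geo_conj (cross_geo S h' hχ hd hR hL)))).congr (e.mono fun n a => ?_)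
    rw [a σ]
    simp only [Rs, map_sub, inner_conj_symm, inner_sub_left, inner_sub_right]
    ring
  · have := (((Complex.continuous_conj.tendsto 0).comp (gap_run T.toTm h' hχ r l)).const_mul I).sub
      ((gap_run T.toTm h hχ r l).const_mul I)
    simpa only [map_zero, mul_zero, sub_zero, Function.comp] using this

end cross

/-! ## the row -/

variable {u0 d0 r1 r2 : ℝ} {y1 y2 : GF.V} {X X' : Completion D →L[ℂ] Completion D}

theorem core (t : TB c) (dat : Dat c u0 d0 y1 r1 y2 r2 X X') (sX : Sm c X) (sX' : Sm c X')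
    (hχ : Stp d0 χ) (hρ : Tst ρ) (hs : tsupport ρ ⊆ Ioo (-u0) u0) : ∃ κ0, Cut κ0 ∧
    Tendsto (fun L => (c.sh (Real.log L / 2)).om2 (jconj c.J X' (X c.Om))
      (star X (star (jconj c.J X') c.Om)) χ
        (hk va va (pr (fun q => d2 q.2 q.2 * kL κ0 L q) ρ))) atTop
      (𝓝 (∫ u, (ρ u : ℂ) * inner ℂ (star (jconj c.J X') c.Om)
        (gen (c.Ky (u • vb)) (X c.Om)))) := by
  obtain ⟨R, e, V, V', hR, he, a, a', hk⟩ := key t dat sX sX' hχ hρ hs
  have hd := dat.hd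
  have r := hd.trans_le hR
  refine ⟨cut0 R, cut_cut0 r, ?_⟩
  have f := fin t dat hχ r hρ hs
  generalize (∫ u, (ρ u : ℂ) * inner ℂ _ (gen (c.Ky (u • vb)) (X c.Om))) = k at hk ⊢
  generalize star X (star (jconj c.J X') c.Om) = w' at hk f ⊢
  generalize jconj c.J X' (X c.Om) = w at hk f ⊢
  have lim : Tendsto (fun L =>
      inner ℂ (TP (c.sh (Real.log L / 2)) va va (x2 (da (ap 1 (slab χ R L)))) ρ) w +
      inner ℂ (TP (c.sh (Real.log L / 2)) va va (x2 (da (ap 1 (slab (opp χ) R L)))) (ng ρ))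
        (c.J w')) atTop (𝓝 k) := by
    rw [Metric.tendsto_nhds]
    intro η hη
    have h6 : 0 < η / 6 := by positivity
    filter_upwards [main_run t hχ r hρ w h6, main_run t hχ.opp r (tst_ng hρ) (c.J w') h6,
      cross_run t a hχ hd hR h6, cross_run t a' hχ hd hR h6, eventually_ge_atTop (2 * R)]
      with L a1 a2 a3 a4 hL
    have a5 := (ev_ep he).mono fun n hn => hk L _ hL (ep_pos n) hn
    have a6 := (gap_zero t a a' hχ hd hR (by linarith) hρ a5 (Real.log L / 2)).norm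
    rw [norm_zero] at a6
    obtain ⟨n, a1, a2, a3, a4, a5, a6⟩ :=
      (a1.and (a2.and (a3.and (a4.and (a5.and (a6.eventually_le_const h6)))))).exists
    have a7 : k = I * inner ℂ (Rb c ρ (gen c.SK (GG (c.sh (Real.log L / 2)) χ R L (ep n)))) w +
        I * inner ℂ (Rb c (ng ρ) (gen c.SK (GG (c.sh (Real.log L / 2)) (opp χ) R L (ep n))))
          (c.J w') - I * inner ℂ (Rs (c.sh (Real.log L / 2)) χ R L (ep n)) V +
        I * conj (inner ℂ (Rs (c.sh (Real.log L / 2)) χ R L (ep n)) V') +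
        (I * conj (inner ℂ (Gp (c.sh (Real.log L / 2)) χ R L (ep n)) V') -
          I * inner ℂ (Gp (c.sh (Real.log L / 2)) χ R L (ep n)) V) := by
      rw [a5 (Real.log L / 2)]
      simp only [Rs, map_sub, inner_conj_symm, inner_sub_left, inner_sub_right]
      ring
    rw [a7, dist_eq_norm]
    generalize I * conj (inner ℂ (Gp _ χ R L _) V') - _ = z5 at a6 ⊢
    generalize inner ℂ (Rs _ χ R L _) V = z3 at a3 ⊢
    generalize inner ℂ (Rs _ χ R L _) V' = z4 at a4 ⊢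
    generalize I * inner ℂ (Rb c ρ _) w = z1 at a1 ⊢
    generalize I * inner ℂ (Rb c (ng ρ) _) (c.J w') = z2 at a2 ⊢
    generalize inner ℂ (TP _ va va _ ρ) w = x1 at a1 ⊢
    generalize inner ℂ (TP _ va va _ (ng ρ)) (c.J w') = x2 at a2 ⊢
    have e : x1 + x2 - (z1 + z2 - I * z3 + I * conj z4 + z5) =
        -(z1 - x1) + -(z2 - x2) + I * z3 + -(I * conj z4) - z5 := by ring
    rw [e]
    refine ((norm_sub_le _ _).trans (add_le_add norm_add₄_le le_rfl)).trans_lt ?_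
    simp only [norm_neg, norm_mul, Complex.norm_I, one_mul, RCLike.norm_conj]
    linarith
  have := lim.sub f
  rw [sub_zero] at this
  exact this.congr fun L => sub_sub_cancel _ _

open Tr Tra in
theorem bbrun (t : TB c) {κ : P3 → ℝ} (y : R2) (hd : 0 < d0) (h1 : 0 < r1) (h2 : 0 < r2)
    (s1 : dc y1 r1 ⊆ {z | be z < -u0 ∧ d0 < al z}) (s2 : dc y2 r2 ⊆ {z | be z < -u0 ∧ d0 < al z})
    (m1 : X ∈ c.N (dc y1 r1)) (g1 : c.Good X) (m2 : X' ∈ c.N (dc y2 r2)) (g2 : c.Good X')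
    (hχ : ContDiff ℝ ∞ χ) (c1 : ∀ t, t ≤ -d0 / 2 → χ t = 0) (c2 : ∀ t, d0 / 2 ≤ t → χ t = 1)
    (hκ : Cut κ) (hρ : Tst ρ) (sρ : tsupport ρ ⊆ Ioo (-u0) u0) :
    Tendsto (fun L => (c.sh (Real.log L / 2)).om2 (jconj c.J X' (X c.Om))
      (star X (star (jconj c.J X') c.Om)) χ
        (hk va va (pr (fun q => d2 (q.2 - y) (q.2 - y) * kL κ L q) ρ))) atTop
      (𝓝 (∫ u, (ρ u : ℂ) * inner ℂ (star (jconj c.J X') c.Om)
        (gen (c.Ky (tv y + u • vb)) (X c.Om)))) := by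
  have G := t.grp
  have s : ∀ {y1 r1}, dc y1 r1 ⊆ {z | be z < -u0 ∧ d0 < al z} →
      dc (y1 - tv y) r1 ⊆ {z | be z < -u0 ∧ d0 < al z} := fun s z hz => by
    simpa using s ((dc_sub _ _ _ _).1 hz)
  have m : ∀ {X y1 r1}, X ∈ c.N (dc y1 r1) →
      Ut c.Q (-tv y) * X * Ut c.Q (tv y) ∈ c.N (dc (y1 - tv y) r1) := fun m => by
    simpa using G.mem_ut m (-tv y) fun z hz => (dc_sub _ _ _ _).2 (by simpa using hz)
  have dat : Dat c.toBase u0 d0 _ r1 _ r2 _ _ := ⟨hd, h1, h2, s s1, s s2, m m1, m m2⟩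
  obtain ⟨κ0, k0, a⟩ := core t dat (Tr.sm G g1 y) (Tr.sm G g2 y) ⟨hχ, c1, c2⟩ hρ sρ
  have b := a.add (far t y dat ⟨hχ, c1, c2⟩ hκ k0 hρ sρ)
  have j : ∀ x, jr (tv x) = tv x := fun x => null_ext (by simp) (by simp) (by simp)
  have v : ∀ x, Ut c.Q x c.Om = c.Om := fun x => G.vac _ _ _
  have e : jconj c.J (Ut c.Q (-tv y) * X' * Ut c.Q (tv y)) =
      Ut c.Q (-tv y) * jconj c.J X' * Ut c.Q (tv y) := by
    ext z
    simp only [← tv_neg, P132.jconj_apply, ContinuousLinearMap.mul_apply, t.jc.ut, j]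
  simp only [e, star_mul, G.star_ut, ContinuousLinearMap.mul_apply, v, G.ut_apply, neg_neg,
    add_neg_cancel, G.ut0, ContinuousLinearMap.one_apply, add_zero] at b
  simp only [Tr.gen_ut G (tv y), ← star_inner, G.star_ut]
  refine b.congr' ?_
  filter_upwards [eventually_gt_atTop 0] with L hL
  have q := tst_kL hκ.1 hL
  have q0 := tst_kL k0.1 hL
  have q1 : Tst fun q : P3 => kL κ L (q.1, q.2 + y) := by
    simpa only [Prod.add_def, add_zero, tst_iff] using cs_tr (0, y) q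
  refine (Tr.om2_add hχ (dc_pr (tst_x2 q0) hρ) (dc_pr (tst_x2 (cs_sub q1 q0)) hρ) _ _).symm.trans
    (Eq.trans ?_ (Tr.om2_ut (t.all _).grp hχ (dc_pr (cs_mul_l (by fun_prop) q) hρ) _ _ y).symm)
  congr 2
  funext z
  simp only [pr, x2, pl, al_add, tx_add, be_add, al_tv, tx_tv, be_tv, add_zero, add_sub_cancel_right]
  push_cast
  ring

end

end Vale.Agent.P352L.BL
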