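import Vale.Agent.P352L.BL2
import Vale.Agent.P352L.Spec2

/-!
# P352L, row BB: the tools from level 3 (helper68)
-/

set_option linter.all false

open MeasureTheory Filter Topology Set
open scoped SchwartzMap ComplexConjugate ENNReal ContDiff

namespace Vale.Agent.P352L.BL

open Vale.Agent.P352 Vale.Agent.P352.GF Vale.Agent.P352.BW Vale.Agent.P352.H246
open Vale.Agent.P352.H496 Vale.Agent.P352.H755 Vale.Agent.P352.H15
open Vale.Agent.P352X Vale.Agent.P352X.BX Vale.Agent.P352X.Ap
open Vale.Agent.P132 (ModData jconj)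
open UniformSpace (Completion)
open Complex (I)

noncomputable section

open Wt (Lm Lm_pos Lm_mul)

variable {D : Type*} [NormedAddCommGroup D] [InnerProductSpace ℂ D] {c : Ctx D}

theorem two_of (h : TWO c) : Two c := by
  obtain ⟨C, C0, hC⟩ := h (1 / 4) (by norm_num)
  have e := Real.exp_pos (2 * c.tau)
  refine ⟨C * Lm (Real.exp (2 * c.tau)), mul_nonneg C0 (Lm_pos e).le, fun x h k f hf =>
    (hC x h k f hf).trans (withDensity_mono ?_)⟩
  filter_upwards [ae_restrict_mem meas_Fc] with p hp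
  have m := mul_pos (Real.exp_pos (2 * x)) ((mem_Fc p).1 hp).2
  have k1 := Lm_mul e m
  rw [← mul_assoc, ← Real.exp_add, ← mul_add] at k1
  have k2 := Lm_pos (mul_pos (Real.exp_pos (2 * (c.tau + x))) ((mem_Fc p).1 hp).2)
  change ENNReal.ofReal (C * Lm _ * _ * _ * _) ≤ _
  simp only [mul_assoc _ (nn p h), mul_assoc _ (nn p h * _)]
  rcases le_total 0 (nn p h * nn p k * ‖ft f p‖ ^ 2) with a | a
  · exact ENNReal.ofReal_le_ofReal (mul_le_mul_of_nonneg_right
      ((mul_le_mul_of_nonneg_left k1 C0).trans_eq (mul_assoc _ _ _).symm) a)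
  · rw [ENNReal.ofReal_of_nonpos (mul_nonpos_of_nonneg_of_nonpos (mul_nonneg C0 k2.le) a)]
    exact zero_le

theorem tm_of (t : T3' c) : Tm c :=
  ⟨t.grp, t.gen, t.bas, t.jc, t.kd, t.f2, t.a2, two_of t.two⟩

theorem tb_of (t : T3 c) : TB c := ⟨tm_of t.toT3', fun x => tm_of (t.all x)⟩

end

end Vale.Agent.P352L.BL
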