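import Vale.Agent.P352L.Run

/-!
# P352L: multiplets that are covariant up to a shift of the parameter; the two point function of
conserved symmetric tensors (helper89)
-/

set_option linter.all false

open MeasureTheory Measure Set Filter Topology
open scoped SchwartzMap ComplexConjugate NNReal ENNReal LineDeriv

namespace Vale.Agent.P352L.Two

open Vale.Agent.P352.GF Vale.Agent.P352.BW Vale.Agent.P352.H496 Vale.Agent.P352.H755
open Vale.Agent.P352.H246 (In linv isLor_linv)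
open Vale.Agent.P352X Vale.Agent.P352X.Two
open UniformSpace (Completion)
open Complex (I)
open Finset (range)

noncomputable section

variable {D : Type*} [NormedAddCommGroup D] [InnerProductSpace ℂ D] {c : Bs D} {k J : ℕ} {d : ℝ}
  {Λ : ℝ → (Fin k → Ix) → Sch →L[ℂ] Completion D} {W K : V → ℂ}
  {v : ℝ → (Fin k → Ix) → Completion D} {w w' : (Fin k → Ix) → Completion D}

/-- multiplets that are covariant up to a shift of the parameter -/
structure Mul (c : Bs D) (d : ℝ) (J : ℕ) (Λ : ℝ → (Fin k → Ix) → Sch →L[ℂ] Completion D) :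
    Prop where
  pol : ∀ μ f, IsPol J fun τ => Λ τ μ f
  cov : ∀ τ μ s L a (f g : Sch), 0 < s → IsLor L → (∀ x, g x = f (sim s L a x)) →
    Λ (τ + Real.log s) μ f =
      ∑ ν : Fin k → Ix, ((s ^ (4 - d) * ∏ i, L (ν i) (μ i) : ℝ) : ℂ) • Ug c.Q s L a (Λ τ ν g)

/-- the same for vectors, divided by the weight `W` -/
structure Ml (c : Bs D) (d : ℝ) (J : ℕ) (W : V → ℂ) (v : ℝ → (Fin k → Ix) → Completion D) :
    Prop where
  pol : ∀ μ, IsPol J fun τ => v τ μ
  key : ∀ τ s L (κ : V → V) μ, 0 < s → IsLor L → Measurable κ →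
    (∀ p y, mdot (κ p) y = mdot p (sim s L 0 y)) →
    c.bt.Phi (fun p => W (κ p)) (v (τ + Real.log s) μ) = ∑ ν : Fin k → Ix,
      ((s ^ (-d) * ∏ i, L (ν i) (μ i) : ℝ) : ℂ) • c.bt.Phi W (Ug c.Q s L 0 (v τ ν))

/-- exactly covariant multiplets of vectors -/
abbrev Mv (c : Bs D) (d : ℝ) (W : V → ℂ) (w : (Fin k → Ix) → Completion D) : Prop :=
  Ml c d 0 W fun _ => w

theorem Mul.mono (h : Mul c d J Λ) {J' : ℕ} (e : J ≤ J') : Mul c d J' Λ :=
  ⟨fun μ f => (h.pol μ f).mono e, h.cov⟩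

lemma Mul.tr (h : Mul c d J Λ) (τ : ℝ) (μ : Fin k → Ix) (y : V) (f : Sch) :
    Λ τ μ (ST.tsl y f) = Ut c.Q y (Λ τ μ f) := by
  have := h.cov τ μ 1 one y _ f one_pos isLor_one fun x => (congrFun (Grp.tsl_sim y f) x).symm
  rw [Real.log_one, add_zero] at this
  rw [this, Finset.sum_eq_single μ (fun ν _ hν => ?_) (by simp)]
  · simp [one, bas, Ut]
  · obtain ⟨i, hi⟩ := Function.ne_iff.1 hν
    rw [Finset.prod_eq_zero (Finset.mem_univ i) (by simp [one, bas, hi.symm])]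
    simp

lemma Mul.rel (h : Mul c d J Λ) (τ : ℝ) (μ : Fin k → Ix) (f : Sch) :
    c.bt.Phi (ft g0) (Λ τ μ f) = c.bt.Phi (ft (ev f)) (Λ τ μ gS) :=
  rel_clm (Λ τ μ) (fun y _ => h.tr τ μ y f) fun y _ => h.tr τ μ y gS

lemma Phi_sum {ι : Type*} [Fintype ι] (a : ι → ℂ) {F : ι → V → ℂ} (hF : ∀ i, SN.Bd (F i))
    (z : Completion D) : ∑ i, a i • c.bt.Phi (F i) z = c.bt.Phi (fun p => ∑ i, a i * F i p) z :=
  Phi_fsum _ a (fun i _ => hF i) z

/-- the contraction with vector fields -/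
def Zs (c : Bs D) (w : (Fin k → Ix) → Completion D) (K : V → ℂ) (u : Fin k → V → V) :
    Completion D := ∑ J, c.bt.Phi (fun p => K p * sy (fun j => u j p) J) (w J)

lemma ug_ut {s : ℝ} {L : Ix → V} (hs : 0 < s) (hL : IsLor L) (y : V) :
    Ug c.Q s L 0 * Ut c.Q y = Ut c.Q (sim s L 0 y) * Ug c.Q s L 0 := by
  ext z
  simp only [ContinuousLinearMap.mul_apply, Br.Ut_apply, Ug_apply _ hs hL]
  exact Kin.Ue_tr c.bR hs hL 0 y z

theorem Mul.ml (h : Mul c d J Λ) : Ml c d J (ft g0) fun τ μ => Λ τ μ gS where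
  pol μ := h.pol μ gS
  key τ s L κ μ hs hL hk hA := by
    rw [h.cov τ μ s L 0 gS _ hs hL (Grp.simS_apply hs hL 0 gS), _root_.map_sum]
    refine Finset.sum_congr rfl fun ν _ => ?_
    rw [map_smul, ← Phi_W hk (ug_ut hs hL) hA wt_g0.bd, h.rel,
      Phi_W hk (ug_ut hs hL) hA (bd_ft ⟨_, rfl⟩), show (fun p => ft (ev (Grp.simS hs hL 0 gS))
        (κ p)) = fun p => ((((s ^ 2) ^ 2)⁻¹ : ℝ) : ℂ) * ft g0 p from funext fun p => by
          rw [show ev (Grp.simS hs hL 0 gS) = fun z => g0 (sim s L 0 z) from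
            funext (Grp.simS_apply hs hL 0 gS), ft_conf (conf_sim hs hL) (q := p) fun z => by
              rw [← hA]], c.bt.smul _ wt_g0.bd, ContinuousLinearMap.smul_apply, smul_smul,
      ← Complex.ofReal_mul, Real.rpow_sub hs, Real.rpow_neg hs.le,
      show (4 : ℝ) = (4 : ℕ) by norm_num, Real.rpow_natCast]
    congr 2
    field_simp

lemma eq_du {s : ℝ} {L : Ix → V} {κ : V → V} (hL : IsLor L)
    (hA : ∀ p y, mdot (κ p) y = mdot p (sim s L 0 y)) : κ = Kin.du s L := funext fun p => by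
  have e : ∀ y, mdot y (κ p) = mdot y (Kin.du s L p) := fun y => by
    rw [md_comm, hA, Kin.du_pair' s hL, md_comm]
  exact null_ext (e vb) (e va) (funext fun i => by rw [Br.tx_eq, Br.tx_eq, e])

lemma du_Fc {s : ℝ} {L : Ix → V} (hs : 0 < s) (hL : IsLor L) (p : V) :
    Kin.du s L p ∈ Fc ↔ p ∈ Fc := by rw [Kin.du, Fc_smul hs, Fc_lor_iff p (isLor_linv hL)]

/-- **the running multiplets are exactly covariant** -/
theorem Ml.run (h : Ml c d J W v) (hW : SN.Bd W) (σ : ℝ) :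
    Mv c d (fun p => W p * Nw J p) fun μ => run c J (fun τ => v τ μ) σ where
  pol μ := .const _ _
  key _ s L κ μ hs hL hk hA := by
    rw [run_core hs hk (fun F hF => Phi_W hk (ug_ut hs hL) hA hF)
      (fun p => eq_du hL hA ▸ du_Fc hs hL p) (fun p => eq_du hL hA ▸ Kin.du_sq s hL p) hW (h.pol μ)
      (u := fun τ => ∑ ν : Fin k → Ix, ((s ^ (-d) * ∏ i, L (ν i) (μ i) : ℝ) : ℂ) • v τ ν)
      (fun τ => by simp only [h.key τ s L κ μ hs hL hk hA, _root_.map_sum, map_smul]) σ, run_sum]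
    simp only [_root_.map_sum, map_smul]

variable {s : ℝ} {L : Ix → V} {κ : V → V}

theorem zs_cov (b : SN.Bd W) (hs : 0 < s) (hL : IsLor L) (hk : Measurable κ)
    (hA : ∀ p y, mdot (κ p) y = mdot p (sim s L 0 y))
    (key : ∀ μ, c.bt.Phi (fun p => W (κ p)) (w' μ) = ∑ ν : Fin k → Ix,
      ((s ^ (-d) * ∏ i, L (ν i) (μ i) : ℝ) : ℂ) • c.bt.Phi W (Ug c.Q s L 0 (w ν)))
    {u : Fin k → V → V} {t : Fin k → ℝ}
    (hu : ∀ j p, u j p = t j • sim 1 L 0 (u j (κ p))) (hK : SN.Bd K)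
    (ok : ∀ J, SN.Bd fun p => K p * sy (fun j => u j p) J) :
    c.bt.Phi (fun p => K (κ p) * W (κ p)) (Zs c w' K u) = ((s ^ (-d) * ∏ j, t j : ℝ) : ℂ) •
      c.bt.Phi (fun p => K p * W p) (Ug c.Q s L 0 (Zs c w K u)) := by
  have e : ∀ μ, c.bt.Phi (fun p => K (κ p) * W (κ p))
      (c.bt.Phi (fun p => K p * sy (fun j => u j p) μ) (w' μ)) = ∑ ν : Fin k → Ix,
      ((s ^ (-d) * ∏ i, L (ν i) (μ i) : ℝ) : ℂ) • c.bt.Phi (fun p => K (κ p) *
        (K p * sy (fun j => u j p) μ) * W p) (Ug c.Q s L 0 (w ν)) := fun μ => by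
    rw [c.bt.mul_apply (hK.comp hk) (b.comp hk), c.bt.comm (b.comp hk) (ok μ),
      key, ← c.bt.mul_apply (hK.comp hk) (ok μ), _root_.map_sum]
    exact Finset.sum_congr rfl fun ν _ => by
      rw [map_smul, ← c.bt.mul_apply ((hK.comp hk).mul (ok μ)) b]
  simp only [Zs, _root_.map_sum, e, Finset.smul_sum]
  rw [Finset.sum_comm]
  refine Finset.sum_congr rfl fun ν _ => ?_
  rw [Phi_sum _ fun μ => ((hK.comp hk).mul (ok μ)).mul b, Phi_W hk (ug_ut hs hL) hA (ok ν),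
    ← c.bt.mul_apply (hK.mul b) ((ok ν).comp hk), ← ContinuousLinearMap.smul_apply,
    ← c.bt.smul _ ((hK.mul b).mul ((ok ν).comp hk))]
  congr 2
  funext p
  have := sy_cov hL t (fun j => u j (κ p)) ν
  simp only [← hu] at this
  calc _ = (s ^ (-d) : ℝ) * (K (κ p) * K p * W p) * ((∑ μ : Fin k → Ix, (∏ i, L (ν i) (μ i)) *
        sy (fun j => u j p) μ : ℝ) : ℂ) := by
        rw [Complex.ofReal_sum, Finset.mul_sum]
        exact Finset.sum_congr rfl fun μ _ => by push_cast; ring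
    _ = _ := by rw [this]; push_cast; ring

/-- the components in the moving frame -/
def Zf (c : Bs D) (w : (Fin k → Ix) → Completion D) (K : V → ℂ) (A : Fin k → Fin 4) :
    Completion D := Zs c w K fun j => fr (A j)

theorem Ml.vl (h : Ml c d J W v) (b : SN.Bd W) (hK : Ad k K) (A : Fin k → Fin 4) :
    Vl c J (fun p => K p * W p) (fun τ => Zf c (v τ) K A) (d / 2 + ∑ j, xw (A j))
      (d / 2 + ∑ j, yw (A j)) where
  pol := IsPol.sum _ fun μ _ => (h.pol μ).clm _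
  ga τ w := by
    obtain ⟨l1, l2⟩ := Grp.lga w
    have a : ∀ p y, mdot (gap (-w) p) y = mdot p (sim 1 _ 0 y) := fun p y => by rw [l2, md_gap_l]
    have := zs_cov b one_pos l1 (meas_gap (-w)) a
      (fun μ => h.key τ 1 _ _ μ one_pos l1 (meas_gap (-w)) a)
      (u := fun j => fr (A j)) (t := fun _ => 1) (fun j p => by rw [l2, one_smul, ← fr_gap])
      hK.wt.bd (hK.ok A)
    simp only [Real.one_rpow, Finset.prod_const_one, mul_one, Complex.ofReal_one, one_smul,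
      Real.log_one, add_zero] at this
    exact this.symm
  sc τ r s hr hs := by
    obtain ⟨l1, l2⟩ := Grp.lsc hr hs
    have h0 := Br.sc_pos hr hs
    have a : ∀ p y, mdot (scp s r p) y = mdot p (sim _ _ 0 y) := fun p y => by rw [l2, md_scp_l]
    have := zs_cov b h0 l1 (meas_scp s r) a (fun μ => h.key τ _ _ _ μ h0 l1 (meas_scp s r) a)
      (u := fun j => fr (A j)) (t := fun j => (r ^ xw (A j) * s ^ yw (A j))⁻¹)
      (fun j p => by rw [fr_scp (A j) hr hs p, ← l2, sim_smul, inv_smul_smul₀ h0.ne'])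
      hK.wt.bd (hK.ok A)
    have e : √(r * s) ^ (-d) = (r ^ (d / 2))⁻¹ * (s ^ (d / 2))⁻¹ := by
      rw [Real.sqrt_eq_rpow, ← Real.rpow_mul (mul_pos hr hs).le, Real.mul_rpow hr.le hs.le,
        show 1 / 2 * -d = -(d / 2) by ring, Real.rpow_neg hr.le, Real.rpow_neg hs.le]
    rw [Zf, Zf, this, smul_smul, ← Complex.ofReal_mul, Finset.prod_inv_distrib, Finset.prod_mul_distrib,
      ← Real.rpow_sum_of_pos hr, ← Real.rpow_sum_of_pos hs, Real.rpow_add hr, Real.rpow_add hs, e]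
    refine (one_smul ℂ _).symm.trans (congrArg₂ _ ?_ rfl)
    rw [← Complex.ofReal_one]
    congr 1
    field_simp

theorem Mv.vc (h : Mv c d W w) (b : SN.Bd W) (hK : Ad k K) (A : Fin k → Fin 4) :
    Vc c (fun p => K p * W p) (Zf c w K A) (d / 2 + ∑ j, xw (A j)) (d / 2 + ∑ j, yw (A j)) :=
  (Ml.vl h b hK A).vc fun _ => rfl

lemma zf_run (hK : Ad k K) (A : Fin k → Fin 4) (σ : ℝ) :
    Zf c (fun μ => run c J (fun τ => v τ μ) σ) K A = run c J (fun τ => Zf c (v τ) K A) σ := by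
  have := run_sum (c := c) (J := J) Finset.univ (fun _ => 1) (fun μ τ =>
    c.bt.Phi (fun p => K p * sy (fun j => fr (A j) p) μ) (v τ μ)) σ
  simp only [one_smul] at this
  simp only [Zf, Zs, this, run_Phi (hK.ok A _)]

/-- **expansion in the moving frame** -/
theorem expand (hK : Ad k K) {S : Set V} {G : V → ℂ} (hG : Cp S G) (hS : S ⊆ {p | 0 < be p})
    (h : Fin k → V) : c.bt.Phi (fun p => G p * K p) (∑ J, (sy h J : ℂ) • w J) =
      ∑ A, c.bt.Phi (fun p => G p * cfs h A p) (Zf c w K A) := by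
  simp only [Zf, Zs, _root_.map_sum, map_smul]
  rw [Finset.sum_comm]
  refine Finset.sum_congr rfl fun J _ => ?_
  have := Phi_sum (c := c) (fun _ => 1) (fun A => (hG.cfs hS h A).1.mul (hK.ok A J)) (w J)
  simp only [one_smul, one_mul, c.bt.mul_apply (hG.cfs hS h _).1 (hK.ok _ J)] at this
  rw [this, ← ContinuousLinearMap.smul_apply, ← c.bt.smul _ (hG.1.mul hK.wt.bd)]
  congr 2
  funext p
  obtain ⟨-, B, -, h2, h3⟩ := hG
  by_cases hp : p ∈ B
  · rw [sy_dec h J (ne_of_gt (hS (h2 hp))), Complex.ofReal_sum, Finset.sum_mul]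
    exact Finset.sum_congr rfl fun A _ => by simp only [cfs]; push_cast; ring
  · simp [h3 p hp]

/-! ## conserved symmetric tensors -/

/-- symmetric and conserved multiplets of vectors -/
structure Sv (c : Bs D) (w : (Fin 2 → Ix) → Completion D) : Prop where
  sym : ∀ m n, w ![m, n] = w ![n, m]
  con : ∀ n (G : V → ℂ), (∀ m, SN.Bd fun p => G p * (eta m * p m : ℝ)) → SN.Bd G →
    ∑ m, c.bt.Phi (fun p => G p * (eta m * p m : ℝ)) (w ![m, n]) = 0

/-- families of symmetric conserved tensors of dimension four, applied to the vacuum -/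
structure St (c : Bs D) (J : ℕ) (Λ : ℝ → (Fin 2 → Ix) → Sch →L[ℂ] Completion D) : Prop where
  mul : Mul c 4 J Λ
  perp : ∀ τ I f, inner ℂ c.Om (Λ τ I f) = 0
  sym : ∀ τ m n f, Λ τ ![m, n] f = Λ τ ![n, m] f
  con : ∀ τ n (f : Sch), ∑ m, Λ τ ![m, n] (∂_{(bas m 1 : V)} f) = 0

section st

variable {Λ : ℝ → (Fin 2 → Ix) → Sch →L[ℂ] Completion D} {w : (Fin 2 → Ix) → Completion D}

theorem St.sv (h : St c J Λ) (τ : ℝ) : Sv c fun I => Λ τ I gS := by
  refine ⟨fun m n => h.sym τ m n _, fun n G hG h0 => ?_⟩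
  have e := h.con τ n gS
  have b := wt_g0.bd
  refine Phi_inj (c := c) b g0_ne ?_
  have := congrArg (fun z => I • c.bt.Phi G (c.bt.Phi (ft g0) z)) e
  simp only [_root_.map_sum, map_zero, smul_zero, Finset.smul_sum, h.mul.rel τ _ (∂_{_} gS)] at this ⊢
  refine (Finset.sum_congr rfl fun m _ => ?_).trans this
  rw [← c.bt.mul_apply b (hG m), ← c.bt.mul_apply h0 (bd_ft ⟨_, rfl⟩),
    ← ContinuousLinearMap.smul_apply, ← c.bt.smul _ (h0.mul (bd_ft ⟨_, rfl⟩))]
  congr 2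
  funext p
  rw [← Grp.pd_ev, ft_pd ⟨_, rfl⟩]
  show ft g0 p * _ = I * (G p * (_ * ft g0 p))
  linear_combination (G p * (eta m * p m : ℝ) * ft g0 p) * Complex.I_sq

theorem Sv.run {v : ℝ → (Fin 2 → Ix) → Completion D} (h : ∀ τ, Sv c (v τ)) (σ : ℝ) :
    Sv c fun I => run c J (fun τ => v τ I) σ := by
  refine ⟨fun m n => by simp only [(h _).sym m n], fun n G hG h0 => ?_⟩
  have := run_sum (c := c) (J := J) Finset.univ (fun _ => 1) (fun m τ =>
    c.bt.Phi (fun p => G p * (eta m * p m : ℝ)) (v τ ![m, n])) σ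
  simp only [one_smul, (h _).con n G hG h0] at this
  simp only [run_Phi (hG _), ← this]
  simp [Two.run]

lemma Sv.swap (hw : Sv c w) (a b : Fin 4) : Zf c w K ![a, b] = Zf c w K ![b, a] := by
  simp only [Zf, Zs, sum2]
  rw [Finset.sum_comm]
  refine Finset.sum_congr rfl fun m _ => Finset.sum_congr rfl fun n _ => ?_
  simp only [hw.sym n m, sy, Fin.prod_univ_two, Matrix.cons_val_zero, Matrix.cons_val_one,
    mul_comm]

lemma Sv.zero0 (hw : Sv c w) (hK : Ad 2 K) (b : Fin 4) : Zf c w K ![3, b] = 0 := by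
  obtain ⟨K', h1, h2⟩ := ex_wt (fun n p => ((eta n * fr b p n : ℝ) : ℂ)) fun n =>
    Complex.continuous_ofReal.comp (by have := cont_fr b; fun_prop)
  refine Phi_inj (c := c) h1.bd h1.ne ?_
  simp only [Zf, Zs, sum2, _root_.map_sum, map_zero]
  rw [Finset.sum_comm]
  refine Finset.sum_eq_zero fun n _ => ?_
  have e : ∀ m, (fun p => K p * (K' p * (eta n * fr b p n : ℝ)) * (eta m * p m : ℝ)) =
      fun p => K' p * (K p * sy (fun j => fr (![3, b] j) p) ![m, n]) := fun m => funext fun p => by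
    simp only [sy, Fin.prod_univ_two, Matrix.cons_val_zero, Matrix.cons_val_one]
    show _ = K' p * (K p * ((eta m * p m * _ : ℝ) : ℂ))
    push_cast
    ring
  have := hw.con n _ (fun m => by rw [e]; exact h1.bd.mul (hK.ok _ _))
    (hK.wt.bd.mul (h2 n))
  simpa only [e, c.bt.mul_apply h1.bd (hK.ok _ _)] using this

/-- longitudinal components vanish -/
theorem Sv.zero (hw : Sv c w) (hK : Ad 2 K) {A : Fin 2 → Fin 4} (h : A 0 = 3 ∨ A 1 = 3) :
    Zf c w K A = 0 := by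
  rw [show A = ![A 0, A 1] from funext fun j => by fin_cases j <;> rfl]
  rcases h with h | h
  · rw [h, hw.zero0 hK]
  · rw [h, hw.swap, hw.zero0 hK]

lemma wd_le {ρ ρ' : Measure V} (h : ρ ≤ ρ') {f : V → ℝ≥0∞} (hf : Measurable f) :
    ρ.withDensity f ≤ ρ'.withDensity f := Measure.le_iff.2 fun S hS => by
  rw [withDensity_apply _ hS, withDensity_apply _ hS]
  exact lintegral_mono' (restrict_mono subset_rfl h) le_rfl

theorem St.ae (h : St c J Λ) (hK : Ad 2 K) (A : Fin 2 → Fin 4) (τ : ℝ) :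
    ∀ᵐ p ∂c.nu (Zf c (fun I => Λ τ I gS) K A), p ∈ Fc :=
  (h.mul.ml.vl wt_g0.bd hK A).high hK.wt1 (by
    rw [Fin.sum_univ_two]; linarith [yw_ge (A 0), yw_ge (A 1)]) (fun τ => by
      rw [Zf, Zs, inner_sum]
      exact Finset.sum_eq_zero fun I _ => (Kin.inner_om_Phi c.bR c.ct (hK.ok A I) _).trans (by
        rw [show inner ℂ (om c.Q) (Λ τ I gS) = 0 from h.perp τ I gS, mul_zero])) τ

/-- one component -/
lemma St.one (hT : St c J Λ) (hK : Ad 2 K) (A : Fin 2 → Fin 4) : ∃ κ : ℝ≥0, ∀ τ (h k : V)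
    (G F : V → ℂ), SN.Bd (fun p => G p * cfs ![h, k] A p) →
    (∀ p, ‖G p‖ * ‖K p * ft g0 p‖ ≤ ‖F p‖) →
    c.nu (c.bt.Phi (fun p => G p * cfs ![h, k] A p) (Zf c (fun I => Λ τ I gS) K A)) ≤ κ •
      (volume.restrict Fc).withDensity fun p =>
        ENNReal.ofReal ((1 + |τ + lm p|) ^ (2 * J) * (nn p h * nn p k * ‖F p‖ ^ 2)) := by
  by_cases hA : A 0 = 3 ∨ A 1 = 3
  · exact ⟨0, fun τ h k G F _ _ => by
      rw [(hT.sv τ).zero hK hA, map_zero]
      exact c.bt.nu_zero.trans_le (Measure.zero_le _)⟩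
  rw [not_or] at hA
  obtain ⟨κ, e⟩ := (hT.mul.ml.vl wt_g0.bd hK A).bound (hK.wt1.mono (subset_univ _))
  refine ⟨κ, fun τ h k G F hG hF => ?_⟩
  have hm := hK.wt1.bd.1
  replace e := e τ
  rw [restrict_eq_self_of_ae_mem (hT.ae hK A τ)] at e
  have md := meas_dn hm (2 * (4 / 2 + ∑ j, xw (A j)) - 2 * (4 / 2 + ∑ j, yw (A j)))
    (2 * (4 / 2 + ∑ j, yw (A j)) - 2)
  rw [nu_Phi' hG]
  refine (wd_le e (meas_sq2 hG.1)).trans ?_
  rw [ENNReal.smul_def, ENNReal.smul_def, withDensity_smul_measure,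
    ← withDensity_mul _ (by fun_prop) (meas_sq2 hG.1)]
  refine Measure.le_iff'.2 fun S => mul_le_mul_right (Measure.le_iff'.1 (withDensity_mono
    ((ae_fc _).mono fun p hp => ?_)) S) _
  obtain ⟨h1, h2⟩ := (mem_Fc p).1 hp
  have a0 := cf_le hA.1 h hp
  have a1 := cf_le hA.2 k hp
  have d0 := dn_nonneg (fun p => K p * ft g0 p) (2 * (4 / 2 + ∑ j, xw (A j)) -
    2 * (4 / 2 + ∑ j, yw (A j))) (2 * (4 / 2 + ∑ j, yw (A j)) - 2) hp
  simp only [Pi.mul_apply, sq2]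
  rw [← ENNReal.ofReal_mul (by positivity), mul_right_comm, mul_comm _ (_ ^ (2 * J))]
  refine ENNReal.ofReal_le_ofReal (mul_le_mul_of_nonneg_left ?_ (by positivity))
  calc _ = cf h (A 0) p ^ 2 * (be p ^ (2 * (xw (A 0) - yw (A 0))) * mu p ^ (1 + 2 * yw (A 0))) *
        (cf k (A 1) p ^ 2 * (be p ^ (2 * (xw (A 1) - yw (A 1))) * mu p ^ (1 + 2 * yw (A 1)))) *
        (‖G p‖ * ‖K p * ft g0 p‖) ^ 2 := by
        rw [dn, Fin.sum_univ_two, Fin.sum_univ_two, show 2 * (4 / 2 + (xw (A 0) + xw (A 1))) -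
          2 * (4 / 2 + (yw (A 0) + yw (A 1))) = 2 * (xw (A 0) - yw (A 0)) +
          2 * (xw (A 1) - yw (A 1)) by ring, show 2 * (4 / 2 + (yw (A 0) + yw (A 1))) - 2 =
          1 + 2 * yw (A 0) + (1 + 2 * yw (A 1)) by ring, Real.rpow_add h1, Real.rpow_add h2,
          norm_mul (G p), cfs, Complex.norm_real, mul_pow, Real.norm_eq_abs, sq_abs,
          Fin.prod_univ_two]
        simp only [Matrix.cons_val_zero, Matrix.cons_val_one]
        ring
    _ ≤ _ := by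
        have b0 : 0 ≤ nn p h := le_trans (by positivity) a0
        have b1 : 0 ≤ nn p k := le_trans (by positivity) a1
        gcongr
        exact hF p

/-- **the two point function, with logarithms** -/
theorem St.two0 (hT : St c J Λ) : ∃ C : ℝ≥0, ∀ τ (h k : V) (f : Sch),
    c.nu (∑ I, (sy ![h, k] I : ℂ) • Λ τ I f) ≤ C • (volume.restrict Fc).withDensity fun p =>
      ENNReal.ofReal ((1 + |τ + lm p|) ^ (2 * J) * (nn p h * nn p k * ‖ft (ev f) p‖ ^ 2)) := by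
  obtain ⟨K, hK⟩ := ex_ad 2
  choose κ hκ using hT.one hK
  refine ⟨4 ^ 16 * ∑ A, κ A, fun τ h k f => ?_⟩
  have b := wt_g0.bd
  have bf : SN.Bd (ft (ev f)) := bd_ft ⟨f, rfl⟩
  rw [mul_smul]
  refine le_of_Bn (c.ae_be (by
    simp only [inner_sum, inner_smul_right, hT.perp, mul_zero, Finset.sum_const_zero]))
    fun n => ?_
  have hG : Cp {p | 0 < be p} fun p => (Bn n).indicator (ft (ev f)) p * (K p * ft g0 p)⁻¹ :=
    (cp_ind (Bn_cpt n) (Bn_sub n) bf).mul (minv hK.wt1.bd.1)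
      ((hK.wt1.cont.mono (subset_univ _)).inv₀ fun p _ => hK.wt1.ne p)
  rw [Bs.nu, ← c.bt.nu_P (Bn_cpt n).measurableSet, (Phi_inj (c := c) b g0_ne ?_).trans
    (expand (w := fun I => Λ τ I gS) hK hG subset_rfl ![h, k])
    (a := c.bt.P (Bn n) (∑ I, (sy ![h, k] I : ℂ) • Λ τ I f))]
  · refine nu_sum_le _ fun A _ => (hκ A τ h k _ _ (hG.cfs subset_rfl _ A).1 fun p => ?_).trans
      (smul_le (Finset.single_le_sum (fun _ _ => zero_le) (Finset.mem_univ A)) _)
    rw [← norm_mul, inv_mul_cancel_right₀ (hK.wt1.ne p)]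
    exact norm_indicator_le_norm_self _ _
  · have bi := SN.Bd.ind (Bn_cpt n).measurableSet
    rw [SN.Calc.P, c.bt.comm b bi, ← c.bt.mul_apply b (hG.1.mul hK.wt.bd)]
    simp only [_root_.map_sum, map_smul, hT.mul.rel τ _ f, ← c.bt.mul_apply bi bf]
    congr! 4 with J _ p
    funext p
    by_cases hp : p ∈ Bn n
    · simp only [indicator_of_mem hp]
      field_simp [hK.wt.ne p, g0_ne p]
    · simp only [indicator_of_notMem hp, zero_mul, mul_zero]

lemma nn_nonneg (h : V) {p : V} (hp : p ∈ Fc) : 0 ≤ nn p h := by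
  obtain ⟨h1, h2⟩ := (mem_Fc p).1 hp
  rw [nn_eq h h1.ne']
  positivity

lemma log_pow (n : ℕ) {d : ℝ} (hd : 0 < d) : ∃ C, 0 ≤ C ∧ ∀ τ, ∀ p ∈ Fc, (1 + |τ + lm p|) ^ n ≤
    C * ((Real.exp (2 * τ) * mu p) ^ d + (Real.exp (2 * τ) * mu p) ^ (-d)) := by
  obtain ⟨C, C0, hC⟩ := log_le_rpow n (1 / 2) 0 hd
  refine ⟨C, C0, fun τ p hp => ?_⟩
  have h2 := ((mem_Fc p).1 hp).2
  have := hC (Real.exp (2 * τ) * mu p) (by positivity)
  rwa [Real.log_mul (Real.exp_pos _).ne' h2.ne', Real.log_exp, show 0 + 1 / 2 * (2 * τ +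
    Real.log (mu p)) = τ + lm p by rw [lm]; ring] at this

/-- **the two point function, with powers** -/
theorem St.two (hT : St c J Λ) {d : ℝ} (hd : 0 < d) : ∃ C : ℝ, 0 ≤ C ∧ ∀ τ (h k : V) (f : Sch),
    c.nu (∑ I, (sy ![h, k] I : ℂ) • Λ τ I f) ≤ (volume.restrict Fc).withDensity fun p =>
      ENNReal.ofReal (C * ((Real.exp (2 * τ) * mu p) ^ d + (Real.exp (2 * τ) * mu p) ^ (-d)) *
        nn p h * nn p k * ‖ft (ev f) p‖ ^ 2) := by
  obtain ⟨C, hC⟩ := hT.two0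
  obtain ⟨C', C0, hC'⟩ := log_pow (2 * J) hd
  refine ⟨C * C', by positivity, fun τ h k f => (hC τ h k f).trans ?_⟩
  rw [ENNReal.smul_def, ← withDensity_smul' _ _ ENNReal.coe_ne_top]
  refine withDensity_mono ((ae_fc _).mono fun p hp => ?_)
  have a := nn_nonneg h hp
  have b := nn_nonneg k hp
  rw [Pi.smul_apply, smul_eq_mul, ← ENNReal.ofReal_coe_nnreal,
    ← ENNReal.ofReal_mul (NNReal.coe_nonneg _)]
  refine ENNReal.ofReal_le_ofReal ?_
  calc _ ≤ C * (C' * ((Real.exp (2 * τ) * mu p) ^ d + (Real.exp (2 * τ) * mu p) ^ (-d)) *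
        (nn p h * nn p k * ‖ft (ev f) p‖ ^ 2)) := by gcongr; exact hC' τ p hp
    _ = _ := by ring

/-- the support is in the open cone -/
theorem St.fc (hT : St c J Λ) (τ : ℝ) (I : Fin 2 → Ix) (f : Sch) :
    ∀ᵐ p ∂c.nu (Λ τ I f), p ∈ Fc := by
  obtain ⟨C, -, h⟩ := hT.two one_pos
  have := h τ (Poly.eb I 0) (Poly.eb I 1) f
  rw [show ![Poly.eb I 0, Poly.eb I 1] = Poly.eb I from funext fun j => by fin_cases j <;> rfl,
    Poly.sum_eb I fun I => Λ τ I f] at this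
  exact (this.absolutelyContinuous.trans (withDensity_absolutelyContinuous _ _)).ae_le (ae_fc _)

end st

end

end Vale.Agent.P352L.Two
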