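import Vale.Agent.P352L.W
import Vale.Agent.P352X.Api3
import Vale.Agent.P352X.Api4
import Vale.Agent.P352X.R.LIE

/-!
# P352L: the calculus of the slot operators (no context)
-/

set_option linter.all false

open scoped SchwartzMap ContDiff LineDeriv

namespace Vale.Agent.P352L

open Vale.Agent.P352.GF Vale.Agent.P352.H246 Vale.Agent.P352X
open Vale.Agent.P352.BW Vale.Agent.P352.H496 Vale.Agent.P352.H755
open MvPolynomial (X)

noncomputable section

variable {E E' : Type*} [NormedAddCommGroup E] [NormedSpace ℝ E] [NormedAddCommGroup E']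
  [NormedSpace ℝ E'] {e : V →L[ℝ] E} {e' : V →L[ℝ] E'}

/-- continuous linear maps are bounded by the seminorms -/
lemma sn_clm (Λ : 𝓢(E, ℂ) →L[ℂ] 𝓢(E', ℂ)) (N : ℕ) :
    ∃ (m : ℕ) (C : ℝ), 0 ≤ C ∧ ∀ f, sn N (Λ f) ≤ C * sn m f :=
  Lie.clm (((Finset.Iic (N, N)).sup (schwartzSeminormFamily ℂ E' ℂ)).comp Λ.toLinearMap)
    ((Seminorm.continuous_finsetSup fun k _ =>
      (schwartz_withSeminorms ℂ E' ℂ).continuous_seminorm k).comp Λ.continuous)

lemma norm_clm {B : Type*} [NormedAddCommGroup B] [NormedSpace ℂ B] (Λ : 𝓢(E, ℂ) →L[ℂ] B) :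
    ∃ (m : ℕ) (C : ℝ), 0 ≤ C ∧ ∀ f, ‖Λ f‖ ≤ C * sn m f :=
  Lie.clm ((normSeminorm ℂ B).comp Λ.toLinearMap) (continuous_norm.comp Λ.continuous)

/-! ## maps that intertwine two slots -/

/-- `Λ` intertwines the derivatives in the slots `e'` and `e` -/
def Itw (e : V →L[ℝ] E) (e' : V →L[ℝ] E') (Λ : 𝓢(E', ℂ) →L[ℂ] 𝓢(E, ℂ)) : Prop :=
  ∀ v F, dD (e v) (Λ F) = Λ (dD (e' v) F)

namespace Itw

variable {Λ : 𝓢(E', ℂ) →L[ℂ] 𝓢(E, ℂ)} (h : Itw e e' Λ)
include h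

theorem sy (P : MvPolynomial Ix ℂ) (F : 𝓢(E', ℂ)) : sy e P (Λ F) = Λ (sy e' P F) := by
  induction P using MvPolynomial.induction_on generalizing F with
  | C a => simp [MvPolynomial.C_eq_smul_one]
  | add p q hp hq => simp only [map_add, ContinuousLinearMap.add_apply, hp, hq]
  | mul_X p i hp =>
    simp only [map_mul, sy_X, ContinuousLinearMap.mul_apply, pD, h _ F, hp]

theorem pD (m : Ix) (F : 𝓢(E', ℂ)) : pD e m (Λ F) = Λ (pD e' m F) := h _ F
theorem bD (F : 𝓢(E', ℂ)) : bD e (Λ F) = Λ (bD e' F) := by rw [bD_sy, bD_sy, h.sy]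
theorem hD (I : I2) (F : 𝓢(E', ℂ)) : hD e I (Λ F) = Λ (hD e' I F) := by rw [hD_sy, hD_sy, h.sy]
theorem rD (I : I2) (F : 𝓢(E', ℂ)) : rD e I (Λ F) = Λ (rD e' I F) := by rw [rD_sy, rD_sy, h.sy]
theorem aD (κ : I3) (I : I2) (F : 𝓢(E', ℂ)) : aD e κ I (Λ F) = Λ (aD e' κ I F) := by
  rw [aD_sy, aD_sy, h.sy]
theorem nD (κ : I3) (F : 𝓢(E', ℂ)) : nD e κ (Λ F) = Λ (nD e' κ F) := by rw [nD_sy, nD_sy, h.sy]

end Itw

lemma itw_dD (e : V →L[ℝ] E) (w : E) : Itw e e (dD w) := fun v F =>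
  DFunLike.congr_fun (dD_comm (e v) w) F

/-- operators in any two slots commute -/
lemma itw_sy (e e₁ : V →L[ℝ] E) (P : MvPolynomial Ix ℂ) : Itw e e (sy e₁ P) := fun v F =>
  ((itw_dD e₁ (e v)).sy P F).symm

lemma sy_comm (e e₁ : V →L[ℝ] E) (P Q : MvPolynomial Ix ℂ) :
    sy e P * sy e₁ Q = sy e₁ Q * sy e P :=
  ContinuousLinearMap.ext fun F => (itw_sy e e₁ Q).sy P F

lemma hD_comm (e e₁ : V →L[ℝ] E) (I J : I2) : hD e I * hD e₁ J = hD e₁ J * hD e I := by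
  rw [hD_sy, hD_sy, sy_comm]

lemma hD_dD (e : V →L[ℝ] E) (I : I2) (w : E) (F : 𝓢(E, ℂ)) : hD e I (dD w F) = dD w (hD e I F) :=
  (itw_dD e w).hD I F

lemma hD_bD (e e₁ : V →L[ℝ] E) (I : I2) (F : 𝓢(E, ℂ)) : hD e I (bD e₁ F) = bD e₁ (hD e I F) := by
  rw [bD_sy]
  exact (itw_sy e e₁ _).hD I F

lemma hD_swap (e : V →L[ℝ] E) (I : I2) : hD e I.swap = hD e I := by
  obtain ⟨r, s⟩ := I
  have : gm (s, r) = gm (r, s) := by
    simp only [gm, bas]
    by_cases h : r = s <;> simp [h, eq_comm]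
  simp only [hD, Prod.swap, this, mul_comm (la r)]

/-- multiplication by functions that are constant along the slot -/
lemma itw_mul {u : E → ℂ} (hu : u.HasTemperateGrowth) (h : ∀ v x, fderiv ℝ u x (e v) = 0) :
    Itw e e (SchwartzMap.smulLeftCLM ℂ u) := fun v F => by
  ext x
  have c : ⇑(SchwartzMap.smulLeftCLM ℂ u F) = fun x => u x * F x :=
    funext fun x => SchwartzMap.smulLeftCLM_apply_apply hu F x
  rw [dD_eq, c, SchwartzMap.smulLeftCLM_apply_apply hu, dD_eq,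
    fderiv_fun_mul (hu.1.differentiable (by simp) x) F.differentiableAt]
  simp [h]

/-! ## tensor products -/

lemma dD_tens (f : 𝓢(E, ℂ)) (g : 𝓢(E', ℂ)) (v : E × E') :
    dD v (ST.tens f g) = ST.tens (dD v.1 f) g + ST.tens f (dD v.2 g) := by
  ext x
  have := ((f.hasFDerivAt x.1).comp x hasFDerivAt_fst).mul
    ((g.hasFDerivAt x.2).comp x hasFDerivAt_snd)
  rw [dD_eq, show ⇑(ST.tens f g) = (f ∘ Prod.fst) * (g ∘ Prod.snd) from rfl, this.fderiv]
  simp [dD_eq]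
  ring

lemma dD_zero (F : 𝓢(E, ℂ)) : dD (0 : E) F = 0 := by
  ext x
  simp [dD_eq]

lemma itw_tensL {e₁ : V →L[ℝ] E × E'} (h : ∀ v, e₁ v = (e v, 0)) (g : 𝓢(E', ℂ)) :
    Itw e₁ e (ST.tensL g) := fun v F => by
  rw [ST.tensL_apply, dD_tens, h, dD_zero, ← ST.tensR_apply F 0, map_zero, add_zero]
  rfl

lemma itw_tensR {e₁ : V →L[ℝ] E × E'} (h : ∀ v, e₁ v = (0, e' v)) (f : 𝓢(E, ℂ)) :
    Itw e₁ e' (ST.tensR f) := fun v F => by
  rw [ST.tensR_apply, dD_tens, h, dD_zero, ← ST.tensL_apply 0 F, map_zero, zero_add]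
  rfl

lemma eq_tens {f : 𝓢(E, ℂ)} {g : 𝓢(E', ℂ)} {F : 𝓢(E × E', ℂ)} (h : ∀ x y, F (x, y) = f x * g y) :
    F = ST.tens f g := SchwartzMap.ext fun z => h z.1 z.2

lemma hD_i1 (I : I2) (f g : Sch) : hD i1 I (ST.tens f g) = ST.tens (hD i0 I f) g :=
  (itw_tensL (e := i0) (fun _ => rfl) g).hD I f

lemma hD_i2 (I : I2) (f g : Sch) : hD i2 I (ST.tens f g) = ST.tens f (hD i0 I g) :=
  (itw_tensR (e' := i0) (fun _ => rfl) f).hD I g

lemma hD_j1 (I : I2) (f : Sch) (G : S2) : hD j1 I (ST.tens f G) = ST.tens (hD i0 I f) G :=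
  (itw_tensL (e := i0) (fun _ => rfl) G).hD I f

lemma hD_j2 (I : I2) (f : Sch) (G : S2) : hD j2 I (ST.tens f G) = ST.tens f (hD i1 I G) :=
  (itw_tensR (e' := i1) (fun _ => rfl) f).hD I G

lemma hD_j3 (I : I2) (f : Sch) (G : S2) : hD j3 I (ST.tens f G) = ST.tens f (hD i2 I G) :=
  (itw_tensR (e' := i2) (fun _ => rfl) f).hD I G

/-! ## supports, conjugation -/

lemma tsupport_dD (v : E) (F : 𝓢(E, ℂ)) : tsupport (dD v F) ⊆ tsupport F := by
  rw [show ⇑(dD v F) = _ from funext (dD_eq v F)]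
  exact Api4.tsupport_fderiv_subset F fun _ => v

lemma tsupport_sy (e : V →L[ℝ] E) (P : MvPolynomial Ix ℂ) (F : 𝓢(E, ℂ)) :
    tsupport (sy e P F) ⊆ tsupport F := by
  induction P using MvPolynomial.induction_on generalizing F with
  | C a =>
    simp only [MvPolynomial.C_eq_smul_one, map_smul, map_one, ContinuousLinearMap.smul_apply]
    exact tsupport_smul_subset_right (fun _ => a) F
  | add p q hp hq =>
    simp only [map_add, ContinuousLinearMap.add_apply]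
    exact (tsupport_add _ _).trans (Set.union_subset (hp F) (hq F))
  | mul_X p i hp =>
    simp only [map_mul, sy_X, ContinuousLinearMap.mul_apply]
    exact (hp _).trans (tsupport_dD _ F)

lemma tsupport_hD (e : V →L[ℝ] E) (I : I2) (F : 𝓢(E, ℂ)) : tsupport (hD e I F) ⊆ tsupport F :=
  hD_sy e I ▸ tsupport_sy e _ F
lemma tsupport_aD (e : V →L[ℝ] E) (κ : I3) (I : I2) (F : 𝓢(E, ℂ)) :
    tsupport (aD e κ I F) ⊆ tsupport F := aD_sy e κ I ▸ tsupport_sy e _ F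
lemma tsupport_nD (e : V →L[ℝ] E) (κ : I3) (F : 𝓢(E, ℂ)) : tsupport (nD e κ F) ⊆ tsupport F :=
  nD_sy e κ ▸ tsupport_sy e _ F
lemma tsupport_bD (e : V →L[ℝ] E) (F : 𝓢(E, ℂ)) : tsupport (bD e F) ⊆ tsupport F :=
  bD_sy e ▸ tsupport_sy e _ F

section star

variable {F G : 𝓢(E, ℂ)} (h : ∀ x, G x = star (F x))
include h

lemma dD_star (v x : E) : dD v G x = star (dD v F x) := by
  have : HasFDerivAt (fun x => star (F x)) ((Complex.conjCLE : ℂ →L[ℝ] ℂ) ∘L fderiv ℝ F x) x :=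
    (Complex.conjCLE : ℂ →L[ℝ] ℂ).hasFDerivAt.comp x (F.hasFDerivAt x)
  rw [dD_eq, dD_eq, show ⇑G = _ from funext h, this.fderiv]
  rfl

lemma bD_star (e : V →L[ℝ] E) (x : E) : bD e G x = star (bD e F x) := by
  simp [bD, pD, ContinuousLinearMap.sum_apply, SchwartzMap.sum_apply, dD_star (dD_star h _)]

lemma hD_star (e : V →L[ℝ] E) (I : I2) (x : E) : hD e I G x = star (hD e I F x) := by
  simp [hD, bD_star h, dD_star (dD_star h _)]

lemma aD_star (e : V →L[ℝ] E) (κ : I3) (I : I2) (x : E) : aD e κ I G x = star (aD e κ I F x) := by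
  simp [aD, pD, dD_star h]

lemma nD_star (e : V →L[ℝ] E) (κ : I3) (x : E) : nD e κ G x = star (nD e κ F x) := by
  simp [nD, pD, dD_star h]

end star

/-! ## affine substitutions -/

/-- `F ↦ F (A · + a)` -/
def cp (A : E' ≃L[ℝ] E) (a : E) : 𝓢(E, ℂ) →L[ℂ] 𝓢(E', ℂ) :=
  SchwartzMap.compCLMOfContinuousLinearEquiv ℂ A ∘L SchwartzMap.compSubConstCLM ℂ (-a)

lemma cp_apply (A : E' ≃L[ℝ] E) (a : E) (F : 𝓢(E, ℂ)) (x : E') : cp A a F x = F (A x + a) := by
  show F (A x - -a) = _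
  rw [sub_neg_eq_add]

lemma dD_cp (A : E' ≃L[ℝ] E) (a : E) (v : E') (F : 𝓢(E, ℂ)) :
    dD v (cp A a F) = cp A a (dD (A v) F) := by
  ext x
  have := (F.hasFDerivAt (A x + a)).comp x ((A : E' →L[ℝ] E).hasFDerivAt.add_const a)
  rw [cp_apply, dD_eq, dD_eq, show ⇑(cp A a F) = F ∘ fun x => (A : E' →L[ℝ] E) x + a from
    funext (cp_apply A a F), this.fderiv]
  rfl

lemma itw_cp {A : E' ≃L[ℝ] E} (h : ∀ v, A (e' v) = e v) (a : E) : Itw e' e (cp A a) :=
  fun v F => by rw [dD_cp, h]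

lemma md_bas1 (m : Ix) (x : V) : mdot (bas m 1) x = eta m * x m := by
  simp [mdot, bas]

lemma conf_col {B : V → V} {k : ℝ} (h : Conf B k) (r s : Ix) :
    ∑ m, eta m * (B (bas m 1) r * B (bas m 1) s) = k * gm (r, s) := by
  have a : ∀ m r, B (bas m 1) r = eta r * (k * (eta m * h.cle.symm (bas r 1) m)) := fun m r => by
    rw [← md_bas1, ← h.md_l, md_comm, md_bas1, ← mul_assoc, eta_sq, one_mul]
  have b := h.symm.md (bas r 1) (bas s 1)
  have c : eta r * eta s * mdot (bas r 1) (bas s 1) = gm (r, s) := by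
    fin_cases r <;> fin_cases s <;> simp [md_bas1, gm, bas, eta, o]
  rw [← c, ← (eq_inv_mul_iff_mul_eq₀ h.pos.ne').1 b, mdot]
  simp only [a, Finset.mul_sum]
  refine Finset.sum_congr rfl fun m _ => ?_
  linear_combination (eta r * eta s * k * k * eta m * h.cle.symm (bas r 1) m *
    h.cle.symm (bas s 1) m) * eta_sq m

lemma dD_sy (e : V →L[ℝ] E) (v : V) : dD (e v) = sy e (∑ m, (v m : ℂ) • X m) := by
  simp only [dD_slot, map_sum, map_smul, sy_X]

variable {A : E' ≃L[ℝ] E} {B : V → V} {k r : ℝ}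

lemma bD_cp (hB : Conf B k) (h : ∀ v, A (e' v) = e (B v)) (a : E) (F : 𝓢(E, ℂ)) :
    bD e' (cp A a F) = (k : ℂ) • cp A a (bD e F) := by
  have : ∑ m, (eta m : ℂ) • (dD (e (B (bas m 1))) * dD (e (B (bas m 1)))) = (k : ℂ) • bD e := by
    simp only [dD_sy, bD_sy, ← map_mul, ← map_smul, ← map_sum]
    refine sy_ext e fun p => ?_
    simp only [map_sum, map_smul, map_mul, MvPolynomial.aeval_X, smul_eq_mul, Finset.sum_mul_sum]
    simp only [Finset.mul_sum]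
    rw [Finset.sum_comm]
    refine Finset.sum_congr rfl fun r _ => ?_
    rw [Finset.sum_comm]
    have : ∀ s, ∑ m, (eta m : ℂ) * (B (bas m 1) r * p r * (B (bas m 1) s * p s)) =
        (k * gm (r, s) : ℝ) * (p r * p s) := fun s => by
      rw [← conf_col hB, Complex.ofReal_sum, Finset.sum_mul]
      exact Finset.sum_congr rfl fun m _ => by push_cast; ring
    simp only [this]
    simp [gm, bas, apply_ite Complex.ofReal, mul_assoc]
  rw [← map_smul, ← ContinuousLinearMap.smul_apply, ← this]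
  simp only [bD, pD, ContinuousLinearMap.sum_apply, ContinuousLinearMap.smul_apply,
    ContinuousLinearMap.mul_apply, dD_cp, h, map_sum, map_smul]

/-- the transformation law of `hD` under conformal linear maps that fix the direction `a` -/
theorem hD_cp (hB : Conf B k) (hr : B va = r • va) (h : ∀ v, A (e' v) = e (B v)) (a : E) (K : I2)
    (F : 𝓢(E, ℂ)) : hD e' K (cp A a F) = ∑ I : I2,
      ((r ^ 2 / k * (B (bas K.1 1) I.1 * B (bas K.2 1) I.2) : ℝ) : ℂ) • cp A a (hD e I F) := by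
  have k0 := hB.pos.ne'
  have a1 : ∑ I : I2, B (bas K.1 1) I.1 * B (bas K.2 1) I.2 * gm I = k * gm K := by
    have := hB.md (bas K.1 1) (bas K.2 1)
    rw [md_bas1] at this
    rw [show k * gm K = _ from Eq.trans (by
      obtain ⟨m, n⟩ := K
      by_cases q : m = n <;> simp [gm, bas, q, eq_comm]) this.symm]
    simp [Fintype.sum_prod_type, gm, bas, mdot, mul_comm, mul_left_comm, mul_assoc]
  have a2 : ∀ n, r * ∑ m, B (bas n 1) m * la m = k * la n := fun n => by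
    have := hB.md (bas n 1) va
    rw [hr, md_smul, md_bas1] at this
    rw [la, ← this, mdot]
    simp only [la, mul_comm, mul_left_comm]
  have a3 : r ^ 2 * ∑ I : I2, B (bas K.1 1) I.1 * B (bas K.2 1) I.2 * (la I.1 * la I.2) =
      k ^ 2 * (la K.1 * la K.2) := by
    rw [show k ^ 2 * (la K.1 * la K.2) = k * la K.1 * (k * la K.2) by ring, ← a2, ← a2,
      mul_mul_mul_comm, Finset.sum_mul_sum, Fintype.sum_prod_type, sq]
    simp only [mul_mul_mul_comm]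
  have b1 : ∑ I : I2, ((r ^ 2 / k * (B (bas K.1 1) I.1 * B (bas K.2 1) I.2) : ℝ) : ℂ) * (gm I : ℝ) =
      (gm K : ℂ) * ((r : ℂ) * r) := by
    simp only [← Complex.ofReal_mul, ← Complex.ofReal_sum, mul_assoc (r ^ 2 / k), ← Finset.mul_sum,
      a1]
    congr 1
    field_simp
  have b2 : ∑ I : I2, ((r ^ 2 / k * (B (bas K.1 1) I.1 * B (bas K.2 1) I.2) : ℝ) : ℂ) *
      (3 * (la I.1 * la I.2) : ℝ) = ((3 * (la K.1 * la K.2) : ℝ) : ℂ) * k := by
    simp only [← Complex.ofReal_mul, ← Complex.ofReal_sum, mul_assoc (r ^ 2 / k), ← Finset.mul_sum,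
      mul_left_comm _ (3 : ℝ)]
    congr 1
    rw [div_mul_eq_mul_div, a3]
    field_simp
  simp only [hD, ContinuousLinearMap.add_apply, ContinuousLinearMap.smul_apply,
    ContinuousLinearMap.mul_apply, dD_cp, bD_cp hB h, h, hr, map_smul, dD_smul, map_add, smul_add,
    smul_smul, Finset.sum_add_distrib, ← Finset.sum_smul, b1, b2]

lemma sim_bas (s : ℝ) (L : Ix → V) (m n : Ix) : sim s L 0 (bas m 1) n = s * L m n := by
  simp [sim, bas]

theorem hD_sim {s : ℝ} {L : Ix → V} (hs : 0 < s) (hL : IsLor L) (hr : sim s L 0 va = r • va)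
    (h : ∀ v, A (e' v) = e (sim s L 0 v)) (a : E) (K : I2) (F : 𝓢(E, ℂ)) :
    hD e' K (cp A a F) = ((r ^ 2 : ℝ) : ℂ) • ∑ I : I2, L2 L K I • cp A a (hD e I F) := by
  rw [hD_cp (conf_sim hs hL) hr h, Finset.smul_sum]
  refine Finset.sum_congr rfl fun I _ => ?_
  rw [smul_smul, L2, sim_bas, sim_bas, ← Complex.ofReal_mul]
  congr 2
  field_simp

theorem hD_jr (h : ∀ v, A (e' v) = e (jr v)) (a : E) (K : I2) (F : 𝓢(E, ℂ)) :
    hD e' K (cp A a F) = ((sj K.1 * sj K.2 : ℝ) : ℂ) • cp A a (hD e K F) := by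
  rw [hD_cp (r := -1) conf_jr (null_ext (by simp) (by simp) (by simp)) h,
    Finset.sum_eq_single K (fun I _ q => ?_) (by simp)]
  · simp [jr_apply, bas]
  · have : ¬ (I.1 = K.1 ∧ I.2 = K.2) := fun u => q (Prod.ext u.1 u.2)
    rcases not_and_or.1 this with u | u <;> simp [jr_apply, bas, u]

/-! ## the diagonal action on several points -/

/-- `B` on both points -/
def c2 (B : V ≃L[ℝ] V) : (V × V) ≃L[ℝ] V × V := B.prodCongr B
/-- `B` on all three points -/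
def c3 (B : V ≃L[ℝ] V) : (V × V × V) ≃L[ℝ] V × V × V := B.prodCongr (c2 B)

lemma c2_i1 (B : V ≃L[ℝ] V) (v : V) : c2 B (i1 v) = i1 (B v) := by simp [c2, i1]
lemma c2_i2 (B : V ≃L[ℝ] V) (v : V) : c2 B (i2 v) = i2 (B v) := by simp [c2, i2]
lemma c3_j1 (B : V ≃L[ℝ] V) (v : V) : c3 B (j1 v) = j1 (B v) := by simp [c3, j1]
lemma c3_j2 (B : V ≃L[ℝ] V) (v : V) : c3 B (j2 v) = j2 (B v) := by simp [c3, j2, c2_i1]
lemma c3_j3 (B : V ≃L[ℝ] V) (v : V) : c3 B (j3 v) = j3 (B v) := by simp [c3, j3, c2_i2]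

lemma cp_c2 (B : V ≃L[ℝ] V) (a : V) (F : S2) (x y : V) :
    cp (c2 B) (a, a) F (x, y) = F (B x + a, B y + a) := cp_apply _ _ _ _
lemma cp_c3 (B : V ≃L[ℝ] V) (a : V) (F : S3) (x y z : V) :
    cp (c3 B) (a, a, a) F (x, y, z) = F (B x + a, B y + a, B z + a) := cp_apply _ _ _ _

/-- `(x, y, z) ↦ (z, y, x)` -/
def x13 : (V × V × V) ≃L[ℝ] V × V × V :=
  .equivOfInverse ((ContinuousLinearMap.snd ℝ V V ∘L .snd ℝ V _).prod
      ((ContinuousLinearMap.fst ℝ V V ∘L .snd ℝ V _).prod (.fst ℝ V _)))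
    ((ContinuousLinearMap.snd ℝ V V ∘L .snd ℝ V _).prod
      ((ContinuousLinearMap.fst ℝ V V ∘L .snd ℝ V _).prod (.fst ℝ V _))) (fun _ => rfl) fun _ => rfl

@[simp] lemma x13_apply (z : V × V × V) : x13 z = (z.2.2, z.2.1, z.1) := rfl

/-- `(x, y, z) ↦ ((x, y), z)` -/
def as3 : (V × V × V) ≃L[ℝ] (V × V) × V := (ContinuousLinearEquiv.prodAssoc ℝ V V V).symm

/-- `G (x, y) f z` -/
def tn3 (G : S2) (f : Sch) : S3 := cp as3 0 (ST.tens G f)

lemma tn3_apply (G : S2) (f : Sch) (x y z : V) : tn3 G f (x, y, z) = G (x, y) * f z := by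
  rw [tn3, cp_apply, add_zero]
  rfl

lemma hD_t1 (I : I2) (G : S2) (f : Sch) : hD j1 I (tn3 G f) = tn3 (hD i1 I G) f := by
  rw [tn3, (itw_cp (e := .inl ℝ _ V ∘L i1) (fun _ => rfl) 0).hD]
  exact congrArg _ ((itw_tensL (e := i1) (fun _ => rfl) f).hD I G)

lemma hD_t2 (I : I2) (G : S2) (f : Sch) : hD j2 I (tn3 G f) = tn3 (hD i2 I G) f := by
  rw [tn3, (itw_cp (e := .inl ℝ _ V ∘L i2) (fun _ => rfl) 0).hD]
  exact congrArg _ ((itw_tensL (e := i2) (fun _ => rfl) f).hD I G)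

lemma hD_t3 (I : I2) (G : S2) (f : Sch) : hD j3 I (tn3 G f) = tn3 G (hD i0 I f) := by
  rw [tn3, (itw_cp (e := .inr ℝ (V × V) V) (fun _ => rfl) 0).hD]
  exact congrArg _ ((itw_tensR (e' := i0) (fun _ => rfl) G).hD I f)

end

end Vale.Agent.P352L
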