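import Vale.Agent.P352X.Api1P
import Vale.Agent.P352X.SN.Tool

/-!
# P352L, row P1: integration along a ray

A pair whose derivative along a one parameter group is a pair on the forward half of the orbit,
and whose ergodic averages vanish, is a pair.
-/

set_option linter.all false

open MeasureTheory Filter Topology
open scoped ComplexConjugate

namespace Vale.Agent.P352L

open Vale.Agent.P352 Vale.Agent.P352.GF Vale.Agent.P352X
open Complex (I)

noncomputable section

variable {H : Type*} [NormedAddCommGroup H] [InnerProductSpace ℂ H] [CompleteSpace H]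
  {M : VonNeumannAlgebra H} {ξ x x' y y' k k' : H} {W : ℝ → H →L[ℂ] H}

/-- the averages along the forward orbit tend to zero -/
def Erg (W : ℝ → H →L[ℂ] H) (x : H) : Prop :=
  Tendsto (fun R : ℝ => ∫ s in (0 : ℝ)..1, W (R * s) x) atTop (𝓝 0)

/-- **integration along a ray** -/
theorem ray0 (g : UG W) (h : Gn W x k) (h' : Gn W x' k')
    (hp : ∀ t, 0 ≤ t → Pr M ξ (I • W t k) (I • W t k')) (e : Erg W x) (e' : Erg W x') :
    Pr M ξ x x' := by
  have key : ∀ t, 0 ≤ t → Pr M ξ (x - W t x) (x' - W t x') := fun t ht => by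
    have e1 := g.integral_eq h 0 t
    have e2 := g.integral_eq h' 0 t
    rw [g.zero] at e1 e2
    rw [← neg_sub, ← e1, ← neg_sub (W t x'), ← e2]
    refine (Pr.intervalIntegral (((g.cont _).const_smul I).intervalIntegrable _ _)
      (((g.cont _).const_smul I).intervalIntegrable _ _) fun r hr => ?_).neg
    rw [Set.uIoc_of_le ht] at hr
    exact hp r hr.1.le
  have c : ∀ (R : ℝ) (z : H), Continuous fun s : ℝ => W (R * s) z := fun R z =>
    (g.cont z).comp (continuous_const.mul continuous_id)
  have av : ∀ (R : ℝ) (z : H), ∫ s in (0 : ℝ)..1, (z - W (R * s) z) =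
      z - ∫ s in (0 : ℝ)..1, W (R * s) z := fun R z => by
    rw [intervalIntegral.integral_sub (by simp) ((c R z).intervalIntegrable _ _),
      intervalIntegral.integral_const, sub_zero, one_smul]
  have l : ∀ {z : H}, Erg W z →
      Tendsto (fun R : ℝ => ∫ s in (0 : ℝ)..1, (z - W (R * s) z)) atTop (𝓝 z) := fun {z} hz => by
    simp only [av]
    simpa only [sub_zero] using Tendsto.const_sub z hz
  refine Pr.closed ((eventually_ge_atTop (0 : ℝ)).mono fun R hR => ?_) (l e) (l e')
  refine Pr.intervalIntegral ((continuous_const.sub (c R x)).intervalIntegrable _ _)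
    ((continuous_const.sub (c R x')).intervalIntegrable _ _) fun s hs => key _ ?_
  rw [Set.uIoc_of_le zero_le_one] at hs
  exact mul_nonneg hR hs.1.le

/-- the same for a group that fixes `ξ` and maps `M` into itself for positive times: if the
derivatives `y`, `y'` form a pair, then so do `x`, `x'` -/
theorem ray (g : UG W) (hv : ∀ t, W t ξ = ξ) (hM : ∀ t, 0 ≤ t → ∀ X ∈ M, W t * X * W (-t) ∈ M)
    (h : Gn W x (I • y)) (h' : Gn W x' (I • y')) (hp : Pr M ξ y y') (e : Erg W x)
    (e' : Erg W x') : Pr M ξ x x' :=
  ray0 g h h' (fun t ht => by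
    have := (hp.cov_ug g (hv t) (hM t ht)).neg
    rwa [map_smul, map_smul, smul_smul, smul_smul, Complex.I_mul_I, neg_one_smul, neg_one_smul])
    e e'

/-- the mean ergodic theorem along the direction `a` -/
theorem erg_of_bc {U : V → H → H} (C : SN.BC (fun p y : V => GF.mdot p y) U) {a : V}
    (hW : ∀ t z, W t z = U (t • a) z) (hx : C.nu x {p | GF.mdot p a = 0} = 0) : Erg W x := by
  obtain ⟨hB, h⟩ := C.ergodic SN.isPair_mdot volume (ContinuousLinearMap.toSpanSingleton ℝ a)
    (u := (Set.Ioc (0 : ℝ) 1).indicator 1)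
    ((integrable_indicator_iff measurableSet_Ioc).2 (integrableOn_const (by simp))) x
  rw [(C.nu_eq_zero hB x).1 (measure_mono_null (fun p hp => by simpa using hp 1) hx),
    smul_zero] at h
  refine h.congr fun t => ?_
  rw [intervalIntegral.integral_of_le zero_le_one, ← integral_indicator measurableSet_Ioc]
  congr 1 with s
  by_cases hs : s ∈ Set.Ioc (0 : ℝ) 1 <;> simp [hs, hW]

end

end Vale.Agent.P352L
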