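import Vale.Agent.P352L.Den
import Vale.Agent.P352X.R.NULL

/-!
# P352L: multiplets of dimension at most three are orthogonal to the closed sources (helper89)
-/

set_option linter.all false

open MeasureTheory Measure Set Filter Topology
open scoped SchwartzMap ComplexConjugate NNReal ENNReal

namespace Vale.Agent.P352L.Two

open Vale.Agent.P352.GF Vale.Agent.P352.BW Vale.Agent.P352.H496 Vale.Agent.P352.H755
open Vale.Agent.P352X Vale.Agent.P352X.Two Vale.Agent.P352X.Poly
open UniformSpace (Completion)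
open Finset (range)

noncomputable section

section alg

open MvPolynomial

theorem hc_mul {a b : MvPolynomial Ix ℂ} {i : ℕ} (h : a.IsHomogeneous i) (n : ℕ) :
    homogeneousComponent n (a * b) = if i ≤ n then a * homogeneousComponent (n - i) b else 0 := by
  letI := MvPolynomial.gradedAlgebra (σ := Ix) (R := ℂ)
  have := DirectSum.coe_decompose_mul_of_left_mem (homogeneousSubmodule Ix ℂ) (b := b) n
    (show a ∈ homogeneousSubmodule Ix ℂ i from h)
  have e := fun (φ : MvPolynomial Ix ℂ) k => decomposition.decompose'_apply φ k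
  rw [← e, ← e]
  exact this

theorem pd_hom0 {a : MvPolynomial Ix ℂ} (h : a.IsHomogeneous 0) (k : Ix) : pderiv k a = 0 := by
  rw [totalDegree_eq_zero_iff_eq_C.1 ((totalDegree_zero_iff_isHomogeneous _).2 h), pderiv_C]

theorem van_low {e : Ix → ℂ} (he : ∀ m, e m ≠ 0) {U : Ix → Ix → MvPolynomial Ix ℂ} {n : ℕ}
    (hn : n ≤ 1) (h1 : ∀ r s, (U r s).IsHomogeneous n) (h2 : ∀ r s, U r s = U s r)
    (h3 : ∀ s, ∑ r, C (e r) * X r * U r s = 0) (r s : Ix) : U r s = 0 := by
  have d1 : ∀ a s, C (e a) * U a s + ∑ r, C (e r) * X r * pderiv a (U r s) = 0 := fun a s => by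
    have := congrArg (pderiv a) (h3 s)
    simp only [_root_.map_sum, map_zero, mul_assoc, pderiv_mul, pderiv_C, zero_mul, zero_add, mul_add,
      Finset.sum_add_distrib] at this
    rw [Finset.sum_eq_single a (fun b _ h => by rw [pderiv_X_of_ne h, zero_mul, mul_zero]) (by simp),
      pderiv_X_self, one_mul] at this
    simpa only [mul_assoc] using this
  have d2 : ∀ a b s, C (e a) * pderiv b (U a s) + C (e b) * pderiv a (U b s) = 0 := fun a b s => by
    have := congrArg (pderiv b) (d1 a s)
    have z : ∀ r, pderiv b (pderiv a (U r s)) = 0 := fun r =>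
      pd_hom0 (by simpa only [Nat.sub_eq_zero_of_le hn] using (h1 r s).pderiv) b
    simp only [map_add, _root_.map_sum, map_zero, mul_assoc, pderiv_mul, pderiv_C, zero_mul, zero_add, z, mul_zero,
      add_zero] at this
    rwa [Finset.sum_eq_single b (fun r _ h => by rw [pderiv_X_of_ne h, zero_mul, mul_zero]) (by simp),
      pderiv_X_self, one_mul] at this
  have hC : ∀ m, (C (e m) : MvPolynomial Ix ℂ) ≠ 0 := fun m => C_ne_zero.2 (he m)
  have d3 : ∀ a b s, pderiv b (U a s) = 0 := fun a b s => by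
    have t1 := d2 a b s
    have t2 := d2 b s a
    have t3 := d2 s a b
    rw [h2 b a, h2 s a] at t2
    rw [h2 s b] at t3
    refine mul_left_cancel₀ (mul_ne_zero (mul_ne_zero (hC a) (hC s)) two_ne_zero) ?_
    linear_combination C (e s) * t1 + C (e a) * t2 - C (e b) * t3
  simpa only [d3, mul_zero, Finset.sum_const_zero, add_zero, mul_eq_zero, hC, false_or] using d1 r s

theorem hom_mup : mup.IsHomogeneous 2 :=
  IsHomogeneous.sum _ _ _ fun m _ => (isHomogeneous_X_pow m 2).C_mul _

theorem ns_alg {d : ℕ} (hd : d ≤ 3) {π : Ix → Ix → MvPolynomial Ix ℂ}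
    (h1 : ∀ r s, (π r s).IsHomogeneous d) (h2 : ∀ r s, π r s = π s r)
    (h3 : ∀ s, ∑ r, C (eta r : ℂ) * X r * π r s = 0)
    (h4 : ∀ r s k, mup ∣ π r s * X k - π k s * X r) : ∃ φ : MvPolynomial Ix ℂ,
      ∀ r s, π r s = (X r * X s - if r = s then C (eta r : ℂ) * mup else 0) * φ := by
  obtain ⟨σ, hσ⟩ := Nul.exists_sigma h1 h2 h3 h4
  choose g hg using hσ
  have e : ∀ r s, π r s = (if 2 ≤ d then X r * X s * homogeneousComponent (d - 2) σ else 0) +
      if 2 ≤ d then mup * homogeneousComponent (d - 2) (g r s) else 0 := fun r s => by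
    rw [← hc_mul ((isHomogeneous_X ℂ r).mul (isHomogeneous_X ℂ s)), ← hc_mul hom_mup, ← map_add,
      ← hg, mul_assoc, add_sub_cancel, homogeneousComponent_eq_self (h1 r s)]
  by_cases h : 2 ≤ d
  · simp only [if_pos h] at e
    set φ := homogeneousComponent (d - 2) σ
    have k : ∀ r s, mup * (homogeneousComponent (d - 2) (g r s) +
        if r = s then C (eta r : ℂ) * φ else 0) =
        π r s - (X r * X s - if r = s then C (eta r : ℂ) * mup else 0) * φ := fun r s => by
      rw [e r s]
      split_ifs <;> ring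
    refine ⟨φ, fun r s => sub_eq_zero.1 ?_⟩
    rw [← k, van_low (n := d - 2) Nul.eta_ne (by omega) (U := fun r s =>
      homogeneousComponent (d - 2) (g r s) + if r = s then C (eta r : ℂ) * φ else 0)
      (fun r s => (homogeneousComponent_isHomogeneous _ _).add (by
        split_ifs
        · exact (homogeneousComponent_isHomogeneous _ _).C_mul _
        · exact isHomogeneous_zero _ _ _))
      (fun r s => mul_left_cancel₀ Nul.mup_ne (by
        rw [k, k, h2 r s, mul_comm (X r)]
        by_cases q : r = s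
        · rw [q]
        · rw [if_neg q, if_neg (Ne.symm q)]))
      (fun s => mul_left_cancel₀ Nul.mup_ne (by
        have a : (C (eta s : ℂ) : MvPolynomial Ix ℂ) * C (eta s : ℂ) = 1 := by
          rw [← map_mul, Nul.eta_sq, map_one]
        have b : ∑ r, C (eta r : ℂ) * X r * (X r * X s * φ) = mup * (X s * φ) := by
          rw [mup, Finset.sum_mul]
          exact Finset.sum_congr rfl fun r _ => by ring
        simp only [Finset.mul_sum, mul_left_comm mup, k, mul_sub, sub_mul, Finset.sum_sub_distrib,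
          h3, b, ite_mul, mul_ite, zero_mul, mul_zero, Finset.sum_ite_eq', Finset.mem_univ, if_true]
        linear_combination (mup * X s * φ) * a)) r s, mul_zero]
  · exact ⟨0, fun r s => by simpa [h] using e r s⟩

end alg

variable {D : Type*} [NormedAddCommGroup D] [InnerProductSpace ℂ D] {c : Bs D} {J J' N : ℕ}
  {Λ : ℝ → (Fin 2 → Ix) → Sch →L[ℂ] Completion D}
  {O : ℝ → (Fin N → Ix) → Sch →L[ℂ] Completion D}

/-- closed sources, in momentum space -/
def Clo (F : Ix → Ix → Fn) : Prop := ∀ p, ∑ r, ∑ s,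
  ((p r * p s - if r = s then eta r * mu p else 0 : ℝ) : ℂ) * ft (F r s) p = 0

/-- **NS2** -/
theorem St.ns2 (hT : St c J Λ) {d : ℤ} (hO : CovL c.Q N d J' O) (he : Even (d - N)) (hd : d ≤ 3)
    {F : Ix → Ix → Sch} (hF : Clo fun r s => ev (F r s)) (τ τ' : ℝ) (μ : Fin N → Ix) (f : Sch) :
    inner ℂ (∑ r, ∑ s, Λ τ ![r, s] (F r s)) (O τ' μ f) = 0 := by
  obtain ⟨n, π, h1, h2⟩ := hT.polyL hO he τ τ'
  choose φ hφ using fun j => ns_alg (d := d.toNat) (by omega) (π := fun r s => π j r s μ)
    (fun r s => ((h1 j).1 r s μ).1) (fun r s => (h1 j).2.1 r s μ) (fun s => (h1 j).2.2.1 s μ)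
    fun r s k => (h1 j).2.2.2.1 r s k μ
  have hi := fun r s => int_logs n (fun j => π j r s μ) (f := ev (F r s)) (g := ev f) ⟨_, rfl⟩ ⟨_, rfl⟩
  simp only [sum_inner, h2]
  rw [Finset.sum_congr rfl fun r _ => (integral_finsetSum _ fun s _ => hi r s).symm,
    ← integral_finsetSum _ fun r _ => integrable_finsetSum _ fun s _ => hi r s]
  refine integral_eq_zero_of_ae (.of_forall fun p => ?_)
  have e := congrArg (fun z => (∑ j ∈ range n, ((Real.log (mu p) ^ j : ℝ) : ℂ) * evp (φ j) p) *
    (conj z * ft (ev f) p)) (hF p)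
  simp only [map_zero, zero_mul, mul_zero, _root_.map_sum, map_mul, Complex.conj_ofReal,
    Finset.sum_mul, Finset.mul_sum] at e
  refine Eq.trans ?_ e
  simp only [Finset.sum_mul]
  refine Finset.sum_congr rfl fun r _ => Finset.sum_congr rfl fun s _ =>
    Finset.sum_congr rfl fun j _ => ?_
  have : evp (π j r s μ) p = ((p r * p s - if r = s then eta r * mu p else 0 : ℝ) : ℂ) *
      evp (φ j) p := by
    have e1 := AlgP.evp_mup p
    rw [hφ j r s]
    split_ifs <;> simp [evp] at e1 ⊢ <;> simp [e1]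
  rw [this]
  ring

end

end Vale.Agent.P352L.Two
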