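import Vale.Agent.P352L.PF.C

/-!
# P352L, block END: from `EE`, all members of the family of stress tensors coincide
-/

set_option linter.all false

open Set Filter Topology
open scoped SchwartzMap

namespace Vale.Agent.P352L

theorem IsPol.zero_deg {E : Type*} [AddCommGroup E] [Module ℝ E] {F : ℝ → E} (h : IsPol 0 F)
    (x : ℝ) : F x = F 0 := by
  obtain ⟨a, h⟩ := h
  simp [h]

theorem IsPol.ex_der {E : Type*} [AddCommGroup E] [Module ℝ E] {J : ℕ} {F : ℝ → E}
    (h : IsPol (J + 1) F) : ∃ F' : ℝ → E, IsPol J F' ∧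
      ∀ (H : Type*) [NormedAddCommGroup H] [NormedSpace ℝ H] (A : E →ₗ[ℝ] H) (x : ℝ),
        HasDerivAt (fun x => A (F x)) (A (F' x)) x := by
  obtain ⟨a, h⟩ := h
  refine ⟨fun x => ∑ j ∈ Finset.range (J + 1), x ^ j • ((j + 1 : ℝ) • a (j + 1)),
    ⟨_, fun _ => rfl⟩, fun H _ _ A x => ?_⟩
  have e : ∀ j ∈ Finset.range (J + 1), HasDerivAt (fun x : ℝ => x ^ (j + 1) • A (a (j + 1)))
      (x ^ j • (j + 1 : ℝ) • A (a (j + 1))) x := fun j _ => by
    refine ((hasDerivAt_pow (j + 1) x).smul_const (A (a (j + 1)))).congr_deriv ?_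
    rw [smul_smul]
    simp [mul_comm]
  simpa only [h, Finset.sum_range_succ' _ (J + 1), map_add, map_sum, map_smul, pow_zero] using
    (HasDerivAt.fun_sum e).add_const ((1 : ℝ) • A (a 0))

namespace Pf

open Vale.Agent.P352X
open Vale.Agent.P352 Vale.Agent.P352.GF Vale.Agent.P352.BW Vale.Agent.P352.H496
open Vale.Agent.P352.H755 Vale.Agent.P352.H15
open Vale.Agent.P352.H246 (In)
open Vale.Agent.P352NA.PF (AL Gen gen_of_eq)
open UniformSpace (Completion)
open Complex (I)
open Vale.Agent.P352X.TPD (TT)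
open Vale.Agent.P352X.KDa (barL)
open Real (exp)

noncomputable section

variable {D : Type*} [NormedAddCommGroup D] [InnerProductSpace ℂ D] {c : Ctx D}
  {ψ : ℝ → TT D} {w : ℝ}

/-! ## families that are shifted by the scalings -/

/-- evaluation -/
def evL (f : Sch) : TT D →ₗ[ℝ] Completion D where
  toFun φ := φ f
  map_add' _ _ := rfl
  map_smul' _ _ := rfl

/-- families on which the scaling acts by a weight and a shift -/
structure Sh (c : Ctx D) (w : ℝ) (ψ : ℝ → TT D) : Prop where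
  mem : ∀ x, ψ x ∈ WW c
  sc : ∀ x y, aS c 0 y (ψ x) = (exp (w * y) : ℂ) • ψ (x + y / 2)

theorem Sh.dl (h : Sh c w ψ) {x : ℝ} {χ : TT D}
    (d : ∀ f, HasDerivAt (fun x => ψ x f) (χ f) x) :
    dl c 0 1 (ψ x) = (w : ℂ) • ψ x + (1 / 2 : ℂ) • χ := by
  refine Vale.Agent.P352X.Pf.HD.dr_eq fun f => ?_
  simp only [zero_mul, one_mul, h.sc, ContinuousLinearMap.smul_apply]
  have a : HasDerivAt (fun t => (exp (w * t) : ℂ)) w 0 := by
    simpa using ((hasDerivAt_id' (0 : ℝ)).const_mul w).exp.ofReal_comp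
  have b : HasDerivAt (fun t : ℝ => ψ (x + t / 2) f) ((1 / 2 : ℝ) • χ f) 0 :=
    HasDerivAt.scomp (g₁ := fun x => ψ x f) (h := fun t : ℝ => x + t / 2) 0
      (by simpa using d f) (((hasDerivAt_id' (0 : ℝ)).div_const 2).const_add x)
  refine (a.fun_smul b).congr_deriv ?_
  rw [← Complex.coe_smul]
  simp [add_comm]

theorem Sh.const (t : TA c) (E : EE c.toBase) (J : ℕ) :
    ∀ ψ : ℝ → TT D, IsPol J ψ → Sh c w ψ → ∀ x, ψ x = ψ 0 := by
  induction J with
  | zero => exact fun ψ p _ x => p.zero_deg x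
  | succ J ih =>
    intro ψ p h
    obtain ⟨χ, q, d⟩ := p.ex_der
    have d0 : ∀ x f, HasDerivAt (fun x => ψ x f) (χ x f) x := fun x f => d _ (evL f) x
    have e : ∀ x, χ x = (2 : ℂ) • Pf.dl c 0 1 (ψ x) - (2 * w : ℂ) • ψ x := fun x => by
      rw [h.dl (d0 x)]
      module
    have k : Sh c w χ := ⟨fun x => e x ▸ sub_mem ((WW c).smul_mem _ (dl_W t.grp (h.mem x) 0 1).1)
      ((WW c).smul_mem _ (h.mem x)), fun x y => ContinuousLinearMap.ext fun f => by
        have a := d _ (evL f ∘ₗ (aS c 0 y).restrictScalars ℝ) x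
        have b := ((d0 (x + y / 2) f).comp_add_const x (y / 2)).const_smul (exp (w * y) : ℂ)
        refine a.unique (b.congr_of_eventuallyEq (.of_forall fun z => ?_))
        exact DFunLike.congr_fun (h.sc z y) f⟩
    have k0 := ih χ q k
    have k1 : ∀ x, Pf.dl c 0 1 (χ x) = (w : ℂ) • χ x := fun x => by
      rw [k.dl (χ := 0) fun f => by
        simp only [k0]
        exact hasDerivAt_const _ _, smul_zero, add_zero]
    obtain ⟨_, _, _, a, -⟩ := ex_al t E
    have z : ∀ x, χ x = 0 := fun x => by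
      have g : Gen (DD t.grp) (2 * w + 4) ⟨ψ x, h.mem x⟩ := ⟨2, by
        rw [Vale.Agent.P352NA.PF.pow_succ_app, pow_one, Vale.Agent.P352NA.PF.sh_app,
          Vale.Agent.P352NA.PF.sh_app, show DD t.grp ⟨ψ x, h.mem x⟩ - (2 * w + 4 : ℂ) •
            (⟨ψ x, h.mem x⟩ : WW c) = ⟨χ x, k.mem x⟩ from Subtype.ext (by
              rw [Submodule.coe_sub, DD_coe, Submodule.coe_smul]
              simp only [e x]
              module)]
        refine Subtype.ext ?_
        rw [Submodule.coe_sub, DD_coe, Submodule.coe_smul]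
        simp only [k1 x, Submodule.coe_zero]
        module⟩
      have := congrArg Subtype.val (a.D_gen g)
      rw [DD_coe, Submodule.coe_smul] at this
      rw [e x]
      linear_combination (norm := module) this
    intro x
    ext1 f
    exact is_const_of_deriv_eq_zero (fun x => (d0 x f).differentiableAt)
      (fun x => by rw [(d0 x f).deriv, z x]; rfl) x 0

/-! ## the members of the family as distributions -/

variable {B : Fld D}

theorem fld_lin (h : c.Q.fld B) (v : D) (f g : Sch) (a : ℂ) :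
    B (ev (f + a • g)) v = B (ev f) v + a • B (ev g) v :=
  c.Q.lin B (ev f) (ev g) a v h ⟨f, rfl⟩ ⟨g, rfl⟩

/-- fields applied to a vector -/
def fw (h : c.Q.fld B) (v : D) : Sch →L[ℂ] D :=
  ⟨⟨⟨fun f => B (ev f) v, fun f g => by simpa using fld_lin h v f g 1⟩, fun a f => by
    have z : B (ev 0) v = 0 := by simpa using fld_lin h v 0 0 1
    simpa [z] using fld_lin h v 0 f a⟩, c.Q.cont B _ h⟩

theorem fw_apply (h : c.Q.fld B) (v : D) (f : Sch) : fw h v f = B (ev f) v := rfl

theorem fT (c : Ctx D) (x : ℝ) (m n : Ix) : c.Q.fld (c.TT x m n) :=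
  c.Q.bose_fld _ ((c.hF.st x).bose m n)

/-- the components applied to the vacuum -/
def fv (c : Ctx D) (x : ℝ) (m n : Ix) : TT D := Completion.toComplL ∘L fw (fT c x m n) c.Q.vac

theorem fv_apply (x : ℝ) (m n : Ix) (f : Sch) :
    fv c x m n f = (c.TT x m n (ev f) c.Q.vac : D) := rfl

theorem fv_lag (x : ℝ) (m n : Ix) :
    fv c x m n = ∑ i ∈ Finset.range (c.n0 + 1), lag c.n0 i x • fv c i m n := by
  ext1 f
  rw [fv_apply, (c.hF.pol m n (ev f) c.Q.vac ⟨f, rfl⟩).lag_eq x, ContinuousLinearMap.sum_apply]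
  exact (map_sum ((Completion.toComplL : D →L[ℂ] Completion D).restrictScalars ℝ) _ _).trans
    (Finset.sum_congr rfl fun i _ => map_smul
      ((Completion.toComplL : D →L[ℂ] Completion D).restrictScalars ℝ) _ _)

theorem Tf_hk (x : ℝ) (h k : V) (f : Sch) (v : D) : (c.sh x).Tf (hk h k (ev f)) v =
    ∑ m, ∑ n, ((eta m * h m * (eta n * k n) : ℝ) : ℂ) • c.TT (c.tau + x) m n (ev f) v :=
  Finset.sum_congr rfl fun m _ => Finset.sum_congr rfl fun n _ =>
    map_smul (fw (fT c (c.tau + x) m n) v) _ f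

/-- the member with parameter `tau + x`, contracted with `h`, `k` -/
def ph (c : Ctx D) (x : ℝ) (h k : V) : TT D :=
  ∑ m, ∑ n, ((eta m * h m * (eta n * k n) : ℝ) : ℂ) • fv c (c.tau + x) m n

theorem ph_apply (x : ℝ) (h k : V) (f : Sch) : ph c x h k f = (c.sh x).Tv (hk h k (ev f)) := by
  rw [Ctx.Tv, Tf_hk]
  change _ = Completion.toComplL (𝕜 := ℂ) _
  simp only [ph, ContinuousLinearMap.sum_apply, ContinuousLinearMap.smul_apply, map_sum, map_smul]
  rfl

theorem ph_pol (h k : V) : IsPol c.n0 fun x => ph c x h k :=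
  IsPol.sum _ fun m _ => IsPol.sum _ fun n _ => IsPol.smul _
    ((IsPol.of_lag (F := fun x => fv c x m n) fun x => fv_lag x m n).shift' c.tau)

theorem ph_add (x : ℝ) (h h' k : V) : ph c x (h + h') k = ph c x h k + ph c x h' k := by
  simp [ph, mul_add, add_mul, add_smul, Finset.sum_add_distrib]

theorem ph_add' (x : ℝ) (h k k' : V) : ph c x h (k + k') = ph c x h k + ph c x h k' := by
  simp [ph, mul_add, add_mul, add_smul, Finset.sum_add_distrib]

theorem ph_smul (x a : ℝ) (h k : V) : ph c x (a • h) k = (a : ℂ) • ph c x h k := by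
  simp only [ph, Finset.smul_sum, smul_smul, Pi.smul_apply, smul_eq_mul]
  refine Finset.sum_congr rfl fun m _ => Finset.sum_congr rfl fun n _ => ?_
  congr 1
  push_cast
  ring

theorem ph_smul' (x a : ℝ) (h k : V) : ph c x h (a • k) = (a : ℂ) • ph c x h k := by
  simp only [ph, Finset.smul_sum, smul_smul, Pi.smul_apply, smul_eq_mul]
  refine Finset.sum_congr rfl fun m _ => Finset.sum_congr rfl fun n _ => ?_
  congr 1
  push_cast
  ring

theorem dm_D (G : GRP c) {W : ℝ → Completion D →L[ℂ] Completion D} {ε : ℝ → V ≃L[ℝ] V}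
    {X : V →L[ℝ] V} (k : Fl W ε X) {s : ℝ → ℝ} {L : ℝ → Ix → V} (h : ∀ t, 0 < s t ∧ IsLor (L t))
    (hW : ∀ t, W t = Ug c.Q (s t) (L t) 0) (he : ∀ t z, sim (s t) (L t) 0 z = ε t z) (s0 : s 0 = 1)
    (L0 : L 0 = GF.one) (v : D) : Dm W (v : Completion D) := by
  have d := c.hN.toRep.der s L (fun _ => 0) X v s0 L0 rfl h fun n x => by
    simp only [he]
    exact ((pj n).hasFDerivAt.comp_hasDerivAt 0 (k.der.clm_apply (hasDerivAt_const _ x))).congr_deriv
      (by simp)
  simp only [Dm, hW, G.coe _ _ _ v (h _).1 (h _).2]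
  exact (((Completion.toComplL : D →L[ℂ] Completion D).restrictScalars ℝ).hasFDerivAt.comp_hasDerivAt
    0 d).differentiableAt

theorem sq_pos (x y : ℝ) : 0 < Real.sqrt (exp x * exp y) :=
  Real.sqrt_pos.2 (mul_pos (Real.exp_pos x) (Real.exp_pos y))

theorem dm_S (G : GRP c) (x y : ℝ) (v : D) : Dm (Ws c x y) (v : Completion D) :=
  dm_D G (flS G x y) (fun t => ⟨sq_pos (x * t) (y * t),
      (G.lsc _ _ (Real.exp_pos (x * t)) (Real.exp_pos (y * t))).1⟩)
    (fun _ => rfl) (fun t => (G.lsc _ _ (Real.exp_pos _) (Real.exp_pos _)).2) (by simp)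
    (funext fun m => by simp [bst, GF.one]) v

theorem dm_M (G : GRP c) (i : Fin 2) (v : D) : Dm (Mi c.Q i) (v : Completion D) :=
  dm_D G (flM G i) (fun t => ⟨one_pos, (G.lga (t • e2 i)).1⟩) (fun _ => rfl)
    (fun t => (G.lga _).2) rfl (funext fun m => by simp [H746.nrt, GF.one, GF.mdot]) v

theorem bar_hk (h k : V) (f : Fn) : (fun m n => bar (hk h k f m n)) = hk h k (bar f) := by
  funext m n z
  simp [bar, hk]

theorem in_hk {O : Set V} (h k : V) {f : Fn} (hf : In O f) (m n : Ix) : In O (hk h k f m n) :=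
  Ap.in_mul contDiff_const hf

variable (t : All TA c)
include t

theorem ph_ug {s : ℝ} {L : Ix → V} (a : V) (hs : 0 < s) (hL : IsLor L) (x : ℝ) (h k : V)
    {f g : Sch} (e : ∀ z, g z = f (sim s L a z)) : Ug c.Q s L a (ph c x h k g) =
      ph c (x + Real.log s) (sim 1 L 0 h) (sim 1 L 0 k) f := by
  have a1 := (t x).grp.ten s L a h k (ev f) c.Q.vac hs hL ⟨f, rfl⟩
  rw [c.sh_sh, show (c.sh x).Q.U s L a c.Q.vac = c.Q.vac from c.Q.U_vac s L a hs hL] at a1
  rw [ph_apply, ph_apply, Ctx.Tv, Ctx.Tv, show ev g = fun z => ev f (sim s L a z) from funext e]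
  exact (t.zero.grp.coe s L a _ hs hL).trans (congrArg _ a1)

theorem ph_tc (x : ℝ) (h k : V) : TC c (ph c x h k) := fun a f => by
  have := ph_ug t a one_pos H496.isLor_one x h k (f := ST.tsl a f) (g := f)
    fun z => by simp [ST.tsl_apply, sim_ut]
  rwa [Real.log_one, add_zero, sim_ut, sim_ut, add_zero, add_zero] at this

theorem ph_lc (x : ℝ) (h k : V) : Lc c (ph c x h k) (ph c x h k) := fun r _ f h1 h2 => by
  have := (t x).grp.pr_Tv (O := Rc r 0) (in_hk h k (f := ev f) ⟨⟨f, rfl⟩, h1, h2⟩)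
  rw [bar_hk] at this
  rw [ph_apply, ph_apply]
  exact this

theorem ph_aS (x : ℝ) (h k : V) (a b : ℝ) : aS c a b (ph c x h k) = ph c (x + (a + b) / 2)
    ((exp ((a + b) / 2))⁻¹ • scp (exp a) (exp b) h)
    ((exp ((a + b) / 2))⁻¹ • scp (exp a) (exp b) k) := by
  have l := t.zero.grp.lsc _ _ (Real.exp_pos a) (Real.exp_pos b)
  have e : ∀ h, sim 1 (bst va vb (Real.sqrt (exp a / exp b) - 1) (Real.sqrt (exp b / exp a) - 1)) 0 h
      = (exp ((a + b) / 2))⁻¹ • scp (exp a) (exp b) h := fun h => by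
    rw [← l.2 h, sqrt_ee]
    funext n
    simp only [sim, Pi.smul_apply, Pi.zero_apply, zero_add, one_mul, smul_eq_mul]
    rw [inv_mul_cancel_left₀ (Real.exp_pos _).ne']
  ext1 f
  have := ph_ug t 0 (sq_pos a b) l.1 x h k (f := f) (g := pL (eS a b) f)
    fun z => congrArg f (l.2 z).symm
  rw [e, e] at this
  rw [show x + (a + b) / 2 = x + Real.log (Real.sqrt (exp a * exp b)) by
    rw [sqrt_ee, Real.log_exp]]
  exact this

theorem ph_aG (x : ℝ) (h k : V) (u : R2) : ∃ h' k', aG c u (ph c x h k) = ph c x h' k' := by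
  have l := t.zero.grp.lga u
  refine ⟨sim 1 (H746.nrt va (tv ((1 / 2 : ℝ) • u))) 0 h,
    sim 1 (H746.nrt va (tv ((1 / 2 : ℝ) • u))) 0 k, ContinuousLinearMap.ext fun f => ?_⟩
  have := ph_ug t 0 one_pos l.1 x h k (f := f) (g := pL (eG u) f) fun z => congrArg f (l.2 z).symm
  rw [Real.log_one, add_zero] at this
  exact this

theorem ph_W (x : ℝ) (h k : V) : ph c x h k ∈ WW c := by
  let S : Set (TT D) := {φ | ∃ x h k, ph c x h k = φ}
  let R : Set (TT D) := range fun q : Finset.range (c.n0 + 1) × Ix × Ix =>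
    fv c (q.1 : ℕ) q.2.1 q.2.2
  have le : Submodule.span ℂ S ≤ Submodule.span ℂ R := Submodule.span_le.2 <| by
    rintro _ ⟨x, h, k, rfl⟩
    refine Submodule.sum_mem _ fun m _ => Submodule.sum_mem _ fun n _ => Submodule.smul_mem _ _ ?_
    rw [fv_lag]
    refine Submodule.sum_mem _ fun i hi => ?_
    rw [← Complex.coe_smul]
    exact Submodule.smul_mem _ _ (Submodule.subset_span ⟨(⟨i, hi⟩, m, n), rfl⟩)
  haveI := FiniteDimensional.span_of_finite ℂ (A := R) (finite_range _)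
  have m : ∀ x h k, ph c x h k ∈ Submodule.span ℂ S := fun x h k =>
    Submodule.subset_span ⟨x, h, k, rfl⟩
  refine ⟨Submodule.span ℂ S, ⟨Submodule.finiteDimensional_of_le le, fun φ hφ => ?_⟩, m x h k⟩
  induction hφ using Submodule.span_induction with
  | mem φ q =>
    obtain ⟨x, h, k, rfl⟩ := q
    refine ⟨ph_tc t x h k, ⟨_, m x h k, ph_lc t x h k⟩, fun a b => ph_aS t x h k a b ▸ m _ _ _,
      fun u => ?_, fun a b f => ?_, fun i f => ?_⟩
    · obtain ⟨h', k', e⟩ := ph_aG t x h k u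
      exact e ▸ m _ _ _
    · rw [ph_apply]
      exact dm_S t.zero.grp a b _
    · rw [ph_apply]
      exact dm_M t.zero.grp i _
  | zero => exact .zero
  | add _ _ _ _ a b => exact a.add b
  | smul z _ _ a => exact a.smul z

omit t in
/-- vectors with a boost weight -/
def Bw (h : V) : Prop := ∃ a : ℝ, ∀ y,
  (exp ((0 + y) / 2))⁻¹ • scp (exp 0) (exp y) h = exp (a * y) • h

omit t in
theorem bw_a : Bw va := ⟨-(1 / 2), fun y => null_ext (by
  simp [← Real.exp_neg]; ring) (by simp) (by simp)⟩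

omit t in
theorem bw_b : Bw vb := ⟨1 / 2, fun y => null_ext (by simp) (by
  simp [← Real.exp_neg, ← Real.exp_add]; ring) (by simp)⟩

omit t in
theorem bw_x (i : Fin 2) : Bw (ex i) := ⟨0, fun y => null_ext (by simp) (by simp) (by
  rw [tx_smul, tx_scp, sqrt_ee, smul_smul, inv_mul_cancel₀ (Real.exp_pos _).ne']
  simp)⟩

variable (E : EE c.toBase)
include E

theorem ph_bw {h k : V} (h1 : Bw h) (h2 : Bw k) (x : ℝ) : ph c x h k = ph c 0 h k := by
  obtain ⟨a, ha⟩ := h1
  obtain ⟨b, hb⟩ := h2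
  refine Sh.const (w := a + b) t.zero E c.n0 (fun x => ph c x h k) (ph_pol h k)
    ⟨fun x => ph_W t x h k, fun x y => ?_⟩ x
  rw [ph_aS t, ha, hb, ph_smul, ph_smul', smul_smul, zero_add, ← Complex.ofReal_mul,
    ← Real.exp_add, add_mul]

theorem ph_const (h k : V) (x : ℝ) : ph c x h k = ph c 0 h k := by
  have a : ∀ {h}, Bw h → ph c x h k = ph c 0 h k := fun {h} q => by
    rw [null_dec (z := k), tv_eq]
    simp only [ph_add', ph_smul', ph_bw t E q bw_a x, ph_bw t E q bw_b x,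
      ph_bw t E q (bw_x _) x]
  rw [null_dec (z := h), tv_eq]
  simp only [ph_add, ph_smul, a bw_a, a bw_b, a (bw_x _)]

theorem Tf_const (h k : V) (x : ℝ) {f : Sch} (hf : HasCompactSupport f) (v : D) :
    (c.sh x).Tf (hk h k (ev f)) v = (c.sh 0).Tf (hk h k (ev f)) v := by
  obtain ⟨u, hu⟩ := hf.isCompact.bddAbove_image cont_be.continuousOn
  obtain ⟨l, hl⟩ := hf.isCompact.bddBelow_image cont_al.continuousOn
  have hO : tsupport f ⊆ Wdg va vb (pt (l - 1) (u + 1) 0) := fun z hz => by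
    have a := hu ⟨z, hz, rfl⟩
    have b := hl ⟨z, hz, rfl⟩
    refine ⟨?_, ?_⟩
    · rw [md_va, be_sub, be_pt]
      linarith
    · rw [md_vb, al_sub, al_pt]
      linarith
  have hi : In (Wdg va vb (pt (l - 1) (u + 1) 0)) (ev (barL f)) :=
    ⟨⟨_, rfl⟩, by rwa [HasCompactSupport, ev, supp_bar], by rwa [ev, supp_bar]⟩
  have key : ∀ y, ∀ Y ∈ (c.N (Wdg va vb (pt (l - 1) (u + 1) 0))).commutant,
      inner ℂ (((c.sh y).Tf (hk h k (ev f)) v : D) : Completion D) (Y c.Om) =
        inner ℂ (v : Completion D) (Y (ph c y h k (barL f))) := fun y Y hY => by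
    have := ((t y).grp.afft _ _ (in_hk h k hi)).2 Y hY c.Q.vac v
    rw [bar_hk, KDa.ev_barL, Ap.bar_bar] at this
    rw [ph_apply]
    exact this
  have dn := t.zero.jc.cyc' t.zero.grp null_va null_vb (by simp [md_ab]) (pt (l - 1) (u + 1) 0)
  refine Completion.coe_injective D (ext_inner_right ℂ (congrFun (Continuous.ext_on dn
    (by fun_prop) (by fun_prop) ?_)))
  rintro _ ⟨Y, hY, rfl⟩
  beta_reduce
  rw [key x Y hY, key 0 Y hY, ph_const t E]

end

end Pf

open Vale.Agent.P352X Vale.Agent.P352.GF in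
/-- **Block END**: if `EE` holds, all members of the family coincide. -/
theorem end_all {D : Type*} [NormedAddCommGroup D] [InnerProductSpace ℂ D] (c : Ctx D)
    (t : All TA c) (E : EE c.toBase) :
    ∀ x m n f v, IsTest f → c.TT x m n f v = c.TT 0 m n f v := by
  have k : ∀ x m n (f : Sch) v, c.TT (c.tau + x) m n (ev f) v = c.TT (c.tau + 0) m n (ev f) v :=
    fun x m n f v => by
    refine DFunLike.congr_fun (Pf.ext_cs (φ := Pf.fw (Pf.fT c (c.tau + x) m n) v)
      (ψ := Pf.fw (Pf.fT c (c.tau + 0) m n) v) fun f hf => ?_) f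
    have a := Pf.Tf_const t E (bas m (eta m)) (bas n (eta n)) x hf v
    have e : ∀ m, eta m * eta m = 1 := fun m => by
      unfold eta
      split_ifs <;> norm_num
    rw [Pf.Tf_hk, Pf.Tf_hk] at a
    simpa [bas, e, Pf.fw_apply] using a
  rintro x m n _ v ⟨f, rfl⟩
  have a := k (x - c.tau) m n f v
  have b := k (0 - c.tau) m n f v
  rw [add_sub_cancel] at a b
  exact a.trans b.symm

open Vale.Agent.P352X Vale.Agent.P352.GF in
theorem end_of {D : Type*} [NormedAddCommGroup D] [InnerProductSpace ℂ D] (c : Ctx D)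
    (t : T3 c) (E : EE c.toBase) :
    ∀ x m n f v, IsTest f → c.TT x m n f v = c.TT 0 m n f v :=
  end_all c (fun x => (t.all x).toT2.toTA) E

end Vale.Agent.P352L
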