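import Vale.Agent.P352L.WA
import Vale.Agent.P352L.R.TWO
import Vale.Agent.P352L.R.STRUCT
import Vale.Agent.P352L.R.PART
import Vale.Agent.P352L.R.WX
import Vale.Agent.P352L.R.T3P
import Vale.Agent.P352L.R.BB
import Vale.Agent.P352L.R.CONM
import Vale.Agent.P352L.R.CONK
import Vale.Agent.P352L.R.TP0
import Vale.Agent.P352L.R.TP1.Clo
import Vale.Agent.P352L.R.FAR
import Vale.Agent.P352L.R.CONT
import Vale.Agent.P352L.R.FZ
import Vale.Agent.P352L.R.D1
import Vale.Agent.P352L.R.DD
import Vale.Agent.P352L.R.EE
import Vale.Agent.P352L.StA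
import Vale.Agent.P352L.End

/-!
# P352L: the rows are put together
-/

set_option linter.all false

namespace Vale.Agent.P352L

open Vale.Agent.P352X
open Vale.Agent.P352 Vale.Agent.P352.GF Vale.Agent.P352.BW Vale.Agent.P352.H246
open Vale.Agent.P352.H496 Vale.Agent.P352.H755 Vale.Agent.P352.H15
open UniformSpace (Completion)

variable {D : Type*} [NormedAddCommGroup D] [InnerProductSpace ℂ D]

theorem tp1_row (c : Ctx D) (t : T3 c) : TP1 c := by
  obtain ⟨wp, wm, h1, h2, h3⟩ := tp_cmp c fun x => (t.all x).toT2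
  exact clo_fix c t h1 h2 h3

/-- the rows that are proved in other files -/
structure Last (D : Type*) [NormedAddCommGroup D] [InnerProductSpace ℂ D] : Prop where
  resw : ∀ (c : Ctx D) [Fact c.tp], T3 c → KK c → RESW c

theorem Last.rows (l : Last D) : Rows D where
  ta := ta_row
  two c _ := two_row c
  poly c _ := poly_row c
  ns2 c _ := ns2_row c
  struct := struct_row
  tp0 := tp0_row
  part := part_row
  wx := wx_row
  elt c _ := elt_row c
  goodw _ _ := trivial
  tp1 := tp1_row
  t3p := t3p_row
  bb := bb_row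
  bbrun := bbrun_row
  bpw := bpw_row
  resw := l.resw
  far c _ := far_row c
  resl c _ := resl_row c
  ix c _ := ix_row c
  conm := conm_row
  conk := conk_row
  cont := cont_row
  fz := fz_row
  d1 := d1_row
  dd := dd_row
  ee := ee_row

/-- **there are no logarithms in dimension four** -/
theorem Last.nolog (l : Last D) (Q : Theory D) (T : Ix → Ix → Fld D) (hT : Stress0 Q T)
    (A : (V → V) → D → D) (hA : ND.PCh Q T A) (hG : TfGen Q) (hF : FSL Q)
    (N : Set V → VonNeumannAlgebra (Completion D)) (hN : LNm Q A N) (hU : L.UVac Q) : NoLog Q T :=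
  nolog_of (fun c => end_of c (l.rows.t3 c) (l.rows.main c)) Q T hT A hA hG hF N hN hU

end Vale.Agent.P352L
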