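import Vale.Agent.P352L.Den
import Vale.Agent.P352L.Z.Ell0

/-!
# P352L: isometries of the square integrable functions on the cone; the potential with logarithms
(helper89)
-/

set_option linter.all false

open MeasureTheory Measure Set Filter Topology
open scoped SchwartzMap ComplexConjugate NNReal ENNReal

namespace Vale.Agent.P352L.Two

open Vale.Agent.P352.GF Vale.Agent.P352.BW Vale.Agent.P352.H496 Vale.Agent.P352.H755
open Vale.Agent.P352.H246 (In linv isLor_linv)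
open Vale.Agent.P352X Vale.Agent.P352X.Two Vale.Agent.P352X.Poly
open UniformSpace (Completion)
open Finset (range)
open Complex (I)

noncomputable section

variable {D : Type*} [NormedAddCommGroup D] [InnerProductSpace ℂ D] {c : Bs D} {K G ψ ψ' : V → ℂ}
  {v w w' : Completion D}

lemma zero_nFc : (0 : V) ∉ Fc := fun h => by simpa using ((mem_Fc 0).1 h).1

lemma perp_of_ae (h : ∀ᵐ p ∂c.nu v, p ∈ Fc) : inner ℂ c.Om v = 0 := by
  rw [← (SN.Calc.P_eq_self meas_Fc).2 h]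
  exact (Kin.inner_om_Phi c.bR c.ct (.ind meas_Fc) v).trans (by simp [zero_nFc])

lemma Phi_inj_fc (hK : SN.Bd K) (h0 : ∀ p ∈ Fc, K p ≠ 0) (hv : ∀ᵐ p ∂c.nu v, p ∈ Fc)
    (hw : ∀ᵐ p ∂c.nu w, p ∈ Fc) (h : c.bt.Phi K v = c.bt.Phi K w) : v = w := by
  have b : SN.Bd fun p => Fc.indicator K p + Fcᶜ.indicator (fun _ => 1) p :=
    (hK.indicator meas_Fc).add (.ind meas_Fc.compl)
  refine Phi_inj (c := c) b (fun p => by by_cases hp : p ∈ Fc <;> simp [hp, h0]) ?_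
  rw [c.bt.congr_ae b hK (hv.mono fun p hp => by simp [hp]), h,
    c.bt.congr_ae b hK (hw.mono fun p hp => by simp [hp])]

lemma ae_of_rel (hK : SN.Bd K) (h0 : ∀ p, K p ≠ 0) (hG : SN.Bd G)
    (e : c.bt.Phi K v = c.bt.Phi G w) (hw : ∀ᵐ p ∂c.nu w, p ∈ Fc) : ∀ᵐ p ∂c.nu v, p ∈ Fc :=
  (SN.Calc.P_eq_self meas_Fc).1 (Phi_inj (c := c) hK h0 (by
    rw [SN.Calc.P, c.bt.comm hK (.ind meas_Fc), e]
    exact (SN.Calc.P_eq_self meas_Fc).2 (c.bt.nu_Phi_ac hG w hw)))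

/-- vectors whose measure has the density `κ |K| ^ 2` on the cone -/
structure Iso (c : Bs D) (w : Completion D) (K : V → ℂ) (κ : ℝ≥0) : Prop where
  bd : SN.Bd K
  ne : ∀ p ∈ Fc, K p ≠ 0
  nu : c.nu w = κ • (volume.restrict Fc).withDensity (sq2 K)

open Classical in
/-- `(ψ / K)(P) w` -/
def ell (c : Bs D) (w : Completion D) (K ψ : V → ℂ) : Completion D :=
  if h : MemLp ψ 2 (volume.restrict Fc) then c.bt.Psi (fun p => h.1.mk ψ p / K p) w else 0

lemma ex_mk (h : MemLp ψ 2 (volume.restrict Fc)) : ∃ m : V → ℂ, Measurable m ∧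
    MemLp m 2 (volume.restrict Fc) ∧ ψ =ᵐ[volume.restrict Fc] m :=
  ⟨_, h.1.stronglyMeasurable_mk.measurable, h.ae_eq h.1.ae_eq_mk, h.1.ae_eq_mk⟩

namespace Iso

variable {κ κ' : ℝ≥0} (h : Iso c w K κ)
include h

lemma ac : c.nu w ≪ volume.restrict Fc := by
  rw [h.nu]
  exact Measure.smul_absolutelyContinuous.trans (withDensity_absolutelyContinuous _ _)

lemma ae : ∀ᵐ p ∂c.nu w, p ∈ Fc := h.ac (ae_fc _)

lemma dom (hm : Measurable ψ) (hψ : MemLp ψ 2 (volume.restrict Fc)) :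
    c.bt.Dom (fun p => ψ p / K p) w := by
  have m : Measurable fun p => ψ p / K p := hm.div h.bd.1
  rw [SN.Calc.dom_iff_lintegral m, show c.bt.nu w = _ from h.nu, lintegral_smul_measure]
  show κ • ∫⁻ p, sq2 (fun p => ψ p / K p) p ∂_ < ∞
  rw [lintegral_withDensity_eq_lintegral_mul _ (meas_sq2 h.bd.1) (meas_sq2 m), sq2_mul,
    lintegral_congr_ae (g := sq2 ψ) ((ae_fc _).mono fun p hp => by
      simp only [sq2, mul_div_cancel₀ _ (h.ne p hp)])]
  exact ENNReal.mul_lt_top ENNReal.coe_lt_top ((hasFiniteIntegral_iff_ofReal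
    (.of_forall fun p => sq_nonneg _)).1 (SN.memLp_sq hψ).2)

lemma eq (hm : Measurable ψ') (hψ : MemLp ψ' 2 (volume.restrict Fc))
    (e : ψ =ᵐ[volume.restrict Fc] ψ') : ell c w K ψ = c.bt.Psi (fun p => ψ' p / K p) w := by
  have m := hψ.ae_eq e.symm
  rw [ell, dif_pos m]
  refine (SN.Calc.Psi_congr_ae (h.dom hm hψ) (m.1.stronglyMeasurable_mk.measurable.div h.bd.1)
    (h.ac.ae_le ?_)).symm
  filter_upwards [e, m.1.ae_eq_mk] with p h1 h2
  exact congrArg (· / K p) (h1.symm.trans h2)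

lemma congr (hψ : MemLp ψ 2 (volume.restrict Fc)) (e : ψ =ᵐ[volume.restrict Fc] ψ') :
    ell c w K ψ = ell c w K ψ' := by
  obtain ⟨m, m1, m2, m3⟩ := ex_mk hψ
  rw [h.eq m1 m2 m3, h.eq m1 m2 (e.symm.trans m3)]

lemma fc (hψ : MemLp ψ 2 (volume.restrict Fc)) : ∀ᵐ p ∂c.nu (ell c w K ψ), p ∈ Fc := by
  obtain ⟨m, m1, m2, m3⟩ := ex_mk hψ
  rw [h.eq m1 m2 m3]
  exact SN.Calc.nu_Psi_ac (h.dom m1 m2) h.ae

lemma phi (hG : SN.Bd G) (hψ : MemLp ψ 2 (volume.restrict Fc)) :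
    c.bt.Phi G (ell c w K ψ) = ell c w K fun p => G p * ψ p := by
  obtain ⟨m, m1, m2, m3⟩ := ex_mk hψ
  rw [h.eq m1 m2 m3, SN.Calc.Phi_Psi hG (h.dom m1 m2), h.eq (ψ' := fun p => G p * m p)
    (hG.1.mul m1) (hG.memLp_smul m2) (m3.mono fun p hp => by simp only [hp])]
  simp only [mul_div_assoc]

lemma lin (a : ℂ) (hψ : MemLp ψ 2 (volume.restrict Fc)) (hψ' : MemLp ψ' 2 (volume.restrict Fc)) :
    ell c w K (fun p => ψ p + a * ψ' p) = ell c w K ψ + a • ell c w K ψ' := by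
  obtain ⟨m, m1, m2, m3⟩ := ex_mk hψ
  obtain ⟨n, n1, n2, n3⟩ := ex_mk hψ'
  rw [h.eq m1 m2 m3, h.eq n1 n2 n3, h.eq (ψ' := fun p => m p + a * n p) (by fun_prop)
    (m2.add (n2.const_mul a)) (by filter_upwards [m3, n3] with p h1 h2 using by rw [h1, h2]),
    ← SN.Calc.Psi_smul a (h.dom n1 n2), ← SN.Calc.Psi_add (h.dom m1 m2) ((h.dom n1 n2).smul a)]
  simp only [add_div, mul_div_assoc]

lemma smul (a : ℂ) (hψ : MemLp ψ 2 (volume.restrict Fc)) :
    ell c w K (fun p => a * ψ p) = a • ell c w K ψ := by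
  rw [← h.phi (.const a) hψ, c.bt.const_apply]

lemma mul (hG : SN.Bd G) (hψ : MemLp ψ 2 (volume.restrict Fc)) (hm : Measurable ψ)
    (hb : SN.Bd fun p => G p * ψ p) :
    c.bt.Phi (fun p => G p * K p) (ell c w K ψ) = c.bt.Phi (fun p => G p * ψ p) w := by
  rw [h.eq hm hψ .rfl, SN.Calc.Phi_Psi (hG.mul h.bd) (h.dom hm hψ), ← SN.Calc.Psi_bd hb]
  exact SN.Calc.Psi_congr_ae ((h.dom hm hψ).bd_mul (hG.mul h.bd)) hb.1 (h.ae.mono fun p hp => by
    simp only [mul_assoc, mul_div_cancel₀ _ (h.ne p hp)])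

theorem inn (h' : Iso c w' K κ') {g : ℂ}
    (e : ∀ G, SN.Bd G → inner ℂ w (c.bt.Phi G w') = g * ∫ p in Fc, G p * (‖K p‖ ^ 2 : ℝ))
    (hψ : MemLp ψ 2 (volume.restrict Fc)) (hψ' : MemLp ψ' 2 (volume.restrict Fc)) :
    inner ℂ (ell c w K ψ) (ell c w' K ψ') = g * ∫ p in Fc, conj (ψ p) * ψ' p := by
  obtain ⟨m, m1, m2, m3⟩ := ex_mk hψ
  obtain ⟨n, n1, n2, n3⟩ := ex_mk hψ'
  have b1 := SN.Calc.trunc_bd (show Measurable fun p => m p / K p from m1.div h.bd.1)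
  have b2 := SN.Calc.trunc_bd (show Measurable fun p => n p / K p from n1.div h.bd.1)
  rw [h.eq m1 m2 m3, h'.eq n1 n2 n3, integral_congr_ae (g := fun p => conj (m p) * n p)
    (by filter_upwards [m3, n3] with p h1 h2 using by rw [h1, h2])]
  refine tendsto_nhds_unique ((SN.Calc.tendsto_trunc (h.dom m1 m2)).inner (𝕜 := ℂ)
    (SN.Calc.tendsto_trunc (h'.dom n1 n2))) ?_
  simp only [fun j => c.bt.adj (b1 j), fun j => (c.bt.mul_apply (b1 j).cj (b2 j) w').symm,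
    fun j => e _ ((b1 j).cj.mul (b2 j))]
  have k : ∀ p ∈ Fc, conj (m p / K p) * (n p / K p) * (‖K p‖ ^ 2 : ℝ) = conj (m p) * n p :=
    fun p hp => by
      have k0 := h.ne p hp
      have k1 : conj (K p) ≠ 0 := by simpa using k0
      rw [← SN.conj_mul_self, map_div₀]
      field_simp
  refine (tendsto_integral_of_dominated_convergence _ (fun j => ?_)
    (SN.integrable_conj_mul m2 n2).norm (fun j => (ae_fc _).mono fun p hp => ?_)
    ((ae_fc _).mono fun p hp => ?_)).const_mul g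
  · have := h.bd.1
    exact (((b1 j).cj.mul (b2 j)).1.mul (by fun_prop)).aestronglyMeasurable
  · rw [← k p hp]
    simp only [norm_mul, Complex.norm_conj]
    gcongr <;> exact SN.Calc.norm_trunc_le _ _ _
  · rw [← k p hp]
    exact (((Complex.continuous_conj.tendsto _).comp (SN.Calc.trunc_tendsto _ p)).mul
      (SN.Calc.trunc_tendsto _ p)).mul_const _

theorem inn0 (hψ : MemLp ψ 2 (volume.restrict Fc)) (hψ' : MemLp ψ' 2 (volume.restrict Fc)) :
    inner ℂ (ell c w K ψ) (ell c w K ψ') = (κ : ℝ) * ∫ p in Fc, conj (ψ p) * ψ' p :=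
  h.inn h (fun G hG => by
    rw [c.bt.inner hG, show c.bt.nu w = _ from h.nu, integral_smul_nnreal_measure]
    have := SN.integral_wd (m := volume.restrict Fc) (g := fun p => ‖K p‖ ^ 2)
      (h.bd.1.norm.pow_const 2).aemeasurable (fun _ => sq_nonneg _) G
    rw [show (volume.restrict Fc).withDensity (sq2 K) = _ from rfl] at *
    erw [this]
    simp [NNReal.smul_def]) hψ hψ'

/-- covariance -/
theorem cov {W : Completion D →L[ℂ] Completion D} {k : V → V} (hk : Measurable k)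
    (hW : ∀ F, SN.Bd F → ∀ z, W (c.bt.Phi F z) = c.bt.Phi (fun p => F (k p)) (W z))
    (h1 : ∀ p, k p ∈ Fc ↔ p ∈ Fc) {t : ℝ}
    (hS : Sc k (volume.restrict Fc) (volume.restrict Fc) t) {a : ℂ}
    (rel : c.bt.Phi K (W w) = a • c.bt.Phi (fun p => K (k p)) w)
    (hψ : MemLp ψ 2 (volume.restrict Fc)) :
    W (ell c w K ψ) = a • ell c w K fun p => ψ (k p) := by
  obtain ⟨m, m1, m2, m3⟩ := ex_mk hψ
  have n2 := hS.memLp.2 m2
  have d1 := h.dom (ψ := fun p => m (k p)) (m1.comp hk) n2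
  obtain ⟨i1, i2⟩ := SN.Calc.Psi_intertwine (C' := c.bt.toCalc) hk (fun g hg => hW g hg w)
    (h.dom m1 m2)
  have e : (fun p => K p * (m (k p) / K p)) =ᵐ[c.nu w] fun p => m (k p) / K (k p) * K (k p) :=
    h.ae.mono fun p hp => by
      simp only [mul_div_cancel₀ _ (h.ne p hp), div_mul_cancel₀ _ (h.ne _ ((h1 p).2 hp))]
  have m4 : Measurable fun p => m (k p) / K (k p) := (m1.div h.bd.1).comp hk
  have d2 : c.bt.Dom (fun p => m (k p) / K (k p) * K (k p)) w :=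
    (d1.bd_mul h.bd).congr_ae (m4.mul (h.bd.comp hk).1) e
  refine Phi_inj_fc h.bd h.ne ((SN.Calc.P_eq_self meas_Fc).1 ?_)
    (SN.Calc.ae_smul a (h.fc (hS.memLp.2 hψ))) ?_
  · rw [SN.Calc.P, ← ind_comp h1, ← hW _ (.ind meas_Fc), ← SN.Calc.P,
      (SN.Calc.P_eq_self meas_Fc).2 (h.fc hψ)]
  · rw [h.eq m1 m2 m3, h.eq (ψ' := fun p => m (k p)) (m1.comp hk) n2 (hS.ae_eq m3), ← i2, ← SN.Calc.Psi_Phi_comm i1 h.bd,
      rel, SN.Calc.Psi_smul_vec a ((SN.Calc.dom_Phi (h.bd.comp hk) m4).2 d2),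
      SN.Calc.Psi_Phi (h.bd.comp hk) m4 d2, map_smul, SN.Calc.Phi_Psi h.bd d1,
      SN.Calc.Psi_congr_ae (d1.bd_mul h.bd) d2.1 e]

lemma tra (a : V) (hψ : MemLp ψ 2 (volume.restrict Fc)) :
    Ut c.Q a (ell c w K ψ) = ell c w K fun p => Complex.exp (I * mdot p a) * ψ p :=
  (c.bt.Phi_ch a _).symm.trans (h.phi (SN.isPair_mdot.bd a) hψ)

/-- **the isometry of a covariant vector** -/
theorem ell0 (hv : Vc c K w 1 1)
    (a3 : SN.BC pr3 fun (y : P3) z => Ut c.Q (y.1 • va) (Ga c.Q y.2 z)) :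
    Z.Ell0 c.Q c.bt (fun t => a3.Phi fun k => Complex.exp (I * (t * (d2 k.2 k.2 / k.1) : ℝ)))
      (ell c w K) κ := by
  have ga : ∀ u ψ, MemLp ψ 2 (volume.restrict Fc) →
      Ga c.Q u (ell c w K ψ) = ell c w K fun p => ψ (gap (-u) p) := fun u ψ hψ =>
    (h.cov (meas_gap (-u)) (fun F hF => Ga_Phi u hF) (fun p => Fc_gap p _) (scF_gap _) (a := 1)
      (by rw [hv.ga, one_smul]) hψ).trans (one_smul _ _)
  refine ⟨κ.2, fun _ _ a => h.lin a, fun _ _ => h.inn0, fun _ _ => h.phi,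
    fun _ hψ => perp_of_ae (h.fc hψ), fun u ψ hψ => ?_, fun r s ψ hr hs hψ => ?_, ?_⟩
  · rw [ga u _ ((scF_gap _).memLp.2 hψ)]
    simp [gap_gap]
  · exact h.cov (meas_scp s r) (fun F hF => Usc_Phi hr hs hF) (fun p => Fc_scp hs hr)
      (scF_scp hs hr) (by simpa using hv.sc r s hr hs) hψ
  · refine El.s0_of a3 Br.isPair_pr3 (fun _ _ => h.inn0) (fun y ψ hψ => ?_) El.ft3_int
    rw [ga _ _ hψ, h.tra _ ((scF_gap _).memLp.2 hψ)]
    simp only [md_smul, md_va', mul_comm y.1]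

end Iso

lemma iso_of {x : ℝ} (hv : Vc c K w 1 1) (hK : Wt K Fc) (ha : ∀ᵐ p ∂c.nu w, p ∈ Fc) :
    ∃ κ, Iso c w K κ := by
  obtain ⟨κ, e⟩ := hv.fc hK
  rw [restrict_eq_self_of_ae_mem ha, mm, show pw2 (2 * 1 - 2 * 1) (2 * 1 - 2) = 1 from
    funext fun p => by simp [pw2], withDensity_one] at e
  exact ⟨κ, hK.bd, fun p _ => hK.ne p, e⟩

/-! ## the transverse traceless part -/

/-- change of the weight -/
lemma Vc.wt {x y a b : ℝ} (h : Vc c K w x y) (hK : SN.Bd K) {M : V → ℂ} (hM : Continuous M)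
    (hb : SN.Bd fun p => M p * K p) (h1 : ∀ u p, M (gap u p) = M p)
    (h2 : ∀ r s p, 0 < r → 0 < s → M (scp s r p) = (r ^ a * s ^ b : ℝ) * M p) :
    Vc c (fun p => M p * K p) w (x - a) (y - b) := by
  obtain ⟨N, n1, n2⟩ := ex_wt (fun _ : Unit => M) fun _ => hM
  have e : ∀ {F : V → ℂ}, SN.Bd F → SN.Bd (fun p => M p * F p) → ∀ z, c.bt.Phi N (c.bt.Phi
      (fun p => M p * F p) z) = c.bt.Phi (fun p => N p * M p) (c.bt.Phi F z) := fun hF hF' z => by
    rw [← c.bt.mul_apply n1.bd hF', ← c.bt.mul_apply (n2 ()) hF]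
    simp only [mul_assoc]
  refine ⟨fun u => Phi_inj (c := c) n1.bd n1.ne ?_,
    fun r s hr hs => Phi_inj (c := c) n1.bd n1.ne ?_⟩
  · have b := hb.comp (meas_gap (-u))
    simp only [h1] at b ⊢
    rw [e hK hb, h.ga, e (hK.comp (meas_gap _)) b]
  · have b' := (hb.comp (meas_scp s r)).smul (((r ^ a * s ^ b)⁻¹ : ℝ) : ℂ)
    have n : ((r ^ a * s ^ b : ℝ) : ℂ) ≠ 0 := Complex.ofReal_ne_zero.2 (by positivity)
    simp only [fun p => h2 r s p hr hs, mul_assoc, Complex.ofReal_inv, inv_mul_cancel_left₀ n]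
      at b' ⊢
    rw [e hK hb, h.sc r s hr hs, c.bt.smul _ b', ContinuousLinearMap.smul_apply, map_smul, map_smul,
      map_smul, e (hK.comp (meas_scp _ _)) b', smul_smul, ← Complex.ofReal_mul, Real.rpow_sub hr,
      Real.rpow_sub hs]
    congr 2
    field_simp

/-- **the isometry of a covariant distribution with the weights of `T_aa`** -/
theorem elt (φ : Sch →L[ℂ] Completion D) (tr : ∀ y f, φ (ST.tsl y f) = Ut c.Q y (φ f))
    (rot : ∀ u (f g : Sch), (∀ z, g z = f (gap u z)) → Ga c.Q u (φ g) = φ f)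
    (sca : ∀ r s (f g : Sch), 0 < r → 0 < s → (∀ z, g z = f (scp r s z)) →
      Usc c.Q r s (φ g) = ((r / s : ℝ) : ℂ) • φ f) (perp : ∀ f, inner ℂ c.Om (φ f) = 0)
    (a3 : SN.BC pr3 fun (y : P3) z => Ut c.Q (y.1 • va) (Ga c.Q y.2 z)) :
    ∃ ell c0, Z.Ell0 c.Q c.bt
      (fun t => a3.Phi fun k => Complex.exp (I * (t * (d2 k.2 k.2 / k.1) : ℝ))) ell c0 ∧
      ∀ g : Sch, ell (ft (dv va (dv va (ev g)))) = φ g := by
  have rel : ∀ f : Sch, c.bt.Phi (ft g0) (φ f) = c.bt.Phi (ft (ev f)) (φ gS) := fun f =>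
    rel_clm φ (fun y _ => tr y f) fun y _ => tr y gS
  have e0 : sch g0 = gS := SchwartzMap.ext (congrFun (Ap.ev_sch g0_in.1))
  have hc : Cv c (fun f => φ (sch f)) 1 (-1) := ⟨fun f hf => by
      rw [rel, Ap.ev_sch hf.1, e0], fun u => rot u _ _ fun z => by
        rw [e0]; exact congrFun (Ap.ev_sch (Two.test_conf (conf_gap u) g0_in.1)) z,
    fun r s hr hs => (sca r s (sch g0) _ hr hs fun z => by
      rw [e0]; exact congrFun (Ap.ev_sch (Two.test_conf (conf_scp hr hs) g0_in.1)) z).trans (by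
        rw [Real.rpow_one, Real.rpow_neg_one, div_eq_mul_inv]), perp _⟩
  have hv := hc.vc
  simp only [e0] at hv
  have fd : ∀ {f : Fn}, IsTest f → ft (dv va (dv va f)) = fun p => -(be p : ℂ) ^ 2 * ft f p :=
    fun hf => funext fun p => by
      rw [ft_dv (Grp.test_dv _ hf), ft_dv hf, md_va']
      linear_combination (be p : ℂ) ^ 2 * ft _ p * Complex.I_sq
  have bd : ∀ {f : Fn}, IsTest f → SN.Bd fun p => -(be p : ℂ) ^ 2 * ft f p :=
    fun hf => fd hf ▸ bd_ft (Grp.test_dv _ (Grp.test_dv _ hf))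
  have ha := hv.high wt_g0 (by norm_num) (perp _)
  obtain ⟨κ, e⟩ := hv.fc (wt_g0.mono (subset_univ _))
  have h : Iso c (φ gS) (fun p => -(be p : ℂ) ^ 2 * ft g0 p) κ := by
    refine ⟨bd g0_in.1, fun p hp => mul_ne_zero (neg_ne_zero.2 (pow_ne_zero _
      (Complex.ofReal_ne_zero.2 ((mem_Fc p).1 hp).1.ne'))) (g0_ne p), ?_⟩
    rw [restrict_eq_self_of_ae_mem ha, mm_wd wt_g0.bd.1] at e
    rw [e]
    congr 2
    funext p
    simp only [sq2, dn, norm_mul, norm_neg, norm_pow, Complex.norm_real, Real.norm_eq_abs, sq_abs]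
    rw [show 2 * (1 + 2 : ℝ) - 2 * (-1 + 2) = (4 : ℕ) by norm_num, Real.rpow_natCast,
      show 2 * (-1 + 2 : ℝ) - 2 = 0 by norm_num, Real.rpow_zero]
    congr 1
    ring
  have hv' := hv.wt wt_g0.bd (M := fun p => -(be p : ℂ) ^ 2) (by fun_prop) (bd g0_in.1)
    (fun u p => by simp) (a := 2) (b := 0) fun r s p hr hs => by simp; ring
  norm_num at hv'
  refine ⟨_, _, h.ell0 (by simpa only [neg_mul] using hv') a3, fun g => ?_⟩
  have tg : IsTest (ev g) := ⟨g, rfl⟩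
  have m := memLp_ft (Grp.test_dv va (Grp.test_dv va tg)) Fc
  refine Phi_inj_fc h.bd h.ne (h.fc m) (ae_of_rel wt_g0.bd g0_ne (bd_ft tg) (rel g) ha)
    (Phi_inj (c := c) wt_g0.bd g0_ne ?_)
  rw [fd tg] at m ⊢
  rw [← c.bt.mul_apply wt_g0.bd h.bd, h.mul wt_g0.bd m (bd tg).1 (wt_g0.bd.mul (bd tg)),
    c.bt.comm wt_g0.bd h.bd, rel, ← c.bt.mul_apply h.bd (bd_ft tg)]
  congr 2
  funext p
  ring

/-! ## scalars of dimension two -/

theorem mem_log {F : V → ℂ} (hF : IsTest F) (τ : ℝ) (j : ℕ) :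
    MemLp (fun p => (((τ + lm p) ^ j : ℝ) : ℂ) * F p) 2 (volume.restrict Fc) := by
  obtain ⟨g, rfl⟩ := id hF
  obtain ⟨B, -, hB⟩ := g.decay 0 0
  simp only [pow_zero, one_mul, norm_iteratedFDeriv_zero] at hB
  have m : Measurable (ev g) := g.continuous.measurable
  have m' : ∀ j : ℕ, Measurable fun p => (((τ + lm p) ^ j : ℝ) : ℂ) * ev g p := fun j =>
    (by fun_prop : Measurable fun p => (((τ + lm p) ^ j : ℝ) : ℂ)).mul m
  refine (memLp_two_iff_integrable_sq_norm (m' j).aestronglyMeasurable).2 ?_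
  have := (int_log hF (r := fun p => (((τ + lm p) ^ (2 * j) : ℝ) : ℂ) * ev g p) (m' _)
    (C := B) (a := τ) (n := 2 * j) fun p _ => by
      rw [norm_mul, mul_comm, Complex.norm_real, Real.norm_eq_abs, abs_pow]
      exact mul_le_mul (hB p) (pow_le_pow_left₀ (abs_nonneg _) (by linarith) _) (by positivity)
        ((norm_nonneg _).trans (hB p))).norm
  refine this.congr (.of_forall fun p => ?_)
  simp only [norm_mul, Complex.norm_real, Real.norm_eq_abs, abs_pow]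
  ring

variable {J : ℕ} {ℓ : ℝ → Sch →L[ℂ] Completion D}

/-- families of scalars of dimension two, applied to the vacuum -/
structure Sl (c : Bs D) (J : ℕ) (ℓ : ℝ → Sch →L[ℂ] Completion D) : Prop where
  pol : ∀ f, IsPol J fun τ => ℓ τ f
  cov : ∀ τ s L a (f g : Sch), 0 < s → IsLor L → (∀ x, g x = f (sim s L a x)) →
    Ug c.Q s L a (ℓ τ g) = (((s ^ 2)⁻¹ : ℝ) : ℂ) • ℓ (τ + Real.log s) f
  perp : ∀ τ f, inner ℂ c.Om (ℓ τ f) = 0

theorem Sl.mul (h : Sl c J ℓ) : Mul c 2 J fun τ (_ : Fin 0 → Ix) => ℓ τ := by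
  refine ⟨fun _ => h.pol, fun τ μ s L a f g hs hL e => ?_⟩
  rw [Finset.univ_unique, Finset.sum_singleton, h.cov τ s L a f g hs hL e, smul_smul,
    ← Complex.ofReal_mul, Finset.univ_eq_empty, Finset.prod_empty, mul_one,
    show (4 : ℝ) - 2 = (2 : ℕ) by norm_num, Real.rpow_natCast, mul_inv_cancel₀ (by positivity),
    Complex.ofReal_one, one_smul]

lemma Ml.vl0 {W : V → ℂ} {v : ℝ → Completion D} (h : Ml c 2 J W fun τ (_ : Fin 0 → Ix) => v τ)
    (b : SN.Bd W) : Vl c J W v 1 1 := by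
  have := h.vl b (K := fun _ => 1) ⟨⟨.const 1, fun _ => one_ne_zero, continuousOn_const⟩,
    fun A J => by simpa [sy] using SN.Bd.const (X := V) 1⟩ default
  simpa [Zf, Zs, sy, c.bt.one] using this

theorem Sl.fc (h : Sl c J ℓ) (τ : ℝ) (f : Sch) : ∀ᵐ p ∂c.nu (ℓ τ f), p ∈ Fc :=
  ae_of_rel wt_g0.bd g0_ne (bd_ft ⟨f, rfl⟩) (h.mul.rel τ default f)
    ((h.mul.ml.vl0 wt_g0.bd).high wt_g0 (by norm_num) (fun τ => h.perp τ _) τ)

/-- the potential in momentum space, with logarithms -/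
structure EllL (Q : Theory D) (bt : SN.BC (fun p y : V => mdot p y) fun y z => Ut Q y z)
    (S0 : ℝ → Completion D →L[ℂ] Completion D) (ell : ℕ → (V → ℂ) → Completion D)
    (g : ℕ → ℕ → ℂ) : Prop where
  e0 : ∀ j, ∃ c0 : ℝ, g j j = c0 ∧ Z.Ell0 Q bt S0 (ell j) c0
  inn : ∀ i j ψ ψ', MemLp ψ 2 (volume.restrict Fc) → MemLp ψ' 2 (volume.restrict Fc) →
    inner ℂ (ell i ψ) (ell j ψ') = g i j * ∫ p in Fc, conj (ψ p) * ψ' p
  cov : ∀ j s L a ψ ψ', 0 < s → IsLor L → MemLp ψ 2 (volume.restrict Fc) →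
    (∀ p, ψ' (sim 1 L 0 p) =
      (s ^ 2 : ℝ) * Complex.exp (I * mdot (sim 1 L 0 p) a) * ψ (s • p)) →
    Ug Q s L a (ell j ψ) = ell j ψ'

/-- **row ELL with logarithms** -/
theorem Sl.ell (h : Sl c J ℓ)
    (a3 : SN.BC pr3 fun (y : P3) z => Ut c.Q (y.1 • va) (Ga c.Q y.2 z)) :
    ∃ ell g, EllL c.Q c.bt
      (fun t => a3.Phi fun k => Complex.exp (I * (t * (d2 k.2 k.2 / k.1) : ℝ))) ell g ∧
      ∀ τ f, ℓ τ f = ∑ j ∈ range (J + 1),
        ell j fun p => (((τ + lm p) ^ j : ℝ) : ℂ) * ft (ev f) p := by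
  have hW := (wt_g0.mono (subset_univ Fc)).mul (wt_Nw J)
  have bN := (wt_Nw J).bd
  set u : ℕ → Completion D := fun j => ∑ k ∈ range (J + 1),
    ((lagP J k).coeff j : ℂ) • run c J (fun τ => ℓ τ gS) k with hu
  have m : ∀ j, Mv c 2 (fun p => ft g0 p * Nw J p) fun _ : Fin 0 → Ix => u j := fun j =>
    ⟨fun _ => .const _ _, fun _ s L κ μ hs hL hk hA => by
      have := fun k : ℕ => (h.mul.ml.run wt_g0.bd k).key 0 s L κ μ hs hL hk hA
      simp only [Finset.univ_unique, Finset.sum_singleton] at this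
      simp only [hu, Finset.univ_unique, Finset.sum_singleton, _root_.map_sum, map_smul, this,
        Finset.smul_sum]
      exact Finset.sum_congr rfl fun k _ => smul_comm _ _ _⟩
  have hv := fun j => ((m j).vl0 hW.bd).vc fun _ => rfl
  have ha : ∀ j, ∀ᵐ p ∂c.nu (u j), p ∈ Fc := fun j => (SN.Calc.P_eq_self meas_Fc).1 (by
    simp only [hu, _root_.map_sum, map_smul, (SN.Calc.P_eq_self meas_Fc).2 (run_ae _)])
  choose κ hκ using fun j => iso_of (x := 0) (hv j) hW (ha j)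
  choose g hg using fun i j => overlap0 (hv i) (hv j) hW (ha i) (ha j)
  have inn := fun i j ψ ψ' => (hκ i).inn (ψ := ψ) (ψ' := ψ') (hκ j) (g := g i j) fun G hG => by
    rw [hg i j G hG, integral_mm hW.bd.1]
    simp [dn]
  refine ⟨fun j => Two.ell c (u j) _, fun i j => if i = j then (κ j : ℝ) else g i j,
    ⟨fun j => ⟨κ j, if_pos rfl, (hκ j).ell0 (hv j) a3⟩, fun i j ψ ψ' a b => ?_,
      fun j s L a ψ ψ' hs hL hψ e => ?_⟩, fun τ f => ?_⟩
  · split_ifs with e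
    · rw [e, (hκ j).inn0 a b]
    · exact inn i j ψ ψ' a b
  · have hk := Kin.du_meas s L
    have hA := Kin.du_pair s hL
    have hS : Sc (Kin.du s L) (volume.restrict Fc) (volume.restrict Fc) (s ^ 4)⁻¹ :=
      (scF_sim hs (isLor_linv hL)).congr (.of_forall fun p => sim_smul ..)
    have e1 := (m j).key 0 s L _ default hs hL hk hA
    have e2 : Ug c.Q s L a = Ut c.Q a * Ug c.Q s L 0 := by
      rw [Ut, Grp.ug_mul c.bR _ _ one_pos hs isLor_one hL]
      simp [P352.HM.sim_tr]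
    have n : ((s ^ 2 : ℝ) : ℂ) ≠ 0 := Complex.ofReal_ne_zero.2 (by positivity)
    have m1 := hS.memLp.2 hψ
    rw [e2, ContinuousLinearMap.mul_apply, (hκ j).cov hk
      (fun F hF => Phi_W hk (ug_ut hs hL) hA hF) (du_Fc hs hL) hS (a := (s ^ 2 : ℝ)) (by
        rw [e1, Finset.univ_unique, Finset.sum_singleton, Finset.univ_eq_empty, Finset.prod_empty,
          mul_one, Real.rpow_neg hs.le, Real.rpow_two, Complex.ofReal_inv, smul_inv_smul₀ n]) hψ,
      ← (hκ j).smul _ m1, (hκ j).tra a (m1.const_mul _)]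
    congr 1
    funext q
    rw [← sim_linv hL q, e, Kin.du, linv_sim _ hL]
    ring
  · have bf : SN.Bd (ft (ev f)) := bd_ft ⟨f, rfl⟩
    have bl : ∀ j ∈ range (J + 1), SN.Bd fun p => Nw J p * ((((τ + lm p) ^ j : ℝ) : ℂ) *
        ft (ev f) p) := fun j hj => by
      simpa only [mul_assoc] using (bd_Nw (q := fun t => t ^ j) (IsPol.of_poly {0}
        (fun _ : ℕ => Polynomial.X ^ j) (fun _ => (1 : ℝ))
        (by simpa using Nat.lt_succ_iff.1 (Finset.mem_range.1 hj)) (by simp)) (by fun_prop)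
        (l := fun p => τ + lm p) (by fun_prop) τ fun p => abs_add_le _ _).mul bf
    have bi := SN.Bd.ind (X := V) meas_Fc
    have b1 := (bi.mul bN).mul bf
    have hb : ∀ k ∈ range (J + 1), SN.Bd fun p => Fc.indicator (fun _ => (1 : ℂ)) p * Nw J p *
        ft (ev f) p * (lag J k (τ + lm p) : ℝ) := fun k hk => by
      simpa only [mul_assoc, mul_comm (ft (ev f) _)] using (bi.mul (bd_add hk τ)).mul bf
    have e := run_back (c := c) (h.pol gS) τ (b1.mul bN) (fun p hp => by simp [hp]) hb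
    refine Phi_inj (c := c) (bN.mul hW.bd) (fun p => mul_ne_zero ((wt_Nw J).ne p) (hW.ne p)) ?_
    rw [_root_.map_sum, Finset.sum_congr rfl fun j hj => (hκ j).mul bN
      (mem_log (test_ft ⟨f, rfl⟩) τ j) (by have := bf.1; fun_prop) (bl j hj)]
    simp only [hu, _root_.map_sum, map_smul]
    rw [Finset.sum_comm, ← (SN.Calc.P_eq_self meas_Fc).2 (h.fc τ f), SN.Calc.P,
      ← c.bt.mul_apply (bN.mul hW.bd) bi, show (fun p => Nw J p * (ft g0 p * Nw J p) *
        Fc.indicator (fun _ => (1 : ℂ)) p) = fun p => Fc.indicator (fun _ => (1 : ℂ)) p * Nw J p *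
          Nw J p * ft g0 p from funext fun p => by ring,
      c.bt.mul_apply ((bi.mul bN).mul bN) wt_g0.bd, h.mul.rel τ default f,
      ← c.bt.mul_apply ((bi.mul bN).mul bN) bf]
    refine Eq.trans (by simp only [mul_right_comm _ (Nw J _) (ft (ev f) _)])
      (e.trans (Finset.sum_congr rfl fun k hk => ?_))
    rw [Phi_fsum _ _ bl]
    refine c.bt.congr_ae (hb k hk) (SN.Bd.sum _ fun j hj => (bl j hj).smul _)
      ((run_ae _).mono fun p hp => ?_)
    simp only [indicator_of_mem hp, lag, Complex.ofReal_sum, Finset.mul_sum,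
      Polynomial.eval_eq_sum_range' (Nat.lt_succ_of_le (lagP_deg hk))]
    exact Finset.sum_congr rfl fun j _ => by push_cast; ring

end

end Vale.Agent.P352L.Two
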