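import Vale.Agent.P352X.R.TWO.Mu

/-!
# P352L, block PART: tensors without components of high boost weight (helper97)
-/

set_option linter.all false

open MeasureTheory Set Filter Topology
open scoped ComplexConjugate

namespace Vale.Agent.P352L.Part

open Vale.Agent.P352X Vale.Agent.P352.GF Vale.Agent.P352.BW Vale.Agent.P352.H496
open Vale.Agent.P352.H755 Vale.Agent.P352X.Two
open Complex (I)

noncomputable section

variable {E : Type*} [AddCommGroup E] [Module ℂ E] {j : ℕ}

/-- the slots `(x, y, l, ..., l)` -/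
def s3 {α : Type*} (j : ℕ) (x y l : α) : Fin (j + 2) → α :=
  Matrix.vecCons x (Matrix.vecCons y fun _ => l)

/-- the index `(a, b, γ)` -/
def i3 (a b : Ix) (γ : Fin j → Ix) : Fin (j + 2) → Ix := Matrix.vecCons a (Matrix.vecCons b γ)

lemma sum_cons {M : Type*} [AddCommMonoid M] {k : ℕ} (F : (Fin (k + 1) → Ix) → M) :
    ∑ ν, F ν = ∑ a, ∑ γ, F (Matrix.vecCons a γ) := by
  rw [← (Fin.consEquiv fun _ => Ix).sum_comp, Fintype.sum_prod_type]
  rfl

lemma sum_i3 {M : Type*} [AddCommMonoid M] (F : (Fin (j + 2) → Ix) → M) :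
    ∑ ν, F ν = ∑ a, ∑ b, ∑ γ, F (i3 a b γ) := by
  rw [sum_cons]
  exact Finset.sum_congr rfl fun a _ => sum_cons _

/-- lower components -/
def lo (x : V) (m : Ix) : ℝ := eta m * x m

/-- products of lower components -/
def lp (p : V) (γ : Fin j → Ix) : ℝ := ∏ i, lo p (γ i)

lemma sy_i3 (x y l : V) (a b : Ix) (γ : Fin j → Ix) :
    sy (s3 j x y l) (i3 a b γ) = lo x a * lo y b * lp l γ := by
  simp [sy, s3, i3, Fin.prod_univ_succ, lo, lp, mul_assoc]

/-- the form of a tensor -/
def fm {r : ℕ} (Y : (Fin r → Ix) → E) (h : Fin r → V) : E := ∑ μ, (sy h μ : ℂ) • Y μ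

lemma fm_s3 (Y : (Fin (j + 2) → Ix) → E) (x y l : V) : fm Y (s3 j x y l) =
    ∑ a, ∑ b, ∑ γ, ((lo x a * lo y b * lp l γ : ℝ) : ℂ) • Y (i3 a b γ) := by
  simp only [fm, sum_i3, sy_i3]

/-- the form with complex arguments -/
def fc (Y : (Fin (j + 2) → Ix) → E) (x y l : Ix → ℂ) : E :=
  ∑ a, ∑ b, ∑ γ : Fin j → Ix, ((eta a * x a) * (eta b * y b) * ∏ i, (eta (γ i) * l (γ i))) •
    Y (i3 a b γ)

/-- real vectors as complex vectors -/
def cv (x : V) (m : Ix) : ℂ := x m

lemma fc_real (Y : (Fin (j + 2) → Ix) → E) (x y l : V) :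
    fc Y (cv x) (cv y) (cv l) = fm Y (s3 j x y l) := by
  simp only [fm_s3, fc, cv, lo, lp]
  push_cast
  rfl

lemma fc_bil (Y : (Fin (j + 2) → Ix) → E) (x y l : Ix → ℂ) (s t : ℂ) :
    fc Y (fun m => s * x m + t * y m) (fun m => s * x m + t * y m) l =
      (s * s) • fc Y x x l + (t * t) • fc Y y y l + (s * t) • (fc Y x y l + fc Y y x l) := by
  simp only [fc, Finset.smul_sum, smul_smul, smul_add, ← Finset.sum_add_distrib, ← add_smul]
  refine Finset.sum_congr rfl fun a _ => Finset.sum_congr rfl fun b _ =>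
    Finset.sum_congr rfl fun γ _ => congrArg (· • _) (by ring)

/-- the vanishing condition -/
def Hi (Y : (Fin (j + 2) → Ix) → E) : Prop :=
  ∀ n l, IsNull n → mdot n l = 0 → fm Y (s3 j n n l) = 0

/-- analytic continuation to helicity two -/
theorem Hi.pair {Y : (Fin (j + 2) → Ix) → E} (h : Hi Y) {p e u : V} (hp : p ∈ Fc)
    (h1 : mdot p e = 0) (h2 : mdot p u = 0) (h3 : mdot e u = 0) (h4 : mdot e e = -mu p)
    (h5 : mdot u u = -mu p) : fm Y (s3 j e e p) = fm Y (s3 j u u p) ∧
      fm Y (s3 j e u p) + fm Y (s3 j u e p) = 0 := by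
  let n : ℂ → Ix → ℂ := fun t m => (p m + e m) + t * u m + t ^ 2 / 4 * (p m - e m)
  let l : ℂ → Ix → ℂ := fun t m => (p m + e m) / 2 - t ^ 2 / 8 * (p m - e m)
  have hr : ∀ t : ℝ, fc Y (n t) (n t) (l t) = 0 := fun t => by
    have e1 : n t = cv ((p + e) + t • u + (t ^ 2 / 4) • (p - e)) := funext fun m => by
      simp [n, cv]
    have e2 : l t = cv ((1 / 2 : ℝ) • (p + e) - (t ^ 2 / 8) • (p - e)) := funext fun m => by
      simp [l, cv]
      ring
    have m0 : mdot p p = mu p := rfl
    have nn : mdot ((p + e) + t • u + (t ^ 2 / 4) • (p - e))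
        ((p + e) + t • u + (t ^ 2 / 4) • (p - e)) = 0 := by
      simp only [md_add, md_add_l, md_sub, md_sub_l, md_smul, md_smul_l, md_comm e p, md_comm u p,
        md_comm u e, h1, h2, h3, h4, h5, m0]
      ring
    have np : 0 < mdot ((p + e) + t • u + (t ^ 2 / 4) • (p - e)) p := by
      simp only [md_add_l, md_sub_l, md_smul_l, md_comm e p, md_comm u p, h1, h2, m0]
      have := ((mem_Fc p).1 hp).2
      nlinarith [sq_nonneg t]
    rw [e1, e2, fc_real]
    refine h _ _ ⟨nn, ?_⟩ ?_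
    · generalize (p + e) + t • u + (t ^ 2 / 4) • (p - e) = x at nn np
      by_contra k
      have k1 : -x ∈ {x : V | 0 ≤ x o ∧ 0 ≤ mu x} :=
        ⟨by simpa using k, by rw [mu_neg]; exact nn.ge⟩
      obtain ⟨a1, a2, a3⟩ := (cone_iff (-x)).1 k1
      obtain ⟨b1, b2⟩ := (mem_Fc p).1 hp
      have b3 := ((mem_Fc' p).1 hp).1
      rw [mu_eq] at b2
      have : 0 ≤ mdot (-x) p := by
        rw [mdot_null, sub_nonneg]
        refine (abs_le_of_sq_le_sq' ((d2_sq_le _ _).trans ?_)
          (add_nonneg (mul_nonneg a1 b1.le) (mul_nonneg a2 b3.le))).2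
        have := mul_le_mul a3 (sub_pos.1 b2).le (d2_nonneg _) (by positivity)
        nlinarith [sq_nonneg (al (-x) * be p - be (-x) * al p)]
      rw [md_neg_l] at this
      linarith
    · simp only [md_add, md_add_l, md_sub, md_sub_l, md_smul, md_smul_l, md_comm e p, md_comm u p,
        md_comm u e, h1, h2, h3, h4, h5, m0]
      ring
  have hc : ∀ t : ℂ, fc Y (n t) (n t) (l t) = 0 := fun t => by
    refine (Module.forall_dual_apply_eq_zero_iff ℂ _).1 fun φ => ?_
    have d : Differentiable ℂ fun t => φ (fc Y (n t) (n t) (l t)) := by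
      simp only [fc, map_sum, map_smul, smul_eq_mul, n, l]
      fun_prop
    have := (d.differentiableOn.analyticOnNhd isOpen_univ).eq_of_frequently_eq (g := fun _ => 0)
      analyticOnNhd_const (z₀ := 0) (by
        have t1 : Tendsto (fun r : ℝ => (r : ℂ)) (𝓝[≠] 0) (𝓝[≠] 0) :=
          tendsto_nhdsWithin_iff.2 ⟨by
            simpa using (Complex.continuous_ofReal.tendsto 0).mono_left nhdsWithin_le_nhds,
            eventually_nhdsWithin_of_forall fun r hr => by simpa using hr⟩
        exact t1.frequently (Eventually.of_forall fun r => by simp [hr]).frequently)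
    exact congrFun this t
  have key : ∀ s : ℂ, s * s = -1 → fm Y (s3 j e e p) - fm Y (s3 j u u p) +
      s • (fm Y (s3 j e u p) + fm Y (s3 j u e p)) = 0 := fun s hs => by
    have a := hc (2 * s)
    have e1 : n (2 * s) = fun m => 2 * cv e m + (2 * s) * cv u m := funext fun m => by
      simp only [n, cv]
      linear_combination (p m - e m : ℂ) * hs
    have e2 : l (2 * s) = cv p := funext fun m => by
      simp only [l, cv]
      linear_combination (-(p m - e m : ℂ) / 2) * hs
    rw [e1, e2, fc_bil, fc_real, fc_real, fc_real, fc_real,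
      show 2 * s * (2 * s) = -4 by linear_combination 4 * hs] at a
    refine (smul_eq_zero_iff_right (by norm_num : (4 : ℂ) ≠ 0)).1 (Eq.trans ?_ a)
    module
  have k1 := key I Complex.I_mul_I
  have k2 := key (-I) (by rw [neg_mul_neg, Complex.I_mul_I])
  have k3 : fm Y (s3 j e e p) - fm Y (s3 j u u p) = 0 := by
    refine (smul_eq_zero_iff_right (two_ne_zero (α := ℂ))).1 ?_
    linear_combination (norm := module) k1 + k2
  rw [k3, zero_add] at k1
  exact ⟨sub_eq_zero.1 k3, (smul_eq_zero_iff_right Complex.I_ne_zero).1 k1⟩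

section bil

variable (Y : (Fin (j + 2) → Ix) → E) (x x' y y' l : V) (t : ℝ)

lemma fm_add_l : fm Y (s3 j (x + x') y l) = fm Y (s3 j x y l) + fm Y (s3 j x' y l) := by
  simp only [fm_s3, ← Finset.sum_add_distrib, ← add_smul, lo, Pi.add_apply]
  refine Finset.sum_congr rfl fun a _ => Finset.sum_congr rfl fun b _ =>
    Finset.sum_congr rfl fun γ _ => congrArg (· • _) (by push_cast; ring)

lemma fm_add_r : fm Y (s3 j x (y + y') l) = fm Y (s3 j x y l) + fm Y (s3 j x y' l) := by
  simp only [fm_s3, ← Finset.sum_add_distrib, ← add_smul, lo, Pi.add_apply]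
  refine Finset.sum_congr rfl fun a _ => Finset.sum_congr rfl fun b _ =>
    Finset.sum_congr rfl fun γ _ => congrArg (· • _) (by push_cast; ring)

lemma fm_smul_l : fm Y (s3 j (t • x) y l) = (t : ℂ) • fm Y (s3 j x y l) := by
  simp only [fm_s3, Finset.smul_sum, smul_smul, lo, Pi.smul_apply, smul_eq_mul]
  refine Finset.sum_congr rfl fun a _ => Finset.sum_congr rfl fun b _ =>
    Finset.sum_congr rfl fun γ _ => congrArg (· • _) (by push_cast; ring)

lemma fm_smul_r : fm Y (s3 j x (t • y) l) = (t : ℂ) • fm Y (s3 j x y l) := by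
  simp only [fm_s3, Finset.smul_sum, smul_smul, lo, Pi.smul_apply, smul_eq_mul]
  refine Finset.sum_congr rfl fun a _ => Finset.sum_congr rfl fun b _ =>
    Finset.sum_congr rfl fun γ _ => congrArg (· • _) (by push_cast; ring)

end bil

/-- a vector that is orthogonal to the moving frame vanishes -/
lemma frame_zero {p r : V} (hp : p ∈ Fc) (h0 : mdot r p = 0) (h1 : be r = 0)
    (h2 : ∀ i : Fin 2, mdot r (be p • ex i + tx p i • va) = 0) : r = 0 := by
  have b := ((mem_Fc p).1 hp).1.ne'
  have t : tx r = 0 := funext fun i => by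
    have := h2 i
    rw [md_add, md_smul, md_smul, md_ex', md_va', h1] at this
    simpa [b] using this
  refine null_ext ?_ (by simpa using h1) (by simpa using t)
  rw [mdot_null, h1, t, d2_zero_l] at h0
  simpa [b] using h0

/-- on the orthogonal complement of `p` the form is a multiple of the metric -/
theorem Hi.met {Y : (Fin (j + 2) → Ix) → E} (h : Hi Y) {p : V} (hp : p ∈ Fc) : ∃ κ : E,
    ∀ x y, mdot x p = 0 → mdot y p = 0 →
      fm Y (s3 j x y p) + fm Y (s3 j y x p) = (mdot x y : ℂ) • κ := by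
  obtain ⟨b0, m0⟩ := (mem_Fc p).1 hp
  obtain ⟨m, hm, e⟩ : ∃ m, 0 < m ∧ m ^ 2 = mu p := ⟨_, Real.sqrt_pos.2 m0, Real.sq_sqrt m0.le⟩
  let f : Fin 2 → V := fun i => be p • ex i + tx p i • va
  let e0 : V := (be p)⁻¹ • (mu p • va - be p • p)
  let e1 : V := (m / be p) • f 0
  let e2 : V := (m / be p) • f 1
  have pp : mdot p p = mu p := rfl
  have a0 : mdot p e0 = 0 := by simp only [e0, md_smul, md_sub, md_va', pp]; ring
  have af : ∀ i, mdot p (f i) = 0 := fun i => by
    simp only [f, md_smul, md_add, md_va', md_ex']; ring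
  have a1 : mdot p e1 = 0 := by simp only [e1, md_smul, af, mul_zero]
  have a2 : mdot p e2 = 0 := by simp only [e2, md_smul, af, mul_zero]
  have bf : ∀ i, mdot e0 (f i) = 0 := fun i => by
    simp only [e0, md_smul_l, md_sub_l, af, md_va]
    simp [f]
  have b1 : mdot e0 e1 = 0 := by simp only [e1, md_smul, bf, mul_zero]
  have b2 : mdot e0 e2 = 0 := by simp only [e2, md_smul, bf, mul_zero]
  have ff : ∀ i k, mdot (f i) (f k) = -(be p ^ 2 * d2 (P352X.e2 i) (P352X.e2 k)) := fun i k => by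
    simp [f, mdot_null, d2_smul, d2_smul_l]
    ring
  have b3 : mdot e1 e2 = 0 := by
    simp only [e1, e2, md_smul, md_smul_l, ff]
    simp [d2, P352X.e2]
  have n0 : mdot e0 e0 = -mu p := by
    simp only [e0, md_smul, md_smul_l, md_sub, md_sub_l, md_va, md_va', pp, be_va, be_smul, be_sub]
    field_simp
    ring
  have n1 : mdot e1 e1 = -mu p := by
    simp only [e1, md_smul, md_smul_l, ff, ← e]
    simp [d2, P352X.e2]
    field_simp
  have n2 : mdot e2 e2 = -mu p := by
    simp only [e2, md_smul, md_smul_l, ff, ← e]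
    simp [d2, P352X.e2]
    field_simp
  have dec : ∀ x, mdot x p = 0 → ∃ c0 c1 c2 : ℝ, x = c0 • e0 + c1 • e1 + c2 • e2 := fun x hx => by
    refine ⟨-(mdot x e0 / mu p), -(mdot x e1 / mu p), -(mdot x e2 / mu p), sub_eq_zero.1 ?_⟩
    set r := x - (-(mdot x e0 / mu p) • e0 + -(mdot x e1 / mu p) • e1 + -(mdot x e2 / mu p) • e2)
      with hr
    have r0 : mdot r p = 0 := by
      simp only [hr, md_sub_l, md_add_l, md_smul_l, md_comm e0 p, md_comm e1 p, md_comm e2 p, a0, a1,
        a2, hx]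
      ring
    have r1 : mdot r e0 = 0 := by
      simp only [hr, md_sub_l, md_add_l, md_smul_l, n0, md_comm e1 e0, md_comm e2 e0, b1, b2]
      field_simp
      ring
    have r2 : mdot r e1 = 0 := by
      simp only [hr, md_sub_l, md_add_l, md_smul_l, n1, md_comm e2 e1, b1, b3]
      field_simp
      ring
    have r3 : mdot r e2 = 0 := by
      simp only [hr, md_sub_l, md_add_l, md_smul_l, n2, b2, b3]
      field_simp
      ring
    clear_value r
    have q : m / be p ≠ 0 := by positivity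
    refine frame_zero hp r0 ?_ fun i => ?_
    · simp only [e0, md_smul, md_sub, md_va', r0] at r1
      simpa [b0.ne', m0.ne'] using r1
    · fin_cases i
      · exact (mul_eq_zero.1 ((md_smul _ _ _).symm.trans r2)).resolve_left q
      · exact (mul_eq_zero.1 ((md_smul _ _ _).symm.trans r3)).resolve_left q
  obtain ⟨p1, q1⟩ := h.pair hp a0 a1 b1 n0 n1
  obtain ⟨p2, q2⟩ := h.pair hp a0 a2 b2 n0 n2
  obtain ⟨-, q3⟩ := h.pair hp a1 a2 b3 n1 n2
  refine ⟨((-2 / mu p : ℝ) : ℂ) • fm Y (s3 j e0 e0 p), fun x y hx hy => ?_⟩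
  obtain ⟨c0, c1, c2, rfl⟩ := dec x hx
  obtain ⟨d0, d1, d2, rfl⟩ := dec y hy
  have z : mdot (c0 • e0 + c1 • e1 + c2 • e2) (d0 • e0 + d1 • e1 + d2 • e2) =
      -mu p * (c0 * d0 + c1 * d1 + c2 * d2) := by
    simp only [md_add, md_add_l, md_smul, md_smul_l, n0, n1, n2, md_comm e1 e0, md_comm e2 e0,
      md_comm e2 e1, b1, b2, b3]
    ring
  have z' : ((-mu p * (c0 * d0 + c1 * d1 + c2 * d2) : ℝ) : ℂ) * ((-2 / mu p : ℝ) : ℂ) =
      2 * (c0 * d0 + c1 * d1 + c2 * d2) := by
    have : (mu p : ℂ) ≠ 0 := by exact_mod_cast m0.ne'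
    push_cast
    field_simp
  clear_value e0 e1 e2
  rw [z, smul_smul, z']
  simp only [fm_add_l, fm_add_r, fm_smul_l, fm_smul_r, ← p1, ← p2]
  linear_combination (norm := module) ((c0 * d1 + c1 * d0 : ℂ)) • q1 +
    ((c0 * d2 + c2 * d0 : ℂ)) • q2 + ((c1 * d2 + c2 * d1 : ℂ)) • q3

/-- the part of `μ h` that is orthogonal to `p` -/
def pp (p h : V) : V := mu p • h - mdot h p • p

lemma pp_perp (p h : V) : mdot (pp p h) p = 0 := by
  simp only [pp, md_sub_l, md_smul_l, mu]
  ring

lemma pp_pp (p h k : V) :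
    mdot (pp p h) (pp p k) = mu p * (mu p * mdot h k - mdot h p * mdot k p) := by
  simp only [pp, md_sub_l, md_smul_l, md_sub, md_smul, mu, md_comm p k]
  ring

/-- the projection to spin two -/
def G2 (h k p : V) (a b : Ix) : ℝ :=
  3 * mu p * (lo (pp p h) a * lo (pp p k) b + lo (pp p k) a * lo (pp p h) b) -
    2 * mdot (pp p h) (pp p k) * (mu p * bas a (eta a) b - lo p a * lo p b)

lemma cont_lo (m : Ix) : Continuous fun p => lo p m := by unfold lo; fun_prop

lemma cont_lp (γ : Fin j → Ix) : Continuous fun p => lp p γ :=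
  continuous_finset_prod _ fun i _ => cont_lo _

lemma cont_G2 (h k : V) (a b : Ix) : Continuous fun p => G2 h k p a b := by
  unfold G2 lo pp mu
  fun_prop

/-- **no spin two** -/
theorem Hi.spin {Y : (Fin (j + 2) → Ix) → E} (hY : Hi Y) (h k : V) {p : V} (hp : p ∈ Fc) :
    ∑ a, ∑ b, ∑ γ, ((G2 h k p a b * lp p γ : ℝ) : ℂ) • Y (i3 a b γ) = 0 := by
  obtain ⟨κ, hκ⟩ := hY.met hp
  have m0 : (mu p : ℂ) ≠ 0 := by exact_mod_cast ((mem_Fc p).1 hp).2.ne'
  set X : E := ∑ a, ∑ b, ∑ γ, (((mu p * bas a (eta a) b - lo p a * lo p b) * lp p γ : ℝ) : ℂ) •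
    Y (i3 a b γ) with hX
  have e1 : ∑ m, (eta m : ℂ) • fm Y (s3 j (pp p (bas m 1)) (pp p (bas m 1)) p) =
      (mu p : ℂ) • X := by
    simp only [fm_s3, hX, Finset.smul_sum, smul_smul]
    rw [Finset.sum_comm]
    refine Finset.sum_congr rfl fun a _ => Finset.sum_comm.trans
      (Finset.sum_congr rfl fun b _ => Finset.sum_comm.trans (Finset.sum_congr rfl fun γ _ => ?_))
    rw [← Finset.sum_smul]
    congr 1
    norm_cast
    have : ∑ m, eta m * (lo (pp p (bas m 1)) a * lo (pp p (bas m 1)) b) =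
        mu p * (mu p * bas a (eta a) b - lo p a * lo p b) := by
      fin_cases a <;> fin_cases b <;>
        simp [lo, pp, mu, mdot_eq, bas, eta, o, Fin.sum_univ_four] <;> ring
    simp only [← mul_assoc _ _ (lp p γ), ← Finset.sum_mul, this]
  have e2 : ∑ m, eta m * mdot (pp p (bas m 1)) (pp p (bas m 1)) = 3 * mu p ^ 2 := by
    simp only [pp_pp]
    simp [mu, mdot_eq, bas, eta, o, Fin.sum_univ_four]
    ring
  have e3 : (2 : ℂ) • X = (3 * mu p : ℂ) • κ := by
    refine (smul_right_injective E m0) ?_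
    have := fun m => hκ _ _ (pp_perp p (bas m 1)) (pp_perp p (bas m 1))
    simp only [← two_smul ℂ] at this
    show (mu p : ℂ) • (2 : ℂ) • X = _
    rw [smul_comm, ← e1, Finset.smul_sum]
    simp only [smul_comm (2 : ℂ), this, smul_smul, ← Finset.sum_smul]
    congr 1
    norm_cast
    rw [e2]
    ring
  calc _ = (3 * mu p : ℂ) • (fm Y (s3 j (pp p h) (pp p k) p) + fm Y (s3 j (pp p k) (pp p h) p)) -
        (mdot (pp p h) (pp p k) : ℂ) • (2 : ℂ) • X := by
        simp only [fm_s3, hX, Finset.smul_sum, smul_smul, smul_add, ← Finset.sum_add_distrib,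
          ← Finset.sum_sub_distrib, ← add_smul, ← sub_smul]
        refine Finset.sum_congr rfl fun a _ => Finset.sum_congr rfl fun b _ =>
          Finset.sum_congr rfl fun γ _ => congrArg (· • _) (by rw [G2]; push_cast; ring)
    _ = 0 := by rw [hκ _ _ (pp_perp p h) (pp_perp p k), e3, smul_comm, sub_self]

lemma G2_tr (h k p : V) : ∑ a, eta a * G2 h k p a a = 0 := by
  simp only [G2, pp_pp]
  simp [lo, pp, mu, mdot_eq, bas, eta, o, Fin.sum_univ_four]
  ring

/-! ### the calculus -/

variable {H : Type*} [NormedAddCommGroup H] [InnerProductSpace ℂ H] [CompleteSpace H]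

/-- pointwise relations are relations in the calculus -/
theorem phi0 {X ι : Type*} [MeasurableSpace X] [Fintype ι] (C : SN.Calc X H) (v : ι → H)
    {g : ι → X → ℂ} (hg : ∀ i, SN.Bd (g i)) (h : ∀ p, ∑ i, g i p • v i = 0) :
    ∑ i, C.Phi (g i) (v i) = 0 := by
  let W := Submodule.span ℂ (Set.range v)
  haveI : Module.Finite ℂ W := Module.Finite.span_of_finite ℂ (Set.finite_range v)
  let b := Module.finBasis ℂ W
  let u : ι → W := fun i => ⟨v i, Submodule.subset_span ⟨i, rfl⟩⟩
  have e : ∀ i, v i = ∑ k, b.repr (u i) k • (b k : H) := fun i => by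
    have := congrArg W.subtype (b.sum_repr (u i))
    rw [map_sum] at this
    exact this.symm
  have z : ∀ k p, ∑ i, b.repr (u i) k * g i p = 0 := fun k p => by
    have : ∑ i, g i p • u i = 0 := Subtype.ext (by simpa using h p)
    simpa [mul_comm] using congrArg (fun w => b.repr w k) this
  rw [Finset.sum_congr rfl fun i _ => by rw [e i, map_sum], Finset.sum_comm]
  refine Finset.sum_eq_zero fun k _ => ?_
  have := C.sum Finset.univ fun i _ => (hg i).smul (b.repr (u i) k)
  simp only [z, C.zero] at this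
  have := DFunLike.congr_fun this (b k : H)
  simp only [ContinuousLinearMap.zero_apply, ContinuousLinearMap.sum_apply, C.smul _ (hg _),
    ContinuousLinearMap.smul_apply] at this
  simp only [map_smul]
  exact this.symm

/-- exhaustion of the open cone -/
theorem exh (C : SN.Calc V H) {z : H} (h0 : ∀ᵐ p ∂C.nu z, p ∈ Fc)
    (h : ∀ F, Cp Fc F → C.Phi F z = 0) : z = 0 := by
  have a : C.nu z Fc = 0 := by
    rw [isOpen_Fc.measure_eq_iSup_isCompact]
    simp only [ENNReal.iSup_eq_zero]
    exact fun K h1 h2 => (C.nu_eq_zero h2.measurableSet z).2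
      (h _ (cp_ind h2 h1 (SN.Bd.const 1)))
  have b : C.nu z = 0 := by
    rw [← Measure.restrict_eq_self_of_ae_mem h0]
    exact Measure.restrict_eq_zero.2 a
  have := C.nu_univ z
  rw [b] at this
  simpa using this.symm

end

end Vale.Agent.P352L.Part
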