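import Vale.Agent.P352L.PartW
import Vale.Agent.P352L.W

/-!
# P352L, block PART: the double divergence (helper97)
-/

set_option linter.all false

noncomputable section

open MeasureTheory Filter Topology Set
open scoped SchwartzMap ComplexConjugate ContDiff LineDeriv

namespace Vale.Agent.P352L.Part

open Vale.Agent.P352 Vale.Agent.P352X
open GF (Ix V Fn Sch ev pd bar sim bas o eta mdot Fld Theory IsTest IsLor)
open UniformSpace (Completion)
open H755 H15 Ap Chx Str Api4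
open Complex (I)
open Matrix (vecCons)

variable {D : Type*} [NormedAddCommGroup D] [InnerProductSpace ℂ D]
variable {Q : GF.Theory D} {T T' : Ix → Ix → GF.Fld D} {A : (V → V) → D → D}
  {w w' : I2 → I2 → S2 →L[ℂ] Completion D} {χ : V → ℂ}

/-- monomials in the difference -/
def Mo (χ : V → ℂ) {k : ℕ} (γ : Fin k → Ix) : Sch →L[ℂ] S2 := ten2 (sch fun u => mon γ u * χ u)

lemma Mo_apply (hχ : Dc χ) {k : ℕ} (γ : Fin k → Ix) (f : Sch) (z : V × V) :
    Mo χ γ f z = mon γ (z.1 - z.2) * χ (z.1 - z.2) * f z.2 := by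
  rw [Mo, ten2_apply, Api4.sch_apply (dc_mul_left (smooth_mon γ) hχ)]

lemma mon_cons {k : ℕ} (m : Ix) (γ : Fin k → Ix) (u : V) :
    mon (vecCons m γ) u = u m * mon γ u := by
  simp [mon, Fin.prod_univ_succ]

/-- iterated derivatives -/
def dI {k : ℕ} (γ : Fin k → Ix) (f : Sch) : Sch := ∂^{fun i => (bas (γ i) 1 : V)} f

/-- the coordinates of the difference -/
def lc (m : Ix) : V × V →L[ℝ] ℝ :=
  ContinuousLinearMap.proj m ∘L (ContinuousLinearMap.fst ℝ V V - ContinuousLinearMap.snd ℝ V V)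

lemma lc_apply (m : Ix) (z : V × V) : lc m z = (z.1 - z.2) m := rfl

/-- the Taylor series -/
def Tl {B : Type*} [NormedAddCommGroup B] [NormedSpace ℂ B] (χ : V → ℂ) (N : ℕ)
    (Λ : S2 →L[ℂ] B) (m : Ix) (f : Sch) : B :=
  ∑ k ∈ Finset.range (N + 1), ∑ γ : Fin k → Ix,
    (k.factorial : ℂ)⁻¹ • Λ (Mo χ (vecCons m γ) (dI γ f))

theorem taylor1 {B : Type*} [NormedAddCommGroup B] [NormedSpace ℂ B] [CompleteSpace B]
    {Λ : S2 →L[ℂ] B} (h : Off Λ) (hχ : Dc χ) (h1 : ∀ᶠ u in 𝓝 (0 : V), χ u = 1) (m : Ix) :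
    ∃ N0, ∀ N, N0 ≤ N → ∀ f : Sch, HasCompactSupport f → ∀ G : S2,
      (∀ x, ∀ᶠ z in 𝓝 (x, x), G z = (z.1 - z.2) m * f z.1) → Λ G = Tl χ N Λ m f := by
  have t := temperate_clm (lc m)
  let M : S2 →L[ℂ] S2 := SchwartzMap.smulLeftCLM ℂ fun z => (lc m z : ℂ)
  have eM : ∀ G z, M G z = (z.1 - z.2) m * G z := fun G z =>
    SchwartzMap.smulLeftCLM_apply_apply t G z
  have o : Off (Λ ∘L M) := fun G hG => h _ fun x hx => hG x (by
    replace hx : (x, x) ∈ tsupport (M G) := hx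
    rw [show (M G : V × V → ℂ) = _ from funext (eM G)] at hx
    exact tsupport_mul_subset_right hx)
  obtain ⟨C, N0, hC, hb⟩ := ST.clm_sn_c (Λ ∘L M)
  refine ⟨N0, fun N hN f hf G hG => ?_⟩
  have d0 : Dc fun z : V × V => χ (z.2 - z.1) * f z.1 :=
    dc_comp_cle (sch_ten2 hχ (dc_of_sch f hf)).1 (ContinuousLinearEquiv.prodComm ℝ V V)
  have e := o.expand hC (fun g => (hb g).trans (mul_le_mul_of_nonneg_left (ST.sn_mono hN g) hC))
    hχ h1 (G := sch fun z : V × V => χ (z.2 - z.1) * f z.1) (by rw [coe_sch d0]; exact d0.2)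
  rw [h.congr (g := M (sch fun z : V × V => χ (z.2 - z.1) * f z.1)) fun x => by
    filter_upwards [hG x, near h1 continuous_neg neg_zero x] with z a1 a2
    rw [neg_sub] at a2
    rw [a1, eM, Api4.sch_apply d0, a2, one_mul]]
  refine e.trans (Finset.sum_congr rfl fun k _ => Finset.sum_congr rfl fun γ _ => ?_)
  have g : dg γ (sch fun z : V × V => χ (z.2 - z.1) * f z.1) = dI γ f := sch_eq _ fun z => by
    have : (fun u : V => sch (fun z : V × V => χ (z.2 - z.1) * f z.1) (z + u, z)) =ᶠ[𝓝 0]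
        fun u => f (z + u) := by
      filter_upwards [(continuous_neg.tendsto' (0 : V) 0 neg_zero).eventually h1] with u hu
      rw [Api4.sch_apply d0]
      simp [hu]
    rw [(this.iteratedFDeriv ℝ k).eq_of_nhds, iteratedFDeriv_comp_add_left, add_zero, dI,
      SchwartzMap.iteratedLineDerivOp_eq_iteratedFDeriv]
  rw [g, ContinuousLinearMap.comp_apply]
  congr 2
  ext z
  rw [eM, Mo_apply hχ, mon_cons, ← Mo, Mo_apply hχ]
  ring

lemma d_near {Φ : S2} {φ : V × V → ℂ} {q : V × V} (h : Φ =ᶠ[𝓝 q] φ) (v : V × V) :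
    ∀ᶠ z in 𝓝 q, ∂_{v} Φ z = fderiv ℝ φ z v :=
  h.fderiv.mono fun z hz => by rw [SchwartzMap.lineDerivOp_apply_eq_fderiv, hz]

lemma d_Mo (hχ : Dc χ) (h1 : ∀ᶠ u in 𝓝 (0 : V), χ u = 1) (α β : Ix) (f : Sch) (v : V × V) (x : V) :
    ∀ᶠ z in 𝓝 (x, x), ∂_{v} (Mo χ ![α, β] f) z =
      ((v.1 - v.2) α * (z.1 - z.2) β + (z.1 - z.2) α * (v.1 - v.2) β) * f z.2 +
        (z.1 - z.2) α * (z.1 - z.2) β * ∂_{v.2} f z.2 := by
  have e : (Mo χ ![α, β] f : V × V → ℂ) =ᶠ[𝓝 (x, x)]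
      fun z => (lc α z : ℂ) * (lc β z : ℂ) * f z.2 :=
    (near h1 continuous_id rfl x).mono fun z hz => by
      rw [Mo_apply hχ, show χ (z.1 - z.2) = 1 from hz]
      simp [mon, lc_apply]
  refine (d_near e v).mono fun z hz => hz.trans ?_
  have d := (((Complex.ofRealCLM ∘L lc α).hasFDerivAt (x := z)).mul
    (Complex.ofRealCLM ∘L lc β).hasFDerivAt).mul
    (f.differentiableAt.hasFDerivAt.comp z (ContinuousLinearMap.snd ℝ V V).hasFDerivAt)
  refine (congrArg (fun u => u v) d.fderiv).trans ?_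
  simp [lc_apply, SchwartzMap.lineDerivOp_apply_eq_fderiv]
  ring

lemma sw_apply (F : S2) (x y : V) : sw F (x, y) = F (y, x) := rfl

lemma sw_d (a b : V) (F : S2) : sw (∂_{(a, b)} F) = ∂_{(b, a)} (sw F) :=
  (SchwartzMap.lineDerivOp_compCLMOfContinuousLinearEquiv ℂ (b, a)
    (ContinuousLinearEquiv.prodComm ℝ V V) F).symm

/-- **the double divergence** -/
theorem Bi.dd (h : Bi Q T T' w) (h' : Bi Q T' T w') (hs : ∀ I J F, w I J F = w' J I (sw F))
    (hT : Stress0 Q T) (hT' : Stress0 Q T') (hχ : Dc χ) (h1 : ∀ᶠ u in 𝓝 (0 : V), χ u = 1) :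
    ∃ N, ∀ f : Sch, HasCompactSupport f → ∀ ν σ α β,
      ∑ ρ, dvL w ν (ρ, σ) (Mo χ ![α, β] (∂_{(bas ρ 1 : V)} f)) - dvL w ν (α, σ) (Mo χ ![β] f) -
        dvL w ν (β, σ) (Mo χ ![α] f) + Tl χ N (dvL w' σ (α, ν)) β f +
        Tl χ N (dvL w' σ (β, ν)) α f = 0 := by
  choose N0 hN using fun p : Ix × I2 × Ix => taylor1 (h'.off hT' hT p.1 p.2.1) hχ h1 p.2.2
  refine ⟨Finset.univ.sup N0, fun f hf ν σ α β => ?_⟩
  have tl := fun n J m => hN (n, J, m) _ (Finset.le_sup (Finset.mem_univ _)) f hf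
  have e0 : ∑ ρ, dvL w ν (ρ, σ) (∂_{((0, bas ρ 1) : V × V)} (Mo χ ![α, β] f)) =
      ∑ μ, dvL w' σ (μ, ν) (sw (∂_{((bas μ 1, 0) : V × V)} (Mo χ ![α, β] f))) := by
    simp only [dvL_apply, dv1, hs]
    rw [Finset.sum_comm]
    refine Finset.sum_congr rfl fun μ _ => Finset.sum_congr rfl fun ρ _ => ?_
    rw [← sw_d]
    exact congrArg (fun F => w' _ _ (sw F)) (DFunLike.congr_fun (dD_comm _ _) _)
  have e1 : ∀ ρ, dvL w ν (ρ, σ) (∂_{((0, bas ρ 1) : V × V)} (Mo χ ![α, β] f)) =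
      dvL w ν (ρ, σ) (Mo χ ![α, β] (∂_{(bas ρ 1 : V)} f)) -
        (bas α 1 ρ : ℂ) • dvL w ν (ρ, σ) (Mo χ ![β] f) -
        (bas β 1 ρ : ℂ) • dvL w ν (ρ, σ) (Mo χ ![α] f) := fun ρ => by
    rw [← (dvL w _ _).map_smul, ← (dvL w _ _).map_smul, ← map_sub, ← map_sub]
    refine (h.off hT hT' _ _).congr fun x => ?_
    filter_upwards [d_Mo hχ h1 α β f (0, bas ρ 1) x, near h1 continuous_id rfl x] with z a1 a2
    simp only [a1, SchwartzMap.sub_apply, SchwartzMap.smul_apply, Mo_apply hχ,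
      show χ (z.1 - z.2) = 1 from a2]
    simp [mon, bas, eq_comm]
    split_ifs <;> ring
  have e2 : ∀ μ, dvL w' σ (μ, ν) (sw (∂_{((bas μ 1, 0) : V × V)} (Mo χ ![α, β] f))) =
      -((bas α 1 μ : ℂ) • Tl χ (Finset.univ.sup N0) (dvL w' σ (μ, ν)) β f) -
        (bas β 1 μ : ℂ) • Tl χ (Finset.univ.sup N0) (dvL w' σ (μ, ν)) α f := fun μ => by
    have g : ∀ m x, ∀ᶠ z : V × V in 𝓝 (x, x), (-sw (Mo χ ![m] f)) z = (z.1 - z.2) m * f z.1 :=
      fun m x => (near h1 continuous_neg neg_zero x).mono fun z hz => by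
        rw [neg_sub] at hz
        rw [SchwartzMap.neg_apply, sw_apply, Mo_apply hχ, hz]
        simp [mon]
        ring
    rw [← tl σ (μ, ν) β _ (g β), ← tl σ (μ, ν) α _ (g α), ← (dvL w' _ _).map_smul,
      ← (dvL w' _ _).map_smul, ← map_neg, ← map_sub]
    refine (h'.off hT' hT _ _).congr fun x => ?_
    filter_upwards [(continuous_swap.tendsto (x, x)).eventually (d_Mo hχ h1 α β f (bas μ 1, 0) x),
      g α x, g β x] with z a1 a2 a3
    rw [SchwartzMap.sub_apply, SchwartzMap.neg_apply, SchwartzMap.smul_apply,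
      SchwartzMap.smul_apply, a2, a3]
    refine a1.trans ?_
    simp [bas, eq_comm]
    split_ifs <;> ring
  have s : ∀ (a : Ix) (u : Ix → Completion D), ∑ ρ, (bas a 1 ρ : ℂ) • u ρ = u a := fun a u => by
    rw [Finset.sum_eq_single a (fun b _ hb => by simp [bas, hb]) (by simp)]
    simp [bas]
  simp only [e1, e2, Finset.sum_sub_distrib, Finset.sum_neg_distrib] at e0
  rw [s α fun ρ => dvL w ν (ρ, σ) _, s β fun ρ => dvL w ν (ρ, σ) _,
    s α fun ρ => Tl χ _ (dvL w' σ (ρ, ν)) β f, s β fun ρ => Tl χ _ (dvL w' σ (ρ, ν)) α f] at e0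
  rw [e0]
  abel

/-- the generators of the Lorentz group -/
def gn (r s m : Ix) : V := fun n => eta n * (bas r 1 n * bas s 1 m - bas s 1 n * bas r 1 m)

lemma eta_sq (n : Ix) : eta n * eta n = 1 := by fin_cases n <;> simp [eta, o]

/-- the Ward identity for the generators -/
theorem Bi.ward1 (h : Bi Q T T' w) (hT : Stress0 Q T) (hT' : Stress0 Q T') (R : Rep Q A)
    (ch : CHr Q T A) (hχ : Dc χ) (h1 : ∀ᶠ u in 𝓝 (0 : V), χ u = 1) (r s : Ix) (J : I2) {f : Sch}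
    (hf : HasCompactSupport f) : dvL w r J (Mo χ ![s] f) - dvL w s J (Mo χ ![r] f) =
      -I • ((spin T' (gn r s) J (ev f) Q.vac : D) : Completion D) := by
  rw [← h.ward hT hT' R ch (fun m n => by
    simp only [gn, ← mul_assoc, eta_sq]
    ring) hχ h1 J hf]
  have e : ∀ n, ten2 (sch fun u => ((eta n * rot (gn r s) u n : ℝ) : ℂ) * χ u) f =
      (bas r 1 n : ℂ) • Mo χ ![s] f - (bas s 1 n : ℂ) • Mo χ ![r] f := fun n => by
    have e1 : ∀ u, eta n * rot (gn r s) u n = bas r 1 n * u s - bas s 1 n * u r := fun u => by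
      have : ∀ a, ∑ m, u m * bas a 1 m = u a := fun a => by simp [bas]
      rw [← this s, ← this r]
      simp only [rot, gn, Finset.mul_sum, ← Finset.sum_sub_distrib]
      exact Finset.sum_congr rfl fun m _ => by
        linear_combination (u m * (bas r 1 n * bas s 1 m - bas s 1 n * bas r 1 m)) * eta_sq n
    ext z
    simp only [e1]
    have d : Dc fun u : V => ((bas r 1 n * u s - bas s 1 n * u r : ℝ) : ℂ) * χ u :=
      dc_mul_left (Complex.ofRealCLM.contDiff.comp (f := fun u : V =>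
        bas r 1 n * u s - bas s 1 n * u r) (by fun_prop)) hχ
    rw [ten2_apply, Api4.sch_apply d]
    simp [Mo_apply hχ, mon]
    ring
  have t : ∀ (a : Ix) (u : Ix → Completion D), ∑ ρ, (bas a 1 ρ : ℂ) • u ρ = u a := fun a u => by
    rw [Finset.sum_eq_single a (fun b _ hb => by simp [bas, hb]) (by simp)]
    simp [bas]
  simp only [e, map_sub, (dvL w _ _).map_smul, Finset.sum_sub_distrib]
  rw [t r fun n => dvL w n J _, t s fun n => dvL w n J _]

/-- the traceless part -/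
def tl4 (T : Ix → Ix → Fld D) (a b : Ix) (f : Fn) (v : D) : D :=
  (4 : ℂ) • T a b f v - (gm (a, b) : ℂ) • GF.tr T f v

theorem Bi.ward2 (h : Bi Q T T' w) (hT : Stress0 Q T) (hT' : Stress0 Q T') (R : Rep Q A)
    (ch : CHr Q T A) (hχ : Dc χ) (h1 : ∀ᶠ u in 𝓝 (0 : V), χ u = 1) (a b : Ix) {f : Sch}
    (hf : HasCompactSupport f) : ∑ n, (eta n : ℂ) • (dvL w n (n, a) (Mo χ ![b] f) -
      dvL w b (n, a) (Mo χ ![n] f)) = -I • ((tl4 T' a b (ev f) Q.vac : D) : Completion D) := by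
  simp only [h.ward1 hT hT' R ch hχ h1 _ _ _ hf, smul_comm _ (-I), ← Finset.smul_sum,
    ← Completion.coe_smul, ← coe_sum]
  congr 2
  have s := fun m n => hT'.symm m n (ev f) Q.vac ⟨f, rfl⟩
  fin_cases a <;> fin_cases b <;>
    simp [spin, tl4, GF.tr, gn, gm, bas, eta, o, Fin.sum_univ_four, s 1 0, s 2 0, s 3 0, s 2 1,
      s 3 1, s 3 2] <;> module

/-- the terms of dimension three -/
def Ra (w : I2 → I2 → S2 →L[ℂ] Completion D) (χ : V → ℂ) (f : Sch) (a b : Ix) : Completion D :=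
  ∑ γ : Fin 1 → Ix, ∑ n, (eta n : ℂ) • ct w χ 2 (ix3 n (n, γ 0) ![a, b]) (dI γ f) -
    ∑ γ : Fin 1 → Ix, ∑ n, (eta n : ℂ) • ct w χ 2 (ix3 a (γ 0, b) ![n, n]) (dI γ f)

/-- the terms of the Taylor series -/
def Rb (w : I2 → I2 → S2 →L[ℂ] Completion D) (χ : V → ℂ) (k : ℕ) (f : Sch) (a b : Ix) :
    Completion D :=
  ∑ γ : Fin (k + 1) → Ix, ∑ n, (eta n : ℂ) • ct w χ (k + 2) (ix3 n (n, a) (vecCons b γ)) (dI γ f) -
    ∑ γ : Fin (k + 1) → Ix, ∑ n, (eta n : ℂ) • ct w χ (k + 2) (ix3 b (n, a) (vecCons n γ)) (dI γ f)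

/-- the difference of the tensors and the contact terms -/
def Xd (Q : Theory D) (T T' : Ix → Ix → Fld D) (w w' : I2 → I2 → S2 →L[ℂ] Completion D)
    (χ : V → ℂ) (N : ℕ) (f : Sch) (a b : Ix) : Completion D :=
  (2 * I) • (((tl4 T' a b (ev f) Q.vac : D) : Completion D) - (tl4 T a b (ev f) Q.vac : D)) +
    Ra w χ f a b + ∑ k ∈ Finset.range N, (2 * ((k + 1).factorial : ℂ)⁻¹) • Rb w' χ k f a b

theorem Bi.ddiv (h : Bi Q T T' w) (h' : Bi Q T' T w') (hs : ∀ I J F, w I J F = w' J I (sw F))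
    (hT : Stress0 Q T) (hT' : Stress0 Q T') (R : Rep Q A) (ch : CHr Q T A) (ch' : CHr Q T' A)
    (hχ : Dc χ) (h1 : ∀ᶠ u in 𝓝 (0 : V), χ u = 1) : ∃ N, ∀ f : Sch, HasCompactSupport f →
      ∀ a b, Xd Q T T' w w' χ N f a b + Xd Q T T' w w' χ N f b a = 0 := by
  obtain ⟨N, H⟩ := h.dd h' hs hT hT' hχ h1
  refine ⟨N, fun f hf a b => ?_⟩
  have i1 : ∀ n k l, dvL w n (k, l) = dvL w n (l, k) := fun n k l => by
    simp only [dvL, h.ind2 _ (k, l), Prod.swap]
  have i2 : ∀ n k l, dvL w' n (k, l) = dvL w' n (l, k) := fun n k l => by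
    simp only [dvL, h'.ind2 _ (k, l), Prod.swap]
  have m2 : Mo χ ![b, a] = Mo χ ![a, b] := by simp [Mo, mon, mul_comm]
  have ea : ∀ a b, Ra w χ f a b = ∑ n, (eta n : ℂ) •
      (∑ ρ, dvL w n (ρ, n) (Mo χ ![a, b] (∂_{(bas ρ 1 : V)} f)) -
        ∑ ρ, dvL w a (ρ, b) (Mo χ ![n, n] (∂_{(bas ρ 1 : V)} f))) := fun a b => by
    simp only [smul_sub, Finset.sum_sub_distrib, Finset.smul_sum]
    rw [Ra, Finset.sum_comm, Finset.sum_comm (s := Finset.univ (α := Fin 1 → Ix))]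
    refine congrArg₂ _ (Finset.sum_congr rfl fun n _ => ?_) (Finset.sum_congr rfl fun n _ => ?_) <;>
      refine ((Equiv.funUnique (Fin 1) Ix).symm.sum_comp _).symm.trans
        (Finset.sum_congr rfl fun ρ _ => ?_)
    · rw [i1]
      rfl
    · rfl
  have eb : ∀ a b, ∑ n, (eta n : ℂ) • (Tl χ N (dvL w' n (n, a)) b f - Tl χ N (dvL w' b (n, a)) n f) =
      -I • ((tl4 T a b (ev f) Q.vac : D) : Completion D) +
        ∑ k ∈ Finset.range N, ((k + 1).factorial : ℂ)⁻¹ • Rb w' χ k f a b := fun a b => by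
    rw [← h'.ward2 hT' hT R ch' hχ h1 a b hf, add_comm]
    simp only [Tl, Finset.sum_range_succ', add_sub_add_comm, smul_add, Finset.sum_add_distrib]
    refine congrArg₂ _ ?_ (Finset.sum_congr rfl fun n _ => ?_)
    · simp only [← Finset.sum_sub_distrib, Finset.smul_sum, Rb]
      rw [Finset.sum_comm]
      refine Finset.sum_congr rfl fun k _ => Finset.sum_comm.trans
        (Finset.sum_congr rfl fun γ _ => Finset.sum_congr rfl fun n _ => ?_)
      rw [← smul_sub, ← smul_sub, smul_comm]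
      rfl
    · simp only [Finset.univ_unique, Finset.sum_singleton, Nat.factorial_zero, Nat.cast_one, inv_one,
        one_smul]
      rfl
  have w1 := h.ward2 hT hT' R ch hχ h1 a b hf
  have w2 := h.ward2 hT hT' R ch hχ h1 b a hf
  have z := Finset.sum_congr (s₁ := Finset.univ) rfl fun n _ => congrArg ((eta n : ℂ) • ·)
    (congrArg₂ (· - ·) (congrArg₂ (· - ·) (congrArg ((2 : ℂ) • ·) (H f hf n n a b))
      (H f hf a b n n)) (H f hf b a n n))
  simp only [smul_zero, sub_zero, Finset.sum_const_zero] at z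
  have e1 := eb a b
  have e2 := eb b a
  simp only [Xd, ea, m2, mul_smul, ← Finset.smul_sum]
  simp only [smul_sub, smul_add, Finset.sum_sub_distrib, Finset.sum_add_distrib, i1 _ a, i1 _ b,
    i2 _ a, i2 _ b, smul_comm _ (2 : ℂ), ← Finset.smul_sum] at *
  linear_combination (norm := module) z + (2 : ℂ) • w1 + (2 : ℂ) • w2 - (2 : ℂ) • e1 - (2 : ℂ) • e2

end Vale.Agent.P352L.Part
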