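import Vale.Agent.P352L.PartV
import Vale.Agent.P352L.R.STRUCT

/-!
# P352L, block PART: the members have the same part of spin two (helper97)
-/

set_option linter.all false

open Filter Topology
open scoped SchwartzMap

namespace Vale.Agent.P352L.Two.Pv

open Vale.Agent.P352.GF Vale.Agent.P352.H755
open Vale.Agent.P352X Vale.Agent.P352X.Two Vale.Agent.P352L.Part
open UniformSpace (Completion)
open Complex (I)
open Matrix (vecCons)
open Str Api4

noncomputable section

variable {D : Type*} [NormedAddCommGroup D] [InnerProductSpace ℂ D] {c : Bs D}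
  {Q : Theory D} {T : ℝ → Ix → Ix → Fld D} {W : ℝ → ℝ → I2 → I2 → S2 →L[ℂ] Completion D}
  {χ : V → ℂ}

lemma tp_sw (h : TP2 Q T true W) (α β : ℝ) (K M : I2) (F : S2) :
    W α β K M F = W β α M K (sw F) := h.swap α β K M F _ fun _ _ => rfl

theorem tp_bi (h : TP2 Q T true W) (α β : ℝ) : Bi Q (T α) (T β) (W α β) where
  fac1 := h.fac α β
  fac2 K M f g F e l := (tp_sw h α β K M F).trans
    (h.fac β α M K g f _ (fun x y => (e y x).trans (mul_comm _ _)) l)
  ind1 := h.ind α β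
  ind2 K M := (StrL.ind2 h α β K M).symm

theorem ct_cov (hT : ∀ τ, Stress0 Q (T τ)) (h : TP2 Q T true W) (hχ : Dc χ)
    (h1 : ∀ᶠ u in 𝓝 (0 : V), χ u = 1) (α β : ℝ) (k : ℕ) :
    ∃ J, CovL Q (k + 3) (5 - k) J fun τ => ct (W (τ + α) (τ + β)) χ k := by
  obtain ⟨n1, hn⟩ := StrL.pol_diag h
  have hp : ∀ n J F, IsPol n1 fun τ => (StrL.pp Q ∘L dvL (W (τ + α) (τ + β)) n J) F :=
    fun n J F => (IsPol.sum Finset.univ fun m _ => hn α β (m, n) J _).congr fun τ => by
      rw [ContinuousLinearMap.comp_apply, dvL_apply, dv1, map_sum]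
  refine ⟨n1, fun μ f => hp _ _ _, fun τ μ s L y f g hs hL hg => ?_⟩
  simpa only [add_right_comm τ _ (Real.log s)] using
    StrL.ct_cov hT h hχ h1 (τ + α) (τ + β) k μ y f g hs hL hg

variable {w : ℝ → I2 → I2 → S2 →L[ℂ] Completion D} {J : ℕ}

lemma low_ra (h : CovL c.Q (2 + 3) (5 - (2 : ℕ)) J fun τ => ct (w τ) χ 2) :
    Ra (w 0) χ gS ∈ Low c := by
  have a1 := low_ct (j := 1) h (by norm_num) 0 (Equiv.ofBijective ![0, 1, 4, 2, 3] (by decide))
  have a2 := low_ct (j := 1) h (by norm_num) 0 (Equiv.ofBijective ![2, 4, 3, 0, 1] (by decide))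
  refine (congrArg (· ∈ Low c) (funext₂ fun m n => ?_)).mp (sub_mem a1 a2)
  refine congrArg₂ (fun x y : Completion D => x - y) ?_ ?_ <;> refine Finset.sum_congr rfl fun γ _ => Finset.sum_congr rfl
    fun l _ => congrArg (fun μ => (eta l : ℂ) • ct (w 0) χ 2 μ (dI γ gS)) (funext fun i => ?_) <;>
    fin_cases i <;> rfl

lemma low_rb (k : ℕ) (h : CovL c.Q (k + 2 + 3) (5 - (k + 2 : ℕ)) J fun τ => ct (w τ) χ (k + 2)) :
    Rb (w 0) χ k gS ∈ Low c := by
  have d : (5 - (k + 2 : ℕ) : ℝ) ≤ 3 := by push_cast; linarith [(k.cast_nonneg : (0 : ℝ) ≤ k)]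
  have a1 := low_ct (j := k + 1) h d 0 1
  have a2 := low_ct (j := k + 1) h d 0 (Equiv.swap 0 (Fin.succ (Fin.succ (Fin.succ 0))))
  refine (congrArg (· ∈ Low c) (funext₂ fun m n => ?_)).mp (sub_mem a1 a2)
  refine congrArg₂ (· - ·) rfl (Finset.sum_congr rfl fun γ _ => Finset.sum_congr rfl fun l _ =>
    congrArg (fun μ => (eta l : ℂ) • ct (w 0) χ (k + 2) μ (dI γ gS)) (funext fun i => ?_))
  refine Fin.cases ?_ (Fin.cases ?_ (Fin.cases ?_ (Fin.cases ?_ fun i => ?_))) i
  · rw [Function.comp_apply, Equiv.swap_apply_left]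
    rfl
  · rw [Function.comp_apply, Equiv.swap_apply_of_ne_of_ne (Fin.succ_ne_zero _) (by
      simp only [ne_eq, Fin.ext_iff, Fin.val_succ, Fin.val_zero]; omega)]
    rfl
  · rw [Function.comp_apply, Equiv.swap_apply_of_ne_of_ne (Fin.succ_ne_zero _) (by
      simp only [ne_eq, Fin.ext_iff, Fin.val_succ, Fin.val_zero]; omega)]
    rfl
  · rw [Function.comp_apply, Equiv.swap_apply_right]
    rfl
  · rw [Function.comp_apply, Equiv.swap_apply_of_ne_of_ne (Fin.succ_ne_zero _) (by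
      simp only [ne_eq, Fin.ext_iff, Fin.val_succ, Fin.val_zero]; omega)]
    rfl

lemma alg {E : Type*} [AddCommGroup E] [Module ℂ E] {x y t u r r' : E} {g : ℂ}
    (z : (2 * I) • (((4 : ℂ) • x - g • t) - ((4 : ℂ) • y - g • u)) + r +
      ((2 * I) • (((4 : ℂ) • x - g • t) - ((4 : ℂ) • y - g • u)) + r') = 0) :
    (I / 16) • (r + r' - g • (4 * I) • (t - u)) = x - y := by
  have i2 : I * I = -1 := Complex.I_mul_I
  refine sub_eq_zero.1 (Eq.trans ?_ ((congrArg ((I / 16) • ·) z).trans (smul_zero _)))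
  match_scalars <;> first | ring1 | linear_combination i2 | linear_combination -i2

/-- **the members have the same part of spin two** -/
theorem low_T {T : ℝ → Ix → Ix → Fld D} (hT : ∀ τ, Stress0 c.Q (T τ)) (h : TP2 c.Q T true W)
    {α β : ℝ} (ch : CHr c.Q (T α) c.A) (ch' : CHr c.Q (T β) c.A) :
    (fun m n => ((T β m n g0 c.Q.vac : D) : Completion D) - (T α m n g0 c.Q.vac : D)) ∈ Low c := by
  let b : ContDiffBump (0 : V) := ⟨1, 2, one_pos, one_lt_two⟩
  have hχ : Dc (cx b) := dc_cx ⟨b.contDiff, b.hasCompactSupport⟩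
  have h1 : ∀ᶠ u in 𝓝 0, cx b u = 1 := b.eventuallyEq_one.mono fun u hu => by
    rw [cx, hu]
    rfl
  obtain ⟨N, H⟩ := (tp_bi h α β).ddiv (tp_bi h β α) (tp_sw h α β) (hT α) (hT β) c.bR ch ch' hχ h1
  have ra : Ra (W α β) (cx b) gS ∈ Low c := by
    obtain ⟨J, hJ⟩ := ct_cov hT h hχ h1 α β 2
    simpa only [zero_add] using low_ra (c := c) hJ
  have rb : ∀ k, Rb (W β α) (cx b) k gS ∈ Low c := fun k => by
    obtain ⟨J, hJ⟩ := ct_cov hT h hχ h1 β α (k + 2)
    simpa only [zero_add] using low_rb (c := c) k hJ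
  have r := add_mem ra (Submodule.sum_mem _ fun k (_ : k ∈ Finset.range N) =>
    (Low c).smul_mem (2 * ((k + 1).factorial : ℂ)⁻¹) (rb k))
  refine (congrArg (· ∈ Low c) (funext₂ fun m n => ?_)).mp ((Low c).smul_mem (I / 16)
    (sub_mem (add_mem r (low_swap r)) (low_gm ((4 * I) •
      (((tr (T β) g0 c.Q.vac : D) : Completion D) - ((tr (T α) g0 c.Q.vac : D) : Completion D))))))
  have z := H gS g0_in.2.1 m n
  have g : gm (n, m) = gm (m, n) := by
    simp only [gm, bas]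
    by_cases e : m = n <;> simp [e, eq_comm]
  simp only [Part.Xd, tl4, show ev gS = g0 from rfl, g, (hT _).symm n m _ _ g0_in.1, Completion.coe_sub,
    Completion.coe_smul, add_assoc (_ • _)] at z
  simp only [Pi.smul_apply, Pi.sub_apply, Pi.add_apply, Finset.sum_apply]
  exact alg ((add_assoc _ _ _).trans z)

end

end Vale.Agent.P352L.Two.Pv
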