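import Vale.Agent.P352L.PartA
import Vale.Agent.P352L.PartD
import Vale.Agent.P352L.Den
import Vale.Agent.P352L.Hyp
import Vale.Agent.P352X.R.JC.A2

/-!
# P352L, block PART: multiplets of low dimension have no part of spin two (helper97)
-/

set_option linter.all false

open MeasureTheory Measure Set Filter Topology
open scoped SchwartzMap ComplexConjugate NNReal ENNReal LineDeriv

namespace Vale.Agent.P352L.Two.Pv

open Vale.Agent.P352.GF Vale.Agent.P352.BW Vale.Agent.P352.H496 Vale.Agent.P352.H755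
open Vale.Agent.P352.H246 (In linv isLor_linv)
open Vale.Agent.P352X Vale.Agent.P352X.Two Vale.Agent.P352L.Part
open UniformSpace (Completion)
open Complex (I)
open Matrix (vecCons)

noncomputable section

variable {D : Type*} [NormedAddCommGroup D] [InnerProductSpace ℂ D] {c : Bs D} {k j J : ℕ} {d : ℝ}

lemma Phi_P {F : V → ℂ} (hF : Cp Fc F) (z : Completion D) :
    c.bt.Phi F (c.bt.P Fc z) = c.bt.Phi F z := by
  rw [SN.Calc.P, c.bt.comm hF.1 (.ind meas_Fc), ← SN.Calc.P, c.bt.P_Phi meas_Fc hF.1]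
  obtain ⟨-, B, -, h2, h3⟩ := hF
  congr 2
  funext p
  by_cases hp : p ∈ Fc
  · rw [indicator_of_mem hp]
  · rw [indicator_of_notMem hp, h3 p fun a => hp (h2 a)]

lemma P_zero {z : Completion D} (h : ∀ F, Cp Fc F → c.bt.Phi F z = 0) : c.bt.P Fc z = 0 :=
  exh c.bt.toCalc (by rw [SN.Calc.nu_P meas_Fc]; exact ae_restrict_mem meas_Fc)
    fun F hF => (Phi_P hF z).trans (h F hF)

lemma Fc_be : Fc ⊆ {p | 0 < be p} := fun p hp => ((mem_Fc p).1 hp).1

/-- permutations of the slots -/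
theorem mul_perm {O : ℝ → (Fin k → Ix) → Sch →L[ℂ] Completion D} (h : Mul c d J O)
    (e : Equiv.Perm (Fin k)) : Mul c d J fun τ μ => O τ (μ ∘ e) := by
  refine ⟨fun μ => h.pol _, fun τ μ s L a f g hs hL hg => ?_⟩
  rw [h.cov τ _ s L a f g hs hL hg, ← (e.symm.arrowCongr (Equiv.refl Ix)).sum_comp]
  refine Finset.sum_congr rfl fun ν _ => ?_
  rw [← Equiv.prod_comp e fun i => L (ν i) (μ i)]
  rfl

/-- contractions -/
theorem mul_ctr {O : ℝ → (Fin (k + 2) → Ix) → Sch →L[ℂ] Completion D} (h : Mul c d J O) :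
    Mul c d J fun τ μ => ∑ n, (eta n : ℂ) • O τ (vecCons n (vecCons n μ)) := by
  refine ⟨fun μ f => ?_, fun τ μ s L a f g hs hL hg => ?_⟩
  · simp only [ContinuousLinearMap.sum_apply, ContinuousLinearMap.smul_apply]
    exact IsPol.sum _ fun n _ => (h.pol _ f).smul _
  simp only [ContinuousLinearMap.sum_apply, ContinuousLinearMap.smul_apply,
    h.cov τ _ s L a f g hs hL hg, _root_.map_sum, map_smul, Finset.smul_sum, smul_smul, sum_i3]
  rw [Finset.sum_comm, Finset.sum_comm (s := Finset.univ (α := Fin k → Ix))]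
  refine Finset.sum_congr rfl fun x _ => ?_
  rw [Finset.sum_comm, Finset.sum_eq_single x (fun y _ hy => ?_) (by simp)]
  · rw [Finset.sum_comm]
    refine Finset.sum_congr rfl fun ν _ => ?_
    rw [← Finset.sum_smul]
    congr 1
    have := hL.1 x x
    simp only [mdot, bas, if_true] at this
    simp only [i3, Fin.prod_univ_succ, Matrix.cons_val_zero, Matrix.cons_val_succ]
    norm_cast
    rw [← this, Finset.mul_sum]
    exact Finset.sum_congr rfl fun n _ => by ring
  · rw [Finset.sum_comm]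
    refine Finset.sum_eq_zero fun ν _ => ?_
    rw [← Finset.sum_smul]
    convert zero_smul ℂ _
    have := hL.1 x y
    simp only [mdot, bas, if_neg hy] at this
    simp only [i3, Fin.prod_univ_succ, Matrix.cons_val_zero, Matrix.cons_val_succ]
    norm_cast
    refine Eq.trans ?_ (mul_eq_zero_of_right (s ^ (4 - d) * ∏ i, L (ν i) (μ i)) this)
    rw [Finset.mul_sum]
    exact Finset.sum_congr rfl fun n _ => by ring

variable {Y : ℝ → (Fin (j + 2) → Ix) → Sch →L[ℂ] Completion D}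

lemma cf_va {A : Fin 4} (h : A ≠ 0) (p : V) : cf va A p = 0 := by
  fin_cases A <;> simp_all [cf, P352X.Two.du, md_va, md_neg, md_add, md_smul]

lemma hi0 (h : Mul c d J Y) (hd : d ≤ 3) (τ : ℝ) {l : V} (hl : mdot va l = 0) :
    c.bt.P Fc (fm (fun μ => Y τ μ gS) (s3 j va va l)) = 0 := by
  obtain ⟨K, hK⟩ := ex_ad (j + 2)
  refine P_zero fun F hF => ?_
  have hG : Cp Fc fun p => F p * (K p)⁻¹ := hF.mul (minv hK.wt.bd.1)
    ((hK.wt.cont.mono (subset_univ _)).inv₀ fun p _ => hK.wt.ne p)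
  have e := expand (c := c) (w := fun μ => Y τ μ gS) hK hG Fc_be (s3 j va va l)
  simp only [inv_mul_cancel_right₀ (hK.wt.ne _)] at e
  refine e.trans (Finset.sum_eq_zero fun A _ => ?_)
  by_cases hA : ∃ i, ∀ p, cf (s3 j va va l i) (A i) p = 0
  · obtain ⟨i, hi⟩ := hA
    have : ∀ p, cfs (s3 j va va l) A p = 0 := fun p => by
      rw [cfs, Finset.prod_eq_zero (Finset.mem_univ i) (hi p), Complex.ofReal_zero]
    simp [this, c.bt.zero]
  · rw [← Phi_P (hG.cfs Fc_be _ A), (h.ml.vl wt_g0.bd hK A).low hK.wt1 ?_ τ, map_zero]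
    have a0 : A 0 = 0 := by_contra fun a => hA ⟨0, cf_va a⟩
    have a1 : A 1 = 0 := by_contra fun a => hA ⟨1, cf_va a⟩
    have a2 : ∀ i : Fin j, yw (A i.succ.succ) ≤ 0 := fun i => by
      have : A i.succ.succ ≠ 3 := fun a => hA ⟨i.succ.succ, fun p => by
        rw [a]
        simp [s3, cf, P352X.Two.du, md_smul, md_comm l va, hl]⟩
      generalize A i.succ.succ = B at this
      fin_cases B <;> simp_all [yw] <;> norm_num
    have := Finset.sum_nonpos fun i (_ : i ∈ Finset.univ) => a2 i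
    rw [Fin.sum_univ_succ, Fin.sum_univ_succ, a0, show A (Fin.succ 0) = 0 from a1]
    simp only [yw, Matrix.cons_val_zero] at this ⊢
    linarith

lemma hi1 (h : Mul c d J Y) (hd : d ≤ 3) (τ : ℝ) {l : V} (hl : mdot va l = 0) (f : Sch) :
    c.bt.P Fc (fm (fun μ => Y τ μ f) (s3 j va va l)) = 0 := by
  refine Phi_inj (c := c) wt_g0.bd g0_ne ?_
  have := congrArg (c.bt.Phi (ft (ev f))) (hi0 h hd τ hl)
  rw [SN.Calc.P, c.bt.comm (bd_ft ⟨f, rfl⟩) (.ind meas_Fc)] at this
  rw [SN.Calc.P, c.bt.comm wt_g0.bd (.ind meas_Fc)]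
  simpa only [fm, _root_.map_sum, map_smul, h.rel τ _ f, map_zero] using this

/-- **multiplets of dimension at most three** -/
theorem hi_of (h : Mul c d J Y) (hd : d ≤ 3) (τ : ℝ) : Hi fun μ => c.bt.P Fc (Y τ μ gS) := by
  intro n l hn hl
  obtain ⟨b, hb, -, h1⟩ := JCa.ex_null hn
  obtain ⟨L, s, t, hL, hs, -, e, -⟩ := JCa.rl hn hb h1
  have e1 : sim 1 L 0 (sim 1 (linv L) 0 l) = l := sim_linv hL l
  have h2 : mdot va (sim 1 (linv L) 0 l) = 0 := by
    rw [← md_LL hL, e, e1, md_smul_l, hl, mul_zero]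
  have z := congrArg (Ug c.Q 1 L 0) (hi1 h hd τ h2 (Grp.simS one_pos hL 0 gS))
  rw [SN.Calc.P, Phi_W (Kin.du_meas 1 L) (ug_ut one_pos hL) (Kin.du_pair 1 hL) (.ind meas_Fc),
    ind_comp (du_Fc one_pos hL), ← SN.Calc.P, map_zero] at z
  have cv := fun μ => h.cov τ μ 1 L 0 gS _ one_pos hL (Grp.simS_apply one_pos hL 0 gS)
  have e2 : s3 j n n l = fun i => s3 j s⁻¹ s⁻¹ 1 i •
      sim 1 L 0 (s3 j va va (sim 1 (linv L) 0 l) i) := funext fun i =>
    Fin.cases (by simp [s3, e, hs.ne']) (Fin.cases (by simp [s3, e, hs.ne']) fun _ => by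
      simp [s3, e1]) i
  simp only [Real.log_one, add_zero, Real.one_rpow, one_mul] at cv
  simp only [fm, _root_.map_sum, map_smul] at z
  rw [fm, e2]
  simp only [cv, _root_.map_sum, map_smul, Finset.smul_sum, smul_smul]
  replace z := congrArg ((((∏ i, s3 j s⁻¹ s⁻¹ 1 i : ℝ) : ℂ)) • ·) z
  simp only [smul_zero, Finset.smul_sum] at z
  rw [Finset.sum_comm, ← z]
  refine Finset.sum_congr rfl fun ν _ => ?_
  rw [← Finset.sum_smul, smul_smul, ← Complex.ofReal_mul, ← sy_cov hL, Complex.ofReal_sum]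
  exact congrArg (· • _) (Finset.sum_congr rfl fun μ _ => by push_cast; ring)

lemma cp_G2 {F : V → ℂ} (hF : Cp Fc F) (h k : V) (a b : Ix) :
    Cp Fc fun p => F p * G2 h k p a b :=
  have := Complex.continuous_ofReal.comp (cont_G2 h k a b)
  hF.mul this.measurable this.continuousOn

/-- tensors without a part of spin two -/
def Low (c : Bs D) : Submodule ℂ (Ix → Ix → Completion D) where
  carrier := {X | ∀ h k F, Cp Fc F → ∑ a, ∑ b, c.bt.Phi (fun p => F p * G2 h k p a b) (X a b) = 0}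
  add_mem' h1 h2 h k F hF := by
    simp only [Pi.add_apply, map_add, Finset.sum_add_distrib, h1 h k F hF, h2 h k F hF, add_zero]
  zero_mem' h k F _ := by simp
  smul_mem' z _ h1 h k F hF := by
    simp only [Pi.smul_apply, map_smul, ← Finset.smul_sum, h1 h k F hF, smul_zero]

lemma G2_symm (h k p : V) (a b : Ix) : G2 h k p a b = G2 h k p b a := by
  have : bas a (eta a) b = bas b (eta b) a := by
    simp only [bas]
    by_cases e : a = b <;> simp [e, eq_comm]
  rw [Part.G2, Part.G2, this]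
  ring

lemma low_swap {X : Ix → Ix → Completion D} (h : X ∈ Low c) : (fun a b => X b a) ∈ Low c :=
  fun x y F hF => by
    rw [Finset.sum_comm]
    refine Eq.trans (Finset.sum_congr rfl fun a _ => Finset.sum_congr rfl fun b _ => ?_)
      (h x y F hF)
    simp only [G2_symm x y _ a b]

lemma low_gm (z : Completion D) : (fun a b => (gm (a, b) : ℂ) • z) ∈ Low c := fun x y F hF => by
  have : ∀ a, ∑ b, c.bt.Phi (fun p => F p * G2 x y p a b) ((gm (a, b) : ℂ) • z) =
      (eta a : ℂ) • c.bt.Phi (fun p => F p * G2 x y p a a) z := fun a => by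
    rw [Finset.sum_eq_single a (fun b _ hb => by simp [gm, bas, hb]) (by simp)]
    simp [gm, bas]
  simp only [this]
  rw [Phi_sum _ fun a => (cp_G2 hF x y a a).1, show (fun p => ∑ a, (eta a : ℂ) *
    (F p * G2 x y p a a)) = fun _ => 0 from funext fun p => ?_, c.bt.zero]
  · rfl
  · rw [← mul_zero (F p), ← Complex.ofReal_zero, ← G2_tr x y p, Complex.ofReal_sum, Finset.mul_sum]
    exact Finset.sum_congr rfl fun a _ => by push_cast; ring

lemma low_om (u : Ix → Ix → ℂ) : (fun a b => u a b • om c.Q) ∈ Low c := fun x y F hF => by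
  obtain ⟨-, B, -, h2, h3⟩ := id hF
  have : F 0 = 0 := h3 0 fun a => by simpa using Fc_be (h2 a)
  simp [Kin.Phi_om c.bR c.ct (cp_G2 hF x y _ _).1, this,
    show c.bt.Phi = c.ct.Phi from rfl]

lemma ft_dI {k : ℕ} (γ : Fin k → Ix) (f : Sch) (p : V) :
    ft (ev (dI γ f)) p = (-I) ^ k * lp p γ * ft (ev f) p := by
  induction k with
  | zero => simp [dI, Part.lp]
  | succ k ih =>
    rw [dI, LineDeriv.iteratedLineDerivOp_succ_left, ← Grp.pd_ev, ft_pd ⟨_, rfl⟩]
    refine (congrArg _ (ih (Fin.tail γ))).trans ?_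
    simp only [Part.lp, lo, Fin.prod_univ_succ, Fin.tail]
    push_cast
    ring

theorem low_mul (h : Mul c d J Y) (hd : d ≤ 3) (τ : ℝ) :
    (fun a b => ∑ γ, Y τ (i3 a b γ) (dI γ gS)) ∈ Low c := fun x y F hF => by
  have cl := fun γ : Fin j → Ix => Complex.continuous_ofReal.comp (cont_lp γ)
  have b := wt_g0.bd
  have cg : ∀ i : Ix × Ix × (Fin j → Ix), Cp Fc fun p =>
      F p * G2 x y p i.1 i.2.1 * ft (ev (dI i.2.2 gS)) p := fun i =>
    (cp_G2 hF x y _ _).mul (bd_ft ⟨_, rfl⟩).1 (P352X.cont_ft ⟨_, rfl⟩).continuousOn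
  have z := phi0 c.bt.toCalc (fun i : Ix × Ix × (Fin j → Ix) =>
    c.bt.P Fc (Y τ (i3 i.1 i.2.1 i.2.2) gS)) (fun i => (cg i).1) fun p => by
      by_cases hp : p ∈ Fc
      · have := congrArg ((F p * (-I) ^ j * ft g0 p) • ·) ((hi_of h hd τ).spin x y hp)
        simp only [Finset.smul_sum, smul_smul, smul_zero] at this
        rw [← this]
        simp only [Fintype.sum_prod_type, ft_dI]
        refine Finset.sum_congr rfl fun a _ => Finset.sum_congr rfl fun b _ =>
          Finset.sum_congr rfl fun γ _ => congrArg (· • _) ?_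
        push_cast
        show _ * (_ * ft g0 p) = _
        ring
      · obtain ⟨-, B, -, h2, h3⟩ := hF
        simp [h3 p fun a => hp (h2 a)]
  refine Phi_inj (c := c) b g0_ne ?_
  simp only [Phi_P (cg _), Fintype.sum_prod_type] at z
  simp only [_root_.map_sum, map_zero, c.bt.comm b (cp_G2 hF x y _ _).1, h.rel τ _ (dI _ gS),
    ← c.bt.mul_apply (cp_G2 hF x y _ _).1 (bd_ft ⟨_, rfl⟩)]
  exact z

theorem low_ct {O : ℝ → (Fin (j + 2 + 2) → Ix) → Sch →L[ℂ] Completion D}
    (h : CovL c.Q (j + 2 + 2) d J O) (hd : d ≤ 3) (τ : ℝ) (e : Equiv.Perm (Fin (j + 2 + 2))) :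
    (fun a b => ∑ γ, ∑ n, (eta n : ℂ) • O τ (vecCons n (vecCons n (i3 a b γ)) ∘ e) (dI γ gS)) ∈
      Low c := by
  convert add_mem (low_mul (mul_ctr (mul_perm h.red e)) hd τ) (low_om (c := c) fun a b => ∑ γ, ∑ n,
    (eta n : ℂ) * inner ℂ (om c.Q) (O τ (vecCons n (vecCons n (i3 a b γ)) ∘ e) (dI γ gS))) using 1
  funext a b
  simp only [Pi.add_apply, ContinuousLinearMap.sum_apply, ContinuousLinearMap.smul_apply, pO_apply,
    smul_sub, Finset.sum_sub_distrib, Finset.sum_smul, mul_smul, sub_add_cancel]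

end

end Vale.Agent.P352L.Two.Pv
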