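import Vale.Agent.P352X.R.STRUCT
import Vale.Agent.P352X.R.CH
import Vale.Agent.P352X.FSS.Defs
import Vale.Agent.P352.H746.Flow3

/-!
# P352L, block PART: the Ward identity for the contact terms (helper97)
-/

set_option linter.all false

noncomputable section

open MeasureTheory Filter Topology Set
open scoped SchwartzMap ComplexConjugate ContDiff LineDeriv

namespace Vale.Agent.P352L.Part

open Vale.Agent.P352 Vale.Agent.P352X
open GF (Ix V Fn Sch ev pd bar sim bas o eta mdot Fld Theory IsTest IsLor)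
open UniformSpace (Completion)

variable {D : Type*} [NormedAddCommGroup D] [InnerProductSpace ℂ D]
variable {Q : GF.Theory D} {T T' : Ix → Ix → GF.Fld D} {A : (V → V) → D → D}

section gen

open H246 H496 H755 H15 H746 Complex

theorem A_T (h : H15.Rep Q A) (hT : Stress0 Q T) {X : V → V} {c : V} {w : Ix → V}
    (hw : ∀ m n, GF.eta n * w m n = -(GF.eta m * w n m))
    (hX : ∀ z n, X z n = c n + 0 * z n + ∑ m, z m * w m n) {f : Fn} (hf : GF.IsTest f) (m n : Ix)
    (v : D) : A X (T m n f v) = T m n f (A X v) + Complex.I • (∑ k, (w k m : ℂ) • T k n f v +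
      ∑ l, (w l n : ℂ) • T m l f v + T m n (vf X f) v) := by
  obtain ⟨L, L0, hL, dL⟩ := exists_lor hw
  have K : Crv (fun _ => 1) L (fun e => e • c) w 0 c := ⟨rfl, L0, by simp, fun _ => one_pos, hL,
    hasDerivAt_const _ _, dL, fun n => by simpa using (hasDerivAt_id (0 : ℝ)).mul_const (c n)⟩
  obtain ⟨F, rfl⟩ := exists_fl hf
  have hfld : ∀ k : Ix × Ix, Q.fld (T k.1 k.2) := fun k => Q.bose_fld _ (hT.bose k.1 k.2)
  have h1 := comm_gen h K hX hfld (hfld (m, n)) (C := fun e k => L e k.1 m * L e k.2 n)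
    (C' := fun k => w k.1 m * GF.one k.2 n + GF.one k.1 m * w k.2 n) (fun k => by
      have h2 := (K.dL k.1 m).mul (K.dL k.2 n)
      rw [K.L0] at h2
      exact h2) F v (fun e => by
      show T m n _ (Q.U 1 _ _ _) = _
      rw [hT.cov m n _ _ _ v (K.lor e) (isTest_fl F), Fintype.sum_prod_type]
      refine Finset.sum_congr rfl fun k _ => Finset.sum_congr rfl fun l _ => ?_
      rw [fl_sim 1 one_pos (K.lor e)]
      push_cast
      rfl)
  rw [← fl_vfS hX]
  simp only [K.L0, Fintype.sum_prod_type] at h1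
  have s2 : ∀ u : Ix → Ix → D, ∑ k, ∑ l, ((GF.one k m * GF.one l n : ℝ) : ℂ) • u k l = u m n := by
    intro u
    have : ∀ k l, ((GF.one k m * GF.one l n : ℝ) : ℂ) • u k l =
        (GF.one k m : ℂ) • ((GF.one l n : ℂ) • u k l) := by
      intro k l
      rw [smul_smul]
      push_cast
      rfl
    simp only [this, ← Finset.smul_sum]
    rw [sum_one' (fun k => ∑ l, (GF.one l n : ℂ) • u k l), sum_one' (fun l => u m l)]
  rw [s2 (fun k l => T k l (fl F) v), fld_smul (hfld (m, n)) (isTest_fl F)] at h1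
  have e1 : ∑ k, ∑ l, (((w k m * GF.one l n + GF.one k m * w l n : ℝ) : ℂ) • T k l (fl F) v +
      ((GF.one k m * GF.one l n : ℝ) : ℂ) • T k l (fl (vfS w 0 c F)) v) =
      ∑ k, (w k m : ℂ) • T k n (fl F) v + ∑ l, (w l n : ℂ) • T m l (fl F) v +
      T m n (fl (vfS w 0 c F)) v := by
    simp only [Finset.sum_add_distrib]
    rw [s2 (fun k l => T k l (fl (vfS w 0 c F)) v)]
    congr 1
    have : ∀ k l, (((w k m * GF.one l n + GF.one k m * w l n : ℝ)) : ℂ) • T k l (fl F) v =
        (GF.one l n : ℂ) • ((w k m : ℂ) • T k l (fl F) v) +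
        (GF.one k m : ℂ) • ((w l n : ℂ) • T k l (fl F) v) := by
      intro k l
      rw [smul_smul, smul_smul, ← add_smul]
      congr 1
      push_cast
      ring
    simp only [this, Finset.sum_add_distrib]
    congr 1
    · refine Finset.sum_congr rfl fun k _ => ?_
      rw [sum_one' (fun l => (w k m : ℂ) • T k l (fl F) v)]
    · simp only [← Finset.smul_sum]
      rw [sum_one' (fun k => ∑ l, (w l n : ℂ) • T k l (fl F) v)]
  rw [e1] at h1
  have h2 := congrArg (fun u => (-I) • u) h1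
  simp only [smul_add, smul_smul] at h2
  have e2 : -I * I = 1 := by rw [neg_mul, I_mul_I, neg_neg]
  simp only [e2, one_smul] at h2
  rw [h2]
  simp only [smul_add, smul_smul, neg_mul, neg_smul, add_assoc]
  abel

end gen

open H755 H15 Ap Chx Str Api4
open Complex (I)

lemma fld0 (hT : Stress0 Q T) (m n : Ix) : Q.fld (T m n) := Q.bose_fld _ (hT.bose m n)

variable {X : V → V}

lemma TT_add (hT : Stress0 Q T) (hX : IsSim 0 X) {u u' : Ix → V → ℝ} (hu : ∀ m, Tst (u m))
    (hu' : ∀ m, Tst (u' m)) (v : D) :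
    TT T (uX (fun m x => u m x + u' m x) X) v = TT T (uX u X) v + TT T (uX u' X) v := by
  simp only [TT, ← Finset.sum_add_distrib]
  refine Finset.sum_congr rfl fun m _ => Finset.sum_congr rfl fun n _ => ?_
  have h := Q.lin (T m n) _ _ 1 v (fld0 hT m n) (test_uX hX hu m n) (test_uX hX hu' m n)
  rw [one_smul] at h
  rw [← h]
  congr 1
  funext x
  simp only [uX]
  push_cast
  ring

lemma anti_sym {M : Type*} [AddCommGroup M] [Module ℂ M] {w : Ix → V}
    (hw : ∀ m n, eta n * w m n = -(eta m * w n m)) {v : Ix → Ix → M} (hv : ∀ m n, v m n = v n m) :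
    ∑ m, ∑ n, ((eta n * w m n : ℝ) : ℂ) • v m n = 0 := by
  have : ∑ m, ∑ n, ((eta n * w m n : ℝ) : ℂ) • v m n =
      -∑ m, ∑ n, ((eta n * w m n : ℝ) : ℂ) • v m n := by
    conv_rhs => rw [Finset.sum_comm]
    simp only [← Finset.sum_neg_distrib, ← neg_smul]
    refine Finset.sum_congr rfl fun m _ => Finset.sum_congr rfl fun n _ => ?_
    rw [hw m n, hv n m, Complex.ofReal_neg]
  rw [eq_neg_iff_add_eq_zero, ← two_smul ℂ] at this
  exact (smul_eq_zero.1 this).resolve_left two_ne_zero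

lemma pd_kil {c : V} {w : Ix → V} (hX : IsSim 0 X)
    (h : ∀ z n, X z n = c n + 0 * z n + ∑ m, z m * w m n) {ψ : V → ℝ} (hψ : Tst ψ) (m n : Ix) :
    (pd m fun x => ((ψ x * (eta n * X x n) : ℝ) : ℂ)) = fun x =>
      uX (fun m => dr m ψ) X m n x + ((eta n * w m n : ℝ) : ℂ) * (ψ x : ℂ) := by
  have dX : ∀ x, dr m (fun x => eta n * X x n) x = eta n * w m n := fun x => by
    have : HasDerivAt (fun t => eta n * X (x + bas m t) n) (eta n * w m n) 0 := by
      have e : (fun t => eta n * X (x + bas m t) n) =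
          fun t => eta n * X x n + t * (eta n * w m n) := by
        funext t
        simp [h, bas, add_mul, Finset.sum_add_distrib]
        ring
      rw [e]
      simpa using ((hasDerivAt_id (0 : ℝ)).mul_const (eta n * w m n)).const_add (eta n * X x n)
    exact this.deriv
  funext x
  rw [pd_cx ((tst_uX hX hψ n).1.differentiable (by simp) x), dr_mul (hψ.1.differentiable (by simp))
    ((contDiff_const.mul (sim_smooth hX n)).differentiable (by simp)), dX]
  simp only [uX]
  push_cast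
  ring

lemma TT_kil (hT : Stress0 Q T) (hX : IsSim 0 X) {ψ : V → ℝ} (hψ : Tst ψ) (v : D) :
    TT T (uX (fun m => dr m ψ) X) v = 0 := by
  have tu := test_uX hX (Chx.tst_dr hψ)
  have tg := fun n => tst_uX hX hψ n
  obtain ⟨c, w, hw, h⟩ := id hX
  have e : ∀ m n, T m n (pd m fun x => ((ψ x * (eta n * X x n) : ℝ) : ℂ)) v =
      T m n (uX (fun m => dr m ψ) X m n) v +
        ((eta n * w m n : ℝ) : ℂ) • T m n (fun x => (ψ x : ℂ)) v := fun m n => by
    rw [← Q.lin (T m n) _ _ _ v (fld0 hT m n) (tu m n) (tst_sw hψ), pd_kil hX h hψ]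
  have z := anti_sym hw (v := fun m n => T m n (fun x => (ψ x : ℂ)) v)
    fun m n => hT.symm m n _ v (tst_sw hψ)
  have c0 : ∑ m, ∑ n, T m n (pd m fun x => ((ψ x * (eta n * X x n) : ℝ) : ℂ)) v = 0 := by
    rw [Finset.sum_comm]
    exact Finset.sum_eq_zero fun n _ => hT.conserved n _ v (tst_sw (tg n))
  simp only [e, Finset.sum_add_distrib, z, add_zero] at c0
  exact c0

/-- charges on general surfaces -/
def CHr (Q : Theory D) (T : Ix → Ix → Fld D) (A : (V → V) → D → D) : Prop :=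
  ∀ (K : Set V) χ Ξ X (B : Fld D) f v w, IsCompact K → Chg K χ Ξ → IsSim 0 X →
  Q.fld B → IsTest f → tsupport f ⊆ K →
  inner ℂ w (TT T (dens χ Ξ X) (B f v) - B f (TT T (dens χ Ξ X) v)) =
    inner ℂ w (A X (B f v) - B f (A X v))

/-- time ordered products with different legs -/
structure Bi (Q : Theory D) (T T' : Ix → Ix → Fld D) (w : I2 → I2 → S2 →L[ℂ] Completion D) :
    Prop where
  fac1 : ∀ I J (f g : Sch) (F : S2), (∀ x y, F (x, y) = f x * g y) →
    Late (tsupport f) (tsupport g) →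
    w I J F = ((T I.1 I.2 (ev f) (T' J.1 J.2 (ev g) Q.vac) : D) : Completion D)
  fac2 : ∀ I J (f g : Sch) (F : S2), (∀ x y, F (x, y) = f x * g y) →
    Late (tsupport g) (tsupport f) →
    w I J F = ((T' J.1 J.2 (ev g) (T I.1 I.2 (ev f) Q.vac) : D) : Completion D)
  ind1 : ∀ I J, w I J = w I.swap J
  ind2 : ∀ I J, w I J = w I J.swap

variable {w : I2 → I2 → S2 →L[ℂ] Completion D}

lemma fld_zero {B : Fld D} (hB : Q.fld B) {f : Fn} (hf : IsTest f) : B f 0 = 0 := by
  simpa using fld_lin hB hf ∅ (fun _ : Ix => 0)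

/-- the divergence vanishes off the diagonal -/
theorem Bi.off (h : Bi Q T T' w) (hT : Stress0 Q T) (hT' : Stress0 Q T') (n : Ix) (J : I2) :
    Off (dvL w n J) := by
  refine fun G hG => ST.ker2_local _ G fun q hq => ?_
  obtain ⟨δ, d0, d⟩ := late_near (x := q.1) (y := q.2) fun a => hG q.1 (by
    rwa [show (q.1, q.1) = q from Prod.ext rfl a])
  refine ⟨δ, d0, fun f g _ _ s1 s2 => ?_⟩
  have s3 := fun m : Ix => (SchwartzMap.tsupport_lineDerivOp_subset (bas m 1 : V) f).trans s1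
  have c1 : ∀ v : D, ∑ m, T m n (ev (∂_{(bas m 1 : V)} f)) v = 0 := fun v => by
    simpa only [Grp.pd_ev] using hT.conserved n (ev f) v ⟨f, rfl⟩
  rw [dvL_apply, dv1]
  rcases d with d | d
  · rw [Finset.sum_congr rfl fun m _ => h.fac1 (m, n) J _ g _ (d_tens m f g)
      fun a ha b hb => d a (s3 m ha) b (s2 hb), ← coe_sum, c1, Completion.coe_zero]
  · rw [Finset.sum_congr rfl fun m _ => h.fac2 (m, n) J _ g _ (d_tens m f g)
      fun a ha b hb => d a (s2 ha) b (s3 m hb), ← coe_sum, ← fld_lin (fld0 hT' _ _) ⟨g, rfl⟩, c1,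
      fld_zero (fld0 hT' _ _) ⟨g, rfl⟩, Completion.coe_zero]

/-- surfaces that separate the future from the past of a compact set -/
lemma ex_chg {K : Set V} (hK : IsCompact K) : ∃ κ Ξ : V → ℝ, Chg K κ Ξ ∧
    (∀ x ∈ K, ∀ᶠ y in 𝓝 x, κ y = 1) ∧ (∀ m, Late (tsupport fun x => Ξ x * dr m κ x) K) ∧
    ∀ m, Late K (tsupport fun x => (1 - Ξ x) * dr m κ x) := by
  obtain ⟨C, hC⟩ := hK.isBounded.subset_closedBall 0
  have b : ∀ x ∈ K, |x o| ≤ |C| := fun x hx =>
    ((norm_le_pi_norm x o).trans (mem_closedBall_zero_iff.1 (hC hx))).trans (le_abs_self C)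
  obtain ⟨s, ss, s0, s1, -, -⟩ := ex_step (a := -1) (b := 1) (by norm_num)
  obtain ⟨ρ, hρ⟩ := jc_bd hK (|C| + 2)
  obtain ⟨κ, hκ, -, κ1, -⟩ := ex_chi (isCompact_closedBall (0 : V) ρ) isOpen_univ (subset_univ _)
  have ct : ∀ z : V, Tendsto (fun x : V => x o) (𝓝 z) (𝓝 (z o)) := fun z =>
    (continuous_apply o).tendsto z
  have l0 : ∀ z : V, z o < -1 → ∀ᶠ x in 𝓝 z, s (x o) = 0 := fun z h =>
    ((ct z).eventually (eventually_lt_nhds h)).mono fun u hu => s0 _ hu.le
  have l1 : ∀ z : V, 1 < z o → ∀ᶠ x in 𝓝 z, s (x o) = 1 := fun z h =>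
    ((ct z).eventually (eventually_gt_nhds h)).mono fun u hu => s1 _ hu.le
  have k1 : ∀ z ∈ Jc K, |z o| ≤ |C| + 2 → ∀ᶠ x in 𝓝 z, κ x = 1 := fun z hz h =>
    κ1 z (mem_closedBall_zero_iff.2 (hρ z hz h))
  have k0 : ∀ m, ∀ z ∈ Jc K, |z o| ≤ |C| + 2 → ∀ᶠ x in 𝓝 z, dr m κ x = 0 := fun m z hz h =>
    (dr_congr (k1 z hz h) m).mono fun x hx => by rw [hx, dr_const]
  have a0 := abs_nonneg C
  refine ⟨κ, fun x => s (x o), ⟨hκ, ss.comp (contDiff_apply ℝ ℝ o), ⟨2, fun z _ =>
    ⟨fun h => l1 z (by linarith), fun h => l0 z (by linarith)⟩⟩, fun z hz => ?_⟩,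
    fun x hx => k1 x ⟨x, hx, by simp⟩ (by linarith [b x hx]), fun m x hx y hy h => ?_,
    fun m y hy x hx h => ?_⟩
  · rcases le_or_gt (|z o|) (|C| + 2) with h | h
    · exact .inl (k1 z hz h)
    · rcases lt_abs.1 h with h | h
      · exact .inr ((l1 z (by linarith)).mono fun x hx => hx.trans (s1 _ (by linarith)).symm)
      · exact .inr ((l0 z (by linarith)).mono fun x hx => hx.trans (s0 _ (by linarith)).symm)
  · refine notMem_tsupport_iff_eventuallyEq.2 ?_ hx
    have hz : x ∈ Jc K := ⟨y, hy, by rw [← neg_sub y x, md_neg, md_neg_l, neg_neg]; exact h.2⟩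
    have h1 : x o ≤ y o := sub_nonneg.1 h.1
    rcases le_or_gt (|x o|) (|C| + 2) with k | k
    · exact (k0 m x hz k).mono fun u hu => by simp [hu]
    · have := abs_le.1 (b y hy)
      rcases lt_abs.1 k with k | k
      · linarith
      · exact (l0 x (by linarith)).mono fun u hu => by simp [hu]
  · refine notMem_tsupport_iff_eventuallyEq.2 ?_ hx
    have hz : x ∈ Jc K := ⟨y, hy, h.2⟩
    have h1 : y o ≤ x o := sub_nonneg.1 h.1
    rcases le_or_gt (|x o|) (|C| + 2) with k | k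
    · exact (k0 m x hz k).mono fun u hu => by simp [hu]
    · have := abs_le.1 (b y hy)
      rcases lt_abs.1 k with k | k
      · exact (l1 x (by linarith)).mono fun u hu => by simp [hu]
      · linarith

lemma tsupp_uX (u : Ix → V → ℝ) (X : V → V) (m n : Ix) : tsupport (uX u X m n) ⊆ tsupport (u m) :=
  tsupp_of_zero fun x hx => by simp [uX, hx]

/-- the Ward identity for products of test functions -/
theorem Bi.ward0 (h : Bi Q T T' w) (hT : Stress0 Q T) (hT' : Stress0 Q T') (R : Rep Q A)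
    (ch : CHr Q T A) {K : Set V} (hK : IsCompact K) : ∃ κ : V → ℝ, Tst κ ∧
      (∀ x ∈ K, ∀ᶠ y in 𝓝 x, κ y = 1) ∧ ∀ X, IsSim 0 X → ∀ (J : I2) (g : Sch), tsupport g ⊆ K →
        ∑ n, dvL w n J (ST.tens (sch fun x => ((κ x * (eta n * X x n) : ℝ) : ℂ)) g) =
          -((A X (T' J.1 J.2 (ev g) Q.vac) : D) : Completion D) := by
  obtain ⟨κ, Ξ, hc, k1, l1, l2⟩ := ex_chg hK
  refine ⟨κ, hc.1, k1, fun X hX J g hg => ?_⟩
  have hκ := hc.1
  have hΞ := hc.2.1
  have tg : IsTest (ev g) := ⟨g, rfl⟩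
  have fJ := fld0 hT' J.1 J.2
  set u1 : Ix → V → ℝ := fun m x => Ξ x * dr m κ x with hu1
  set u2 : Ix → V → ℝ := fun m x => (1 - Ξ x) * dr m κ x with hu2
  set u3 : Ix → V → ℝ := fun m x => κ x * dr m Ξ x with hu3
  have t1 : ∀ m, Tst (u1 m) := fun m => cs_mul_l hΞ (Chx.tst_dr hκ m)
  have t2 : ∀ m, Tst (u2 m) := fun m => cs_mul_l (contDiff_const.sub hΞ) (Chx.tst_dr hκ m)
  have t3 : ∀ m, Tst (u3 m) := fun m => cs_mul_r hκ (smooth_dr hΞ m)
  have e13 : ∀ v, TT T (uX u1 X) v = -TT T (dens κ Ξ X) v := fun v => by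
    have := TT_kil hT hX (cs_mul_l hΞ hκ) v
    rw [show (fun m => dr m fun x => Ξ x * κ x) = fun m x => u1 m x + u3 m x from
      funext fun m => funext fun x => by
        rw [dr_mul (hΞ.differentiable (by simp)) (hκ.1.differentiable (by simp))]
        simp only [hu1, hu3]
        ring, TT_add hT hX t1 t3] at this
    exact eq_neg_of_add_eq_zero_left this
  have e2 : ∀ v, TT T (uX u2 X) v = TT T (dens κ Ξ X) v := fun v => by
    have := TT_kil hT hX hκ v
    rw [show (fun m => dr m κ) = fun m x => u1 m x + u2 m x from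
      funext fun m => funext fun x => by simp only [hu1, hu2]; ring, TT_add hT hX t1 t2, e13] at this
    exact (neg_add_eq_zero.1 this).symm
  obtain ⟨c, ϖ, hw, hX'⟩ := id hX
  have key : ∀ m n, w (m, n) J (∂_{((bas m 1, 0) : V × V)}
      (ST.tens (sch fun x => ((κ x * (eta n * X x n) : ℝ) : ℂ)) g)) =
      ((T m n (uX u1 X m n) (T' J.1 J.2 (ev g) Q.vac) : D) : Completion D) +
      ((T' J.1 J.2 (ev g) (T m n (uX u2 X m n) Q.vac) : D) : Completion D) +
      ((eta n * ϖ m n : ℝ) : ℂ) • w (m, n) J (ST.tens (sch fun x => (κ x : ℂ)) g) := fun m n => by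
    have a1 := test_uX hX t1 m n
    have a2 := test_uX hX t2 m n
    have f1 := h.fac1 (m, n) J (sch (uX u1 X m n)) g _ (fun x y => ST.tens_apply _ _ (x, y))
      fun x hx y hy => l1 m x (tsupp_uX u1 X m n (Ap.tsupport_sch a1 ▸ hx)) y (hg hy)
    have f2 := h.fac2 (m, n) J (sch (uX u2 X m n)) g _ (fun x y => ST.tens_apply _ _ (x, y))
      fun y hy x hx => l2 m y (hg hy) x (tsupp_uX u2 X m n (Ap.tsupport_sch a2 ▸ hx))
    rw [ev_sch a1] at f1
    rw [ev_sch a2] at f2
    rw [← f1, ← f2, ← map_smul, ← map_add, ← map_add]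
    congr 1
    ext ⟨x, y⟩
    have := congrFun (Grp.pd_ev m (sch fun x => ((κ x * (eta n * X x n) : ℝ) : ℂ))) x
    rw [ev_sch (tst_sw (tst_uX hX hκ n)), pd_kil hX hX' hκ] at this
    rw [d_tens, show (∂_{(bas m 1 : V)} (sch fun x => ((κ x * (eta n * X x n) : ℝ) : ℂ))) x = _ from
      this.symm]
    simp only [SchwartzMap.add_apply, SchwartzMap.smul_apply, ST.tens_apply, Ap.sch_apply a1,
      Ap.sch_apply a2, Ap.sch_apply (tst_sw hκ), smul_eq_mul]
    simp only [uX, hu1, hu2]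
    push_cast
    ring
  have z := anti_sym hw (v := fun m n => w (m, n) J (ST.tens (sch fun x => (κ x : ℂ)) g))
    fun m n => by rw [h.ind1]; rfl
  simp only [dvL_apply, dv1]
  rw [Finset.sum_comm]
  simp only [key, Finset.sum_add_distrib, z, add_zero, ← coe_sum, ← fld_lin fJ tg]
  rw [← Completion.coe_add, ← Completion.coe_neg]
  congr 1
  have := ext_inner_left ℂ fun v => ch K κ Ξ X _ _ Q.vac v hK hc hX fJ tg hg
  rw [H746.A_vac R hX, fld_zero fJ tg, sub_zero] at this
  rw [← this, neg_sub, ← e2 Q.vac, sub_eq_neg_add, ← e13]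
  rfl

/-- linear vector fields -/
def rot (ϖ : Ix → V) (z : V) : V := fun n => ∑ m, z m * ϖ m n

/-- the action of a Lorentz generator on the indices -/
def spin (T : Ix → Ix → Fld D) (ϖ : Ix → V) (J : I2) (f : Fn) (v : D) : D :=
  ∑ k, (ϖ k J.1 : ℂ) • T k J.2 f v + ∑ l, (ϖ l J.2 : ℂ) • T J.1 l f v

/-- **the Ward identity** -/
theorem Bi.ward (h : Bi Q T T' w) (hT : Stress0 Q T) (hT' : Stress0 Q T') (R : Rep Q A)
    (ch : CHr Q T A) {ϖ : Ix → V} (hw : ∀ m n, eta n * ϖ m n = -(eta m * ϖ n m)) {χ : V → ℂ}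
    (hχ : Dc χ) (h1 : ∀ᶠ u in 𝓝 (0 : V), χ u = 1) (J : I2) {f : Sch} (hf : HasCompactSupport f) :
    ∑ n, dvL w n J (ten2 (sch fun u => ((eta n * rot ϖ u n : ℝ) : ℂ) * χ u) f) =
      -I • ((spin T' ϖ J (ev f) Q.vac : D) : Completion D) := by
  obtain ⟨κ, hκ, k1, H⟩ := h.ward0 hT hT' R ch hf.isCompact
  have r0 : ∀ z n, rot ϖ z n = (0 : V) n + 0 * z n + ∑ m, z m * ϖ m n := fun z n => by simp [rot]
  have hX : IsSim 0 (rot ϖ) := ⟨0, ϖ, hw, r0⟩
  have c0 : ∀ (l : Ix) (z : V) n, bas l 1 n = bas l 1 n + 0 * z n + ∑ m, z m * (0 : Ix → V) m n :=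
    fun l z n => by simp
  have hC : ∀ l : Ix, IsSim 0 fun _ => bas l 1 := fun l => ⟨bas l 1, 0, by simp, c0 l⟩
  have sm : ∀ l, ContDiff ℝ ∞ fun x => (rot ϖ x l : ℂ) := fun l =>
    Complex.ofRealCLM.contDiff.comp (sim_smooth hX l)
  have dg : ∀ l, Dc fun y => (rot ϖ y l : ℂ) * f y := fun l => dc_mul_left (sm l) (dc_of_sch f hf)
  have fJ := fld0 hT' J.1 J.2
  have e : ∀ n, dvL w n J (ten2 (sch fun u => ((eta n * rot ϖ u n : ℝ) : ℂ) * χ u) f) =
      dvL w n J (ST.tens (sch fun x => ((κ x * (eta n * rot ϖ x n) : ℝ) : ℂ)) f) -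
      ∑ l, dvL w n J (ST.tens (sch fun x => ((κ x * (eta n * bas l 1 n) : ℝ) : ℂ))
        (sch fun y => (rot ϖ y l : ℂ) * f y)) := fun n => by
    rw [← map_sum, ← map_sub]
    refine (h.off hT hT' n J).congr fun x => ?_
    have k : ∀ᶠ z : V × V in 𝓝 (x, x), κ z.1 * f z.2 = f z.2 := by
      by_cases hx : x ∈ tsupport f
      · exact ((continuous_fst.tendsto (x, x)).eventually (k1 x hx)).mono fun z hz => by simp [hz]
      · exact ((continuous_snd.tendsto (x, x)).eventually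
          (notMem_tsupport_iff_eventuallyEq.1 hx)).mono fun z hz => by simp [hz]
    filter_upwards [near h1 continuous_id rfl x, k] with z a1 a2
    have a3 : Dc fun u => ((eta n * rot ϖ u n : ℝ) : ℂ) * χ u := dc_mul_left
      (Complex.ofRealCLM.contDiff.comp (contDiff_const.mul (sim_smooth hX n))) hχ
    simp only [ten2_apply, SchwartzMap.sub_apply, SchwartzMap.sum_apply, ST.tens_apply,
      Api4.sch_apply a3, Api4.sch_apply (dg _), Ap.sch_apply (tst_sw (tst_uX hX hκ n)),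
      Ap.sch_apply (tst_sw (tst_uX (hC _) hκ n)), show χ (z.1 - z.2) = 1 from a1]
    rw [Finset.sum_eq_single n (fun l _ hl => by simp [bas, hl.symm]) (by simp),
      show rot ϖ (z.1 - z.2) n = rot ϖ z.1 n - rot ϖ z.2 n by
        simp [rot, sub_mul, Finset.sum_sub_distrib]]
    simp only [bas, if_true]
    push_cast
    linear_combination (-(eta n : ℂ) * (rot ϖ z.1 n - rot ϖ z.2 n)) * a2
  simp only [e, Finset.sum_sub_distrib]
  rw [Finset.sum_comm, H _ hX J f subset_rfl, Finset.sum_congr rfl fun l _ => H _ (hC l) J _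
    ((Api4.tsupport_sch (dg l)).subset.trans (tsupport_mul_subset_right))]
  have a1 := A_T R hT' hw r0 (f := ev f) ⟨f, rfl⟩ J.1 J.2 Q.vac
  have a2 := fun l => A_T R hT' (w := 0) (by simp) (c0 l) (dc_sw (dg l)) J.1 J.2 Q.vac
  simp only [H746.A_vac R hX, H746.A_vac R (hC _), fld_zero fJ ⟨f, rfl⟩, fld_zero fJ (dc_sw (dg _)),
    zero_add, Pi.zero_apply, Complex.ofReal_zero, zero_smul, Finset.sum_const_zero] at a1 a2
  have a3 : ∑ l, T' J.1 J.2 (H746.vf (fun _ => bas l 1) fun y => (rot ϖ y l : ℂ) * f y) Q.vac =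
      T' J.1 J.2 (H746.vf (rot ϖ) (ev f)) Q.vac := by
    have := Grp.fld_sum fJ Finset.univ (fun _ => 1)
      (fun l => H746.isTest_vf (hC l) (dc_sw (dg l))) Q.vac
    simp only [one_smul, one_mul] at this
    rw [← this]
    congr 1
    funext x
    refine Finset.sum_congr rfl fun l _ => ?_
    rw [H746.vf, Finset.sum_eq_single l (fun n _ hn => by simp [bas, hn]) (by simp), ← dv_bas,
      ← dv_bas, dv_mul ((sm l).differentiable (by simp) x) f.differentiableAt,
      dv_cx ((sim_smooth hX l).differentiable (by simp) x), ← dr_eq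
      ((sim_smooth hX l).differentiable (by simp) x)]
    have z : ϖ l l = 0 := by
      have := hw l l
      exact (mul_eq_zero.1 (show eta l * ϖ l l = 0 by linarith)).resolve_left (eta_ne l)
    have d : dr l (fun x => rot ϖ x l) x = 0 := by
      rw [dr, show (fun t => rot ϖ (x + bas l t) l) = fun _ => rot ϖ x l from funext fun t => by
        simp [rot, bas, add_mul, Finset.sum_add_distrib, z], deriv_const]
    rw [d]
    simp [bas]
    exact .inl rfl
  simp only [fun l => ev_sch (dc_sw (dg l)), a1, a2, ← Completion.coe_neg, ← coe_sum,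
    ← Completion.coe_sub, ← Completion.coe_smul]
  congr 1
  rw [Finset.sum_neg_distrib, ← Finset.smul_sum, a3, spin]
  module

end Vale.Agent.P352L.Part
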