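import Vale.Agent.P352L.Two0

/-!
# P352L: families that are covariant up to a shift of the parameter, running vectors (helper89)
-/

set_option linter.all false

open MeasureTheory Measure Set Filter Topology Metric
open scoped SchwartzMap ComplexConjugate NNReal ENNReal

namespace Vale.Agent.P352L

section pol

open Polynomial

variable {E : Type*} [AddCommGroup E] [Module ℝ E] {J : ℕ} {F : ℝ → E}

theorem IsPol.diff (h : IsPol (J + 1) F) : IsPol J fun τ => F (τ + 1) - F τ := by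
  obtain ⟨a, h⟩ := h
  refine IsPol.of_poly (Finset.range (J + 2)) (fun j => (X + C 1) ^ j - X ^ j) a (fun j hj => ?_)
    fun τ => ?_
  · have e1 : ((X + C 1 : ℝ[X]) ^ j).degree = j := by
      rw [degree_pow, degree_X_add_C]
      simp
    have e2 := degree_sub_lt (e1.trans (degree_X_pow (R := ℝ) j).symm)
      (pow_ne_zero _ (X_add_C_ne_zero 1))
      (((monic_X_add_C 1).pow j).leadingCoeff.trans (monic_X_pow j).leadingCoeff.symm)
    rw [e1] at e2
    refine natDegree_le_iff_degree_le.2 ?_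
    by_cases h0 : (X + C 1 : ℝ[X]) ^ j - X ^ j = 0
    · rw [h0]; simp
    · rw [degree_eq_natDegree h0] at e2 ⊢
      have := Finset.mem_range.1 hj
      have h1 : ((X + C 1 : ℝ[X]) ^ j - X ^ j).natDegree < j := by exact_mod_cast e2
      exact_mod_cast (by omega : ((X + C 1 : ℝ[X]) ^ j - X ^ j).natDegree ≤ J)
  · simp [h, sub_smul, Finset.sum_sub_distrib]

theorem IsPol.cst (h : IsPol 0 F) (τ σ : ℝ) : F τ = F σ := by
  obtain ⟨a, h⟩ := h
  simp [h]

theorem IsPol.per {E : Type*} [NormedAddCommGroup E] [NormedSpace ℝ E] {F : ℝ → E} (h : IsPol J F)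
    (e : ∀ τ, F (τ + 1) = F τ) (σ : ℝ) : F σ = F 0 := by
  have e1 : ∀ n : ℕ, F n = F 0 := fun n => by
    induction n with
    | zero => simp
    | succ n ih => rw [Nat.cast_succ, e, ih]
  exact h.eq_of_tendsto (l := atTop) (τ := fun n : ℕ => (n : ℝ))
    (by simpa using tendsto_natCast_atTop_atTop) (by simp [e1]) σ

theorem isPol_lag {i : ℕ} (hi : i ∈ Finset.range (J + 1)) : IsPol J (lag J i) :=
  IsPol.of_poly {0} (fun _ : ℕ => lagP J i) (fun _ => 1) (fun _ _ => lagP_deg hi) (by simp [lag])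

theorem lag_add {i : ℕ} (hi : i ∈ Finset.range (J + 1)) (a b : ℝ) :
    lag J i (a + b) = ∑ k ∈ Finset.range (J + 1), lag J k a * lag J i (k + b) :=
  ((isPol_lag hi).shift b).lag_eq a

theorem cont_lag (J i : ℕ) : Continuous (lag J i) := (lagP J i).continuous

theorem IsPol.clm {H H' : Type*} [NormedAddCommGroup H] [NormedSpace ℂ H] [NormedAddCommGroup H']
    [NormedSpace ℂ H'] {F : ℝ → H} (h : IsPol J F) (A : H →L[ℂ] H') : IsPol J fun τ => A (F τ) :=
  h.map' A (map_add A) fun t x => A.map_smul_of_tower t x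

end pol

namespace Two

open Vale.Agent.P352.GF Vale.Agent.P352.BW Vale.Agent.P352.H496 Vale.Agent.P352.H755
open Vale.Agent.P352.H246 (In)
open Vale.Agent.P352X Vale.Agent.P352X.Two
open UniformSpace (Completion)
open Complex (I)
open Finset (range)

noncomputable section

variable {D : Type*} [NormedAddCommGroup D] [InnerProductSpace ℂ D] {c : Bs D} {J : ℕ}
  {K : V → ℂ} {v : ℝ → Completion D} {x y : ℝ}

/-- `v / K` is invariant under the null rotations, and homogeneous under the scalings up to a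
shift of the parameter -/
structure Vl (c : Bs D) (J : ℕ) (K : V → ℂ) (v : ℝ → Completion D) (x y : ℝ) : Prop where
  pol : IsPol J v
  ga : ∀ τ w, c.bt.Phi K (Ga c.Q w (v τ)) = c.bt.Phi (fun p => K (gap (-w) p)) (v τ)
  sc : ∀ τ r s, 0 < r → 0 < s → c.bt.Phi K (Usc c.Q r s (v τ)) = ((r ^ x * s ^ y : ℝ) : ℂ) •
    c.bt.Phi (fun p => K (scp s r p)) (v (τ + Real.log √(r * s)))

theorem Vl.vc (h : Vl c J K v x y) {w : Completion D} (e : ∀ τ, v τ = w) : Vc c K w x y :=
  ⟨fun u => by simpa only [e] using h.ga 0 u, fun r s hr hs => by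
    simpa only [e] using h.sc 0 r s hr hs⟩

theorem Vl.mono (h : Vl c J K v x y) {J' : ℕ} (e : J ≤ J') : Vl c J' K v x y :=
  ⟨h.pol.mono e, h.ga, h.sc⟩

theorem Vl.diff (h : Vl c (J + 1) K v x y) : Vl c J K (fun τ => v (τ + 1) - v τ) x y where
  pol := h.pol.diff
  ga τ w := by simp only [map_sub, h.ga]
  sc τ r s hr hs := by
    simp only [map_sub, h.sc _ r s hr hs, smul_sub, add_right_comm τ 1]

/-- invariant sets -/
structure Inv (S : Set V) : Prop where
  ms : MeasurableSet S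
  ga : ∀ w p, gap w p ∈ S ↔ p ∈ S
  sc : ∀ r s p, 0 < r → 0 < s → (scp r s p ∈ S ↔ p ∈ S)

theorem inv_Fc : Inv Fc := ⟨meas_Fc, fun w p => Fc_gap p w, fun _ _ _ hr hs => Fc_scp hr hs⟩

theorem Inv.compl {S : Set V} (h : Inv S) : Inv Sᶜ :=
  ⟨h.ms.compl, fun w p => (h.ga w p).not, fun r s p hr hs => (h.sc r s p hr hs).not⟩

lemma ind_comp {S : Set V} {k : V → V} (h : ∀ p, k p ∈ S ↔ p ∈ S) :
    (fun p => S.indicator (fun _ => (1 : ℂ)) (k p)) = S.indicator fun _ => 1 := funext fun p => by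
  by_cases hp : p ∈ S <;> simp [hp, h]

theorem Vl.proj (h : Vl c J K v x y) (hK : SN.Bd K) {S : Set V} (hS : Inv S) :
    Vl c J K (fun τ => c.bt.P S (v τ)) x y where
  pol := h.pol.clm _
  ga τ w := by
    have b := SN.Bd.ind hS.ms
    rw [SN.Calc.P, Ga_Phi w b, ind_comp (hS.ga _), c.bt.comm hK b, h.ga,
      c.bt.comm (hK.comp (meas_gap _)) b]
  sc τ r s hr hs := by
    have b := SN.Bd.ind hS.ms
    rw [SN.Calc.P, Usc_Phi hr hs b, ind_comp fun p => hS.sc s r p hs hr, c.bt.comm hK b,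
      h.sc τ r s hr hs, map_smul, c.bt.comm (hK.comp (meas_scp _ _)) b]

/-- **descent in the degree** -/
theorem Vl.kill (hK : SN.Bd K) {S : Set V} (hS : Inv S) {Pp : Completion D → Prop}
    (p1 : ∀ a b, Pp a → Pp b → Pp (a - b)) (p2 : ∀ a, Pp a → Pp (c.bt.P S a))
    (h0 : ∀ w, Vc c K w x y → Pp w → c.bt.P S w = 0) : ∀ (J : ℕ) (v : ℝ → Completion D),
    Vl c J K v x y → (∀ τ, Pp (v τ)) → ∀ τ, c.bt.P S (v τ) = 0 := by
  intro J
  induction J with
  | zero => exact fun v h hp τ => h0 _ (h.vc fun σ => h.pol.cst σ τ) (hp τ)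
  | succ J ih =>
    intro v h hp τ
    have e := ih _ h.diff fun τ => p1 _ _ (hp _) (hp _)
    simp only [map_sub, sub_eq_zero] at e
    have h1 := h.proj hK hS
    have e1 := h1.pol.per e
    have := h0 _ (h1.vc fun σ => (e1 σ).trans (e1 τ).symm) (p2 _ (hp τ))
    rwa [SN.Calc.P_P hS.ms hS.ms, inter_self] at this

theorem Vl.high (h : Vl c J K v x y) (hK : Wt K univ) (hy : 1 / 2 < y)
    (hv : ∀ τ, inner ℂ c.Om (v τ) = 0) (τ : ℝ) : ∀ᵐ p ∂c.nu (v τ), p ∈ Fc :=
  (c.bt.nu_eq_zero meas_Fc.compl _).2 (Vl.kill hK.bd inv_Fc.compl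
    (Pp := fun a => inner ℂ c.Om a = 0) (fun a b ha hb => by rw [inner_sub_right, ha, hb, sub_zero])
    (fun a ha => (Kin.inner_om_Phi c.bR c.ct (.ind meas_Fc.compl) a).trans (by
      rw [show inner ℂ (om c.Q) a = 0 from ha, mul_zero]))
    (fun w hw hp => (c.bt.nu_eq_zero meas_Fc.compl _).1 (hw.high hK hy hp)) J v h hv τ)

theorem Vl.low (h : Vl c J K v x y) (hK : Wt K univ) (hy : y ≤ 1 / 2) (τ : ℝ) :
    c.bt.P Fc (v τ) = 0 :=
  Vl.kill hK.bd inv_Fc (Pp := fun _ => True) (fun _ _ _ _ => trivial) (fun _ _ => trivial)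
    (fun w hw _ => eq_zero_of_nu ((SN.Calc.nu_P meas_Fc w).trans (hw.low hK hy))) J v h
    (fun _ => trivial) τ

/-! ## running vectors -/

/-- half the logarithm of the mass squared -/
def lm (p : V) : ℝ := Real.log (mu p) / 2

@[fun_prop] lemma meas_lm : Measurable lm := by unfold lm; fun_prop

lemma cont_lm : ContinuousOn lm Fc :=
  ((by fun_prop : Continuous mu).continuousOn.log fun p hp => ((mem_Fc p).1 hp).2.ne').div_const 2

/-- the weight that compensates the logarithms -/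
def Nw (J : ℕ) (p : V) : ℂ := ((((1 + |lm p|) ^ J)⁻¹ : ℝ) : ℂ)

lemma wt_Nw (J : ℕ) : Wt (Nw J) Fc := by
  have h0 : ∀ p, 1 ≤ (1 + |lm p|) ^ J := fun p => one_le_pow₀ (by linarith [abs_nonneg (lm p)])
  refine ⟨.ofReal (by fun_prop) (C := 1) fun p => ?_, fun p => Complex.ofReal_ne_zero.2
    (by positivity), Complex.continuous_ofReal.comp_continuousOn
      (((continuousOn_const.add cont_lm.abs).pow J).inv₀ fun p _ =>
        (zero_lt_one.trans_le (h0 p)).ne')⟩
  rw [abs_of_pos (by positivity)]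
  exact inv_le_one_of_one_le₀ (h0 p)

lemma bd_Nw {q : ℝ → ℝ} (hq : IsPol J q) (hm : Measurable q) {l : V → ℝ} (hl : Measurable l)
    (a : ℝ) (h : ∀ p, |l p| ≤ |a| + |lm p|) : SN.Bd fun p => Nw J p * (q (l p) : ℝ) := by
  obtain ⟨C, C0, hC⟩ := IsPol.bd (E := ℝ) J
  obtain ⟨M, hM⟩ := ((range (J + 1)).image fun i : ℕ => ‖q i‖).bddAbove
  have M1 : ∀ i ∈ range (J + 1), ‖q i‖ ≤ M := fun i hi =>
    hM (Finset.mem_coe.2 (Finset.mem_image_of_mem _ hi))
  have M0 : 0 ≤ M := (norm_nonneg _).trans (M1 0 (by simp))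
  refine ⟨(wt_Nw J).bd.1.mul (by fun_prop), C * (1 + |a|) ^ J * M, fun p => ?_⟩
  simp only [norm_mul, Nw, Complex.norm_real]
  rw [Real.norm_of_nonneg (by positivity), inv_mul_le_iff₀ (by positivity)]
  refine (hC q M hq M1 _).trans ?_
  have : (1 + |l p|) ^ J ≤ (1 + |lm p|) ^ J * (1 + |a|) ^ J := by
    rw [← mul_pow]
    exact pow_le_pow_left₀ (by positivity)
      (by nlinarith [h p, mul_nonneg (abs_nonneg a) (abs_nonneg (lm p))]) J
  calc _ ≤ C * ((1 + |lm p|) ^ J * (1 + |a|) ^ J) * M := by gcongr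
    _ = _ := by ring

lemma bd_sub {i : ℕ} (hi : i ∈ range (J + 1)) (a : ℝ) :
    SN.Bd fun p => Nw J p * (lag J i (a - lm p) : ℝ) :=
  bd_Nw (isPol_lag hi) (cont_lag J i).measurable (by fun_prop) a fun p => abs_sub _ _

lemma bd_add {i : ℕ} (hi : i ∈ range (J + 1)) (a : ℝ) :
    SN.Bd fun p => Nw J p * (lag J i (a + lm p) : ℝ) :=
  bd_Nw (isPol_lag hi) (cont_lag J i).measurable (by fun_prop) a fun p => abs_add_le _ _

/-- the weights of the running vectors -/
def rf (J : ℕ) (σ : ℝ) (i : ℕ) : V → ℂ := Fc.indicator fun p => Nw J p * (lag J i (σ - lm p) : ℝ)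

lemma bd_rf {i : ℕ} (hi : i ∈ range (J + 1)) (σ : ℝ) : SN.Bd (rf J σ i) :=
  (bd_sub hi σ).indicator meas_Fc

/-- the member `σ - log μ / 2` of the family, times the weight -/
def run (c : Bs D) (J : ℕ) (v : ℝ → Completion D) (σ : ℝ) : Completion D :=
  ∑ i ∈ range (J + 1), c.bt.Phi (rf J σ i) (v i)

lemma Phi_fsum {ι : Type*} (s : Finset ι) (a : ι → ℂ) {F : ι → V → ℂ}
    (hF : ∀ i ∈ s, SN.Bd (F i)) (z : Completion D) :
    ∑ i ∈ s, a i • c.bt.Phi (F i) z = c.bt.Phi (fun p => ∑ i ∈ s, a i * F i p) z := by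
  rw [c.bt.sum _ fun i hi => (hF i hi).smul (a i), ContinuousLinearMap.sum_apply]
  exact Finset.sum_congr rfl fun i hi => by rw [c.bt.smul _ (hF i hi)]; rfl

lemma sub_shift (h : IsPol J v) {G : V → ℂ} {l : V → ℝ} (b : ℝ)
    (hG : ∀ i ∈ range (J + 1), SN.Bd fun p => G p * (lag J i (l p) : ℝ)) :
    ∑ i ∈ range (J + 1), c.bt.Phi (fun p => G p * (lag J i (l p) : ℝ)) (v (i + b)) =
      ∑ i ∈ range (J + 1), c.bt.Phi (fun p => G p * (lag J i (l p + b) : ℝ)) (v i) := by
  simp only [fun i : ℕ => h.lag_eq (i + b), _root_.map_sum, ← Complex.coe_smul, map_smul]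
  rw [Finset.sum_comm]
  refine Finset.sum_congr rfl fun k hk => ?_
  rw [Phi_fsum _ _ hG]
  congr 2
  funext p
  rw [lag_add hk, Complex.ofReal_sum, Finset.mul_sum]
  exact Finset.sum_congr rfl fun i _ => by push_cast; ring

theorem run_core {W : Completion D →L[ℂ] Completion D} {κ : V → V} {e : ℝ} (he : 0 < e)
    (hk : Measurable κ)
    (hW : ∀ F, SN.Bd F → ∀ z, W (c.bt.Phi F z) = c.bt.Phi (fun p => F (κ p)) (W z))
    (h1 : ∀ p, κ p ∈ Fc ↔ p ∈ Fc) (h2 : ∀ p, mu (κ p) = e ^ 2 * mu p) (hK : SN.Bd K)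
    {u : ℝ → Completion D} (hv : IsPol J v)
    (h : ∀ τ, c.bt.Phi (fun p => K (κ p)) (v (τ + Real.log e)) = c.bt.Phi K (W (u τ))) (σ : ℝ) :
    c.bt.Phi (fun p => K (κ p) * Nw J (κ p)) (run c J v σ) =
      c.bt.Phi (fun p => K p * Nw J p) (W (run c J u σ)) := by
  have bN := (wt_Nw J).bd
  set G : V → ℂ := Fc.indicator fun p => K (κ p) * Nw J (κ p) * Nw J p
  have hG : ∀ (a : ℝ), ∀ i ∈ range (J + 1), (fun p => G p * (lag J i (a - lm p) : ℝ)) =
      fun p => K (κ p) * Nw J (κ p) * rf J a i p := fun a i hi => funext fun p => by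
    by_cases hp : p ∈ Fc <;> simp [G, rf, hp, mul_assoc]
  have e1 := sub_shift (c := c) hv (G := G) (l := fun p => σ - Real.log e - lm p) (Real.log e)
    fun i hi => hG _ i hi ▸ ((hK.mul bN).comp hk).mul (bd_rf hi _)
  simp only [show ∀ p, σ - Real.log e - lm p + Real.log e = σ - lm p from fun p => by ring] at e1
  simp only [run, _root_.map_sum]
  refine Eq.trans (Finset.sum_congr rfl fun i hi => ?_)
    (e1.symm.trans (Finset.sum_congr rfl fun i hi => ?_))
  · rw [hG σ i hi, c.bt.mul_apply ((hK.mul bN).comp hk) (bd_rf hi σ)]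
  · have b := (bd_rf hi σ).comp hk
    rw [hW _ (bd_rf hi σ), ← c.bt.mul_apply (hK.mul bN) b, show (fun p => K p * Nw J p *
      rf J σ i (κ p)) = fun p => Nw J p * rf J σ i (κ p) * K p from funext fun p => by ring,
      c.bt.mul_apply (bN.mul b) hK, ← h, ← c.bt.mul_apply (bN.mul b) (hK.comp hk)]
    congr 2
    funext p
    by_cases hp : p ∈ Fc
    · have : lm (κ p) = Real.log e + lm p := by
        rw [lm, h2, Real.log_mul (by positivity) ((mem_Fc p).1 hp).2.ne', Real.log_pow, lm]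
        push_cast
        ring
      simp only [G, rf, indicator_of_mem hp, indicator_of_mem ((h1 p).2 hp), this, sub_sub]
      ring
    · simp [G, rf, hp, h1]

lemma run_sum {ι : Type*} (s : Finset ι) (a : ι → ℂ) (v : ι → ℝ → Completion D) (σ : ℝ) :
    run c J (fun τ => ∑ i ∈ s, a i • v i τ) σ = ∑ i ∈ s, a i • run c J (v i) σ := by
  simp only [run, _root_.map_sum, map_smul, Finset.smul_sum]
  exact Finset.sum_comm

lemma run_smul (a : ℂ) (σ : ℝ) : run c J (fun τ => a • v τ) σ = a • run c J v σ := by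
  simp only [run, map_smul, Finset.smul_sum]

lemma run_Phi {F : V → ℂ} (hF : SN.Bd F) (σ : ℝ) :
    c.bt.Phi F (run c J v σ) = run c J (fun τ => c.bt.Phi F (v τ)) σ := by
  simp only [run, _root_.map_sum]
  exact Finset.sum_congr rfl fun i hi => c.bt.comm hF (bd_rf hi σ) _

lemma run_P (σ : ℝ) : run c J (fun τ => c.bt.P Fc (v τ)) σ = run c J v σ :=
  Finset.sum_congr rfl fun i hi => by
    rw [SN.Calc.P, c.bt.comm (bd_rf hi σ) (.ind meas_Fc), ← SN.Calc.P,
      c.bt.P_Phi meas_Fc (bd_rf hi σ), rf, indicator_indicator, inter_self]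

lemma run_ae (σ : ℝ) : ∀ᵐ p ∂c.nu (run c J v σ), p ∈ Fc :=
  (SN.Calc.P_eq_self meas_Fc).1 ((run_Phi (.ind meas_Fc) σ).trans (run_P σ))

lemma run_zero (h : ∀ τ, c.bt.P Fc (v τ) = 0) (σ : ℝ) : run c J v σ = 0 := by
  rw [← run_P]
  simp [h, run]

/-- **the running vectors are exactly covariant** -/
theorem Vl.run (h : Vl c J K v x y) (hK : SN.Bd K) (σ : ℝ) :
    Vc c (fun p => K p * Nw J p) (run c J v σ) x y where
  ga w := (run_core one_pos (meas_gap (-w)) (fun F hF => Ga_Phi w hF) (fun p => Fc_gap p _)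
    (fun p => by simp [mu_gap]) hK h.pol (fun τ => by simp [h.ga]) σ).symm
  sc r s hr hs := by
    rw [← run_core (Br.sc_pos hr hs) (meas_scp s r) (fun F hF => Usc_Phi hr hs hF)
      (fun p => Fc_scp hs hr) (fun p => by
        rw [mu_scp hs hr, Real.sq_sqrt (mul_pos hr hs).le, mul_comm s]) hK
      (h.pol.smul ((r ^ x * s ^ y : ℝ) : ℂ)) (fun τ => by rw [h.sc τ r s hr hs, map_smul]) σ,
      run_smul, map_smul]

/-- **back to the members of the family** -/
theorem run_back (h : IsPol J v) (τ : ℝ) {G : V → ℂ} (hG : SN.Bd fun p => G p * Nw J p)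
    (h0 : ∀ p ∉ Fc, G p = 0)
    (hb : ∀ k ∈ range (J + 1), SN.Bd fun p => G p * (lag J k (τ + lm p) : ℝ)) :
    c.bt.Phi (fun p => G p * Nw J p) (v τ) = ∑ k ∈ range (J + 1),
      c.bt.Phi (fun p => G p * (lag J k (τ + lm p) : ℝ)) (run c J v k) := by
  simp only [run, _root_.map_sum]
  rw [Finset.sum_comm, h.lag_eq τ, _root_.map_sum]
  refine Finset.sum_congr rfl fun i hi => ?_
  have := Phi_fsum (c := c) _ (fun _ => 1) (fun k hk => (hb k hk).mul (bd_rf hi (k : ℝ))) (v i)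
  simp only [one_smul, one_mul] at this
  rw [Finset.sum_congr rfl fun k hk => (c.bt.mul_apply (hb k hk) (bd_rf hi (k : ℝ)) _).symm, this,
    ← Complex.coe_smul, map_smul, ← ContinuousLinearMap.smul_apply, ← c.bt.smul _ hG]
  congr 2
  funext p
  by_cases hp : p ∈ Fc
  · have e := lag_add hi (τ + lm p) (-lm p)
    rw [add_neg_cancel_right] at e
    simp only [rf, indicator_of_mem hp, e, Complex.ofReal_sum, Finset.sum_mul, sub_eq_add_neg]
    exact Finset.sum_congr rfl fun k _ => by push_cast; ring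
  · simp [h0 p hp]

lemma cp_lag {G : V → ℂ} (hG : Cp Fc G) (k : ℕ) (τ : ℝ) :
    Cp Fc fun p => G p * (lag J k (τ + lm p) : ℝ) :=
  hG.mul (by have := (cont_lag J k).measurable; fun_prop)
    (Complex.continuous_ofReal.comp_continuousOn ((cont_lag J k).comp_continuousOn
      (continuousOn_const.add cont_lm)))

lemma cp_Nw {G : V → ℂ} (hG : Cp Fc G) : Cp Fc fun p => G p * (Nw J p)⁻¹ :=
  hG.mul (minv (wt_Nw J).bd.1) ((wt_Nw J).cont.inv₀ fun p _ => (wt_Nw J).ne p)

theorem run_cp (h : IsPol J v) (τ : ℝ) {G : V → ℂ} (hG : Cp Fc G) :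
    c.bt.Phi G (v τ) = ∑ k ∈ range (J + 1),
      c.bt.Phi (fun p => G p * (Nw J p)⁻¹ * (lag J k (τ + lm p) : ℝ)) (run c J v k) := by
  have e := run_back (c := c) h τ (G := fun p => G p * (Nw J p)⁻¹)
    (by simpa only [inv_mul_cancel_right₀ ((wt_Nw J).ne _)] using hG.1)
    (fun p hp => by
      obtain ⟨B, -, b2, b3⟩ := hG.2
      simp [b3 p fun k => hp (b2 k)]) fun k _ => (cp_lag (cp_Nw hG) k τ).1
  simpa only [inv_mul_cancel_right₀ ((wt_Nw J).ne _)] using e

/-! ## bounds for the measures -/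

lemma nu_sum_le {ι : Type*} (s : Finset ι) {w : ι → Completion D} {M : Measure V}
    (h : ∀ i ∈ s, c.nu (w i) ≤ M) : c.nu (∑ i ∈ s, w i) ≤ (4 ^ s.card : ℝ≥0) • M := by
  classical
  induction s using Finset.induction_on with
  | empty => exact c.bt.nu_zero.trans_le (Measure.zero_le _)
  | insert a s ha ih =>
    rw [Finset.sum_insert ha, Finset.card_insert_of_notMem ha]
    refine (c.bt.nu_add_le _ _).trans (Measure.le_iff'.2 fun S => ?_)
    have h1 := Measure.le_iff'.1 (h a (Finset.mem_insert_self _ _)) S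
    have h2 := Measure.le_iff'.1 (ih fun i hi => h i (Finset.mem_insert_of_mem hi)) S
    have h3 : M S ≤ (4 ^ s.card : ℝ≥0) • M S := le_mul_of_one_le_left' (by
      exact_mod_cast one_le_pow₀ (by norm_num : (1 : ℝ≥0) ≤ 4))
    calc _ ≤ (2 : ℝ≥0) • ((4 ^ s.card : ℝ≥0) • M S + (4 ^ s.card : ℝ≥0) • M S) :=
          mul_le_mul_right (add_le_add (h1.trans h3) h2) _
      _ = _ := by
        simp only [Measure.smul_apply, ENNReal.smul_def, smul_eq_mul]
        push_cast
        ring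

/-- the exhaustion of the open cone -/
def An (n : ℕ) : Set V := {p | 1 / ((n : ℝ) + 1) ≤ Poly.rc p}

lemma An_cpt (n : ℕ) : IsCompact (An n) := Metric.isCompact_of_isClosed_isBounded
  (isClosed_le continuous_const Poly.cont_rc)
  ((Metric.isBounded_closedBall (x := 0) (r := n)).subset fun p hp => mem_closedBall_zero_iff.2 (by
    have := (inv_le_inv₀ (by positivity) (by positivity)).1
      (((one_div _).symm.trans_le hp).trans (Poly.rc_le p))
    linarith))

lemma An_sub (n : ℕ) : An n ⊆ Fc := fun p hp =>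
  Poly.rc_pos.1 (lt_of_lt_of_le Nat.one_div_pos_of_nat hp)

lemma le_of_An {ρ M : Measure V} (h : ∀ n, ρ.restrict (An n) ≤ M) : ρ.restrict Fc ≤ M :=
  Measure.le_iff.2 fun S hS => by
    have e : Fc = ⋃ n, An n := subset_antisymm (fun p hp => by
      obtain ⟨m, hm⟩ := exists_nat_one_div_lt (Poly.rc_pos.2 hp)
      exact mem_iUnion.2 ⟨m, hm.le⟩) (iUnion_subset An_sub)
    have hm : Monotone fun n => S ∩ An n := fun m n e =>
      inter_subset_inter_right _ fun p (hp : _ ≤ Poly.rc p) =>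
        show _ ≤ Poly.rc p from (Nat.one_div_le_one_div e).trans hp
    rw [e, restrict_apply hS, inter_iUnion, hm.measure_iUnion]
    exact iSup_le fun n => (restrict_apply hS).symm.trans_le (Measure.le_iff'.1 (h n) S)

lemma smul_le {a b : ℝ≥0} (h : a ≤ b) (M : Measure V) : a • M ≤ b • M :=
  Measure.le_iff'.2 fun S => mul_le_mul_left (ENNReal.coe_le_coe.2 h) _

/-- **the measures of the members of a family** -/
theorem Vl.bound (h : Vl c J K v x y) (hK : Wt K Fc) : ∃ κ : ℝ≥0, ∀ τ,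
    (c.nu (v τ)).restrict Fc ≤ κ • (volume.restrict Fc).withDensity fun p =>
      ENNReal.ofReal (dn K (2 * x - 2 * y) (2 * y - 2) p * (1 + |τ + lm p|) ^ (2 * J)) := by
  have hW := hK.mul (wt_Nw J)
  choose κ hκ using fun k : ℕ => (h.run hK.bd k).fc hW
  obtain ⟨C, C0, hC⟩ := lag_bd J
  refine ⟨4 ^ (J + 1) * ((∑ k ∈ range (J + 1), κ k) * (C ^ 2).toNNReal), fun τ =>
    le_of_An fun n => ?_⟩
  have g := cp_ind (An_cpt n) (An_sub n) (.const 1)
  rw [Bs.nu, ← c.bt.nu_P (An_cpt n).measurableSet, SN.Calc.P, run_cp h.pol τ g, mul_smul]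
  refine (nu_sum_le _ fun k hk => ?_).trans_eq (by rw [Finset.card_range])
  have e := hκ k
  have b := (cp_lag (J := J) (cp_Nw (J := J) g) k τ).1
  rw [restrict_eq_self_of_ae_mem (run_ae _), mm_wd hW.bd.1] at e
  refine le_trans ?_ (smul_le (mul_le_mul_left (Finset.single_le_sum (fun _ _ => zero_le) hk) _) _)
  rw [nu_Phi' b, e, mul_smul, ENNReal.smul_def, ENNReal.smul_def, ENNReal.smul_def,
    withDensity_smul_measure, ← withDensity_mul _ (meas_dn hW.bd.1 _ _).ennreal_ofReal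
      (meas_sq2 b.1), ← withDensity_smul' ((C ^ 2).toNNReal : ℝ≥0∞) _ ENNReal.coe_ne_top]
  refine Measure.le_iff'.2 fun S => mul_le_mul_right (Measure.le_iff'.1 (withDensity_mono
    ((ae_fc _).mono fun p hp => ?_)) S) _
  have d0 := dn_nonneg K (2 * x - 2 * y) (2 * y - 2) hp
  simp only [Pi.mul_apply, Pi.smul_apply, smul_eq_mul, sq2,
    ← ENNReal.ofReal_mul (dn_nonneg _ _ _ hp)]
  rw [← ENNReal.ofReal, ← ENNReal.ofReal_mul (sq_nonneg _)]
  refine ENNReal.ofReal_le_ofReal ?_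
  have n0 := norm_pos_iff.2 ((wt_Nw J).ne p)
  have i1 : ‖(An n).indicator (fun _ => (1 : ℂ)) p‖ ≤ 1 :=
    (norm_indicator_le_norm_self _ _).trans (by simp)
  have i2 := hC k hk (τ + lm p)
  calc _ = dn K (2 * x - 2 * y) (2 * y - 2) p * (‖(An n).indicator (fun _ => (1 : ℂ)) p‖ *
        |lag J k (τ + lm p)|) ^ 2 := by
        simp only [dn, norm_mul, norm_inv, Complex.norm_real, Real.norm_eq_abs]
        field_simp
    _ ≤ dn K (2 * x - 2 * y) (2 * y - 2) p * (1 * (C * (1 + |τ + lm p|) ^ J)) ^ 2 := by gcongr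
    _ = _ := by ring

end

end Two

end Vale.Agent.P352L
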