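import Vale.Agent.P352L.SB.Sc
import Vale.Agent.P352L.R.GRP.C

/-!
# P352L, job SB: the family of potentials of the trace
-/

set_option linter.all false

open MeasureTheory Set
open scoped SchwartzMap

namespace Vale.Agent.P352L

open Vale.Agent.P352 (Mink fl toSchL conjS isTest_fl)
open Vale.Agent.P352.GF Vale.Agent.P352.BW
open Vale.Agent.P352.H246 (In Wed Al)
open Vale.Agent.P352X Vale.Agent.P352L.Two Vale.Agent.P352L.Two.Sb
open UniformSpace (Completion)

noncomputable section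

variable {D : Type*} [NormedAddCommGroup D] [InnerProductSpace ℂ D] {Q : Theory D}
  {T : Ix → Ix → Fld D} {TT : ℝ → Ix → Ix → Fld D} {n0 : ℕ}

namespace SB

lemma comm {B : Fld D} (hB : Q.bose B)
    (hh : ∀ f v w, IsTest f → inner ℂ (B f v) w = inner ℂ v (B (bar f) w)) {W : Set V} {f : Fn}
    (hf : IsTest f) (hs : ∀ g, In W g → Sep f g) {X X' : D → D} (h : Al Q W X X') :
    ∀ v, B f (X v) = X (B f v) := by
  induction h with
  | one => intro v; rfl
  | add X X' Y Y' _ _ ih1 ih2 =>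
    intro v
    beta_reduce
    rw [← ih1, ← ih2]
    refine ext_inner_right ℂ fun u => ?_
    rw [inner_add_left, hh _ _ _ hf, hh _ _ _ hf, hh _ _ _ hf, inner_add_left]
  | smul c X X' _ ih =>
    intro v
    beta_reduce
    rw [← ih]
    refine ext_inner_right ℂ fun u => ?_
    rw [inner_smul_left, hh _ _ _ hf, hh _ _ _ hf, inner_smul_left]
  | fld A A' g X X' hA _ _ hg _ ih =>
    intro v
    rw [Q.loc B A f g _ hB hA hf hg.1 (hs g hg), ih]

/-- the trace is local -/
lemma tr_loc (hT : Stress0 Q T) {W : Set V} {f : Fn} (hf : IsTest f) (hs : ∀ g, In W g → Sep f g)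
    {X X' : D → D} (h : Al Q W X X') :
    inner ℂ (X' Q.vac) (tr T f Q.vac) = inner ℂ (tr T (bar f) Q.vac) (X Q.vac) := by
  simp only [tr, inner_sum, sum_inner, inner_smul_left, inner_smul_right, Complex.conj_ofReal]
  refine Finset.sum_congr rfl fun m _ => ?_
  rw [h.adj', ← comm (hT.bose m m) (hT.herm m m) hf hs h,
    hT.herm m m _ _ _ (P352.H246.isTest_bar hf), P352.H246.bar_bar]

/-- the trace applied to the vacuum -/
def th (hT : Stress0 Q T) : Sch →L[ℂ] Completion D :=
  Completion.toComplL ∘L ∑ m, (eta m : ℂ) • Grp.fC (Grp.T_fld hT m m) Q.vac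

lemma th_apply (hT : Stress0 Q T) (g : Sch) : th hT g = (tr T (ev g) Q.vac : D) := by
  simp only [th, ContinuousLinearMap.comp_apply, ContinuousLinearMap.sum_apply,
    ContinuousLinearMap.smul_apply, P352X.Grp.fC_apply, tr]
  rfl

lemma th_cov (hF : Fam Q TT n0) (τ : ℝ) {s : ℝ} {L : Ix → V} (a : V) {f : Fn} (hs : 0 < s)
    (hL : IsLor L) (hf : IsTest f) : ((tr (TT (τ + Real.log s)) f Q.vac : D) : Completion D) =
      Ug Q s L a (tr (TT τ) (fun x => f (sim s L a x)) Q.vac : D) := by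
  rw [Grp.coe hs hL, Grp.th hF τ a Q.vac hs hL hf, Q.U_vac s L a hs hL]

lemma th_pol (hF : Fam Q TT n0) {f : Fn} (hf : IsTest f) :
    IsPol n0 fun τ => ((tr (TT τ) f Q.vac : D) : Completion D) :=
  Grp.pol_coe (.sum _ fun m _ => (hF.pol m m _ _ hf).smul _)

end SB

open SB

/-- **the potentials of the trace exist and are local with respect to wedges** -/
theorem ex_pot (b : Base D) {TT : ℝ → Ix → Ix → Fld D} {n0 : ℕ} (hF : Fam b.Q TT n0) :
    ∃ LL : ℝ → Fn → Completion D, PotF b.Q TT LL n0 ∧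
      ∀ τ L a f X X', IsLor L → In (Wed L a 1) f → Al b.Q (Wed L a (-1)) X X' →
        inner ℂ ((X' b.Q.vac : D) : Completion D) (LL τ f) =
          inner ℂ (LL τ (bar f)) ((X b.Q.vac : D) : Completion D) := by
  let c : Bs D := ⟨b.Q, b.A, b.bt, b.bR, b.bV⟩
  have h : ∀ τ, Sc c (th (hF.st τ)) := sc_of (J := n0)
    ⟨fun _ f => by simpa only [th_apply] using th_pol hF ⟨f, rfl⟩,
      fun τ _ s L a f g hs hL e => by
        rw [th_apply, th_apply, th_cov hF τ a hs hL ⟨f, rfl⟩,
          show (fun x => ev f (sim s L a x)) = ev g from (funext e).symm]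
        simp [c]⟩ fun τ => by
      rw [th_apply]
      refine (Completion.inner_coe _ _).trans ?_
      simp only [tr, inner_sum, inner_smul_right]
      exact Finset.sum_eq_zero fun m _ => mul_eq_zero_of_right _ (Grp.perp hF τ m m ⟨_, rfl⟩)
  have hd : ∀ τ f, IsTest f → b.bt.Dom iv (tr (TT τ) f b.Q.vac : D) := by
    rintro τ _ ⟨f, rfl⟩
    exact th_apply (hF.st τ) f ▸ ((h τ).inv f).1
  have cov : ∀ τ s L a f (v : D), 0 < s → IsLor L → IsTest f →
      inner ℂ (b.Q.U s L a v : Completion D) ((-(1 / 3) : ℂ) •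
        b.bt.Psi iv (tr (TT (τ + Real.log s)) f b.Q.vac : D)) = (s ^ 2 : ℝ) *
      inner ℂ (v : Completion D) ((-(1 / 3) : ℂ) •
        b.bt.Psi iv (tr (TT τ) (fun x => f (sim s L a x)) b.Q.vac : D)) :=
    fun τ s L a f v hs hL hf => by
      rw [th_cov hF τ a hs hL hf, psi_ug (c := c) hs hL a (hd τ _ (Grp.test_sim hs hL a hf)),
        ← Grp.coe hs hL, inner_smul_right, inner_smul_right, inner_smul_right, Grp.ug_inner hs hL]
      ring
  refine ⟨fun τ f => (-(1 / 3) : ℂ) • b.bt.Psi iv (tr (TT τ) f b.Q.vac : D),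
    ⟨fun τ => ⟨?_, ?_, ?_, fun L a f v hL hf => ?_⟩, cov, fun f hf => ?_⟩,
    fun τ L a f X X' hL hf hX => ?_⟩
  · rintro _ _ z ⟨f, rfl⟩ ⟨g, rfl⟩
    rw [show (fun x => ev f x + z * ev g x) = ev (f + z • g) from rfl, ← th_apply (hF.st τ),
      ← th_apply (hF.st τ), ← th_apply (hF.st τ), map_add, map_smul,
      SN.Calc.Psi_add_vec ((h τ).inv f).1 (((h τ).inv g).1.smul_vec z),
      SN.Calc.Psi_smul_vec z ((h τ).inv g).1, smul_add, smul_comm z]
  · exact ((h τ).cont.const_smul (-(1 / 3) : ℂ)).congr fun g => by rw [← th_apply (hF.st τ)]; rfl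
  · rintro _ ⟨f, rfl⟩
    obtain ⟨g, e⟩ : IsTest (P352.H246.box (ev f)) := P352X.Grp.test_sum _ _ fun m =>
      Grp.test_pd m (Grp.test_pd m ⟨f, rfl⟩)
    rw [← e, ← th_apply (hF.st τ), ← th_apply (hF.st τ), smul_smul]
    refine (congrArg _ ((h τ).box e)).trans ?_
    norm_num
  · simpa using cov τ 1 L a f v one_pos hL hf
  · refine IsPol.smul _ ((th_pol hF hf).map_on _ (b.bt.Dom iv) (fun τ => hd τ f hf)
      (.zero_vec meas_iv) (fun _ _ => .add_vec) (fun t x hx => ?_) (SN.Calc.Psi_zero_vec meas_iv)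
      (fun _ _ => SN.Calc.Psi_add_vec) fun t x hx => ?_)
    · exact Complex.coe_smul t x ▸ hx.smul_vec t
    · rw [← Complex.coe_smul, ← Complex.coe_smul, SN.Calc.Psi_smul_vec _ hx]
  · obtain ⟨F, rfl, hf'⟩ := P352.H246.exists_In hf
    have := (h τ).wed hL a (x := (X' b.Q.vac : D)) (y := (X b.Q.vac : D)) (fun G hG => by
      rw [th_apply, th_apply, Completion.inner_coe, Completion.inner_coe]
      refine (tr_loc (hF.st τ) (isTest_fl G) (fun g hg => ?_) hX).trans (by rw [P352.bar_fl]; rfl)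
      obtain ⟨G', rfl, hG'⟩ := P352.H246.exists_In hg
      exact P352.sep_fl (P352.H246.wed_sep hL a hG hG')) hf'
    rw [th_apply, th_apply] at this
    rw [inner_smul_right, inner_smul_left, P352.bar_fl]
    refine (congrArg _ this).trans ?_
    simp only [map_neg, map_div₀, map_one, map_ofNat]
    rfl

end

end Vale.Agent.P352L
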