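import Vale.Agent.P352X.R.POLY
import Vale.Agent.P352X.R.ELL
import Vale.Agent.P352L.Pol

/-!
# P352L: covariant vectors and their overlaps, over the data of the vacuum representation (helper89)
-/

set_option linter.all false

open MeasureTheory Measure Set Filter Topology Metric
open scoped SchwartzMap ComplexConjugate NNReal ENNReal

namespace Vale.Agent.P352L.Two

open Vale.Agent.P352.GF Vale.Agent.P352.BW Vale.Agent.P352.H496 Vale.Agent.P352.H755
open Vale.Agent.P352.H246 (In)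
open Vale.Agent.P352X Vale.Agent.P352X.Two
open UniformSpace (Completion)
open Complex (I)

noncomputable section

/-- the vacuum representation and the calculus of the translations -/
structure Bs (D : Type*) [NormedAddCommGroup D] [InnerProductSpace ℂ D] where
  Q : Theory D
  A : (V → V) → D → D
  bt : SN.BC (fun p y : V => mdot p y) (fun y z => Ut Q y z)
  bR : Vale.Agent.P352.H15.Rep Q A
  bV : Kin.UVac Q

variable {D : Type*} [NormedAddCommGroup D] [InnerProductSpace ℂ D]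

namespace Bs

variable (c : Bs D)

abbrev Om : Completion D := om c.Q
abbrev nu (v : Completion D) : Measure V := c.bt.nu v

/-- the calculus of the translations -/
def ct : Kin.TC c.Q :=
  ⟨c.bt.toCalc, fun y v => (c.bt.Phi_ch y v).trans (Br.Ut_apply c.Q y v)⟩

theorem ae_be {v : Completion D} (hv : inner ℂ c.Om v = 0) : ∀ᵐ p ∂c.nu v, 0 < be p :=
  Kin.ae_md_pos c.bR c.ct c.bV Br.fr.ha hv

/-- distributions on test functions with compact support, with values in the Hilbert space,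
covariant under the translations, the null rotations `G_w` and the scalings -/
structure Cov2 (φ : Fn → Completion D) (x y : ℝ) : Prop where
  lin : ∀ (f g : Fn) (a : ℂ), In Set.univ f → In Set.univ g →
    φ (fun z => f z + a * g z) = φ f + a • φ g
  bd : ∀ K : Set V, IsCompact K → ∃ (m : ℕ) (C : ℝ), ∀ g : Sch, tsupport g ⊆ K →
    ‖φ (ev g)‖ ≤ C * sn m g
  tra : ∀ a f, In Set.univ f → Ut c.Q a (φ fun z => f (z + a)) = φ f
  rot : ∀ w f, In Set.univ f → Ga c.Q w (φ fun z => f (gap w z)) = φ f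
  sca : ∀ r s f, 0 < r → 0 < s → In Set.univ f →
    Usc c.Q r s (φ fun z => f (scp r s z)) = ((r ^ x * s ^ y : ℝ) : ℂ) • φ f
  perp : ∀ f, In Set.univ f → inner ℂ c.Om (φ f) = 0

end Bs

variable {c : Bs D}

section rho

/-- the two point measure -/
def rho (c : Bs D) (v : Completion D) : Measure V :=
  (c.nu v).withDensity (sq2 fun p => (ft g0 p)⁻¹)

lemma rho_fin (v : Completion D) (S : Set V) : FinOn (rho c v) S := fun K hK _ => by
  haveI : IsLocallyFiniteMeasure (rho c v) :=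
    IsLocallyFiniteMeasure.withDensity_ofReal (cont_k.norm.pow 2)
  exact hK.measure_lt_top

lemma nu_eq {v w : Completion D} {F : V → ℂ} (hF : SN.Bd F)
    (h : c.bt.Phi (ft g0) w = c.bt.Phi F v) : c.nu w = (rho c v).withDensity (sq2 F) := by
  have e := congrArg (fun u => (c.nu u).withDensity (sq2 fun p => (ft g0 p)⁻¹)) h
  simp only [Bs.nu, c.bt.nu_Phi hF, c.bt.nu_Phi (bd_ft g0_in.1)] at e
  change (withDensity _ (sq2 _)).withDensity _ = (withDensity _ (sq2 _)).withDensity _ at e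
  rw [wd_sq2 _ (bd_ft g0_in.1).1 cont_k.measurable, wd_sq2 _ hF.1 cont_k.measurable] at e
  simp only [mul_inv_cancel₀ (g0_ne _), sq2_one, withDensity_one] at e
  rw [rho, wd_sq2 _ cont_k.measurable hF.1, Bs.nu, e]
  simp only [mul_comm]

lemma nu_W {W : Completion D →L[ℂ] Completion D}
    (hW : W ∈ unitary (Completion D →L[ℂ] Completion D)) {A k : V → V} (hk : Measurable k)
    (h : ∀ y, W * Ut c.Q y = Ut c.Q (A y) * W) (hA : ∀ p y, mdot (k p) y = mdot p (A y))
    (v : Completion D) : (c.nu (W v)).map k = c.nu v :=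
  c.bt.nu_cov c.bt SN.isPair_mdot hk hA fun y => by
    rw [← ContinuousLinearMap.mul_apply (Ut c.Q (A y)), ← h, ContinuousLinearMap.mul_apply,
      inner_unitary hW]

lemma Phi_W {W : Completion D →L[ℂ] Completion D} {A k : V → V} (hk : Measurable k)
    (h : ∀ y, W * Ut c.Q y = Ut c.Q (A y) * W) (hA : ∀ p y, mdot (k p) y = mdot p (A y))
    {F : V → ℂ} (hF : SN.Bd F) (v : Completion D) :
    W (c.bt.Phi F v) = c.bt.Phi (fun p => F (k p)) (W v) :=
  c.bt.cov c.bt SN.isPair_mdot hk hA W (fun y => by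
    rw [← ContinuousLinearMap.mul_apply, h, ContinuousLinearMap.mul_apply]) hF

/-- covariance of the two point measure -/
lemma rho_map {W : Completion D →L[ℂ] Completion D}
    (hW : W ∈ unitary (Completion D →L[ℂ] Completion D)) {A k k' : V → V} {l t : ℝ}
    (hc : Conf A l) (ht : 0 < t) (hk : Measurable k) (hk' : Measurable k')
    (h : ∀ y, W * Ut c.Q y = Ut c.Q (A y) * W) (hA : ∀ p y, mdot (k p) y = mdot p (A y))
    (h1 : ∀ p, k (k' p) = p) (h2 : ∀ p, k' (k p) = p) {u v v' : Completion D}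
    (e : c.bt.Phi (ft g0) u = c.bt.Phi (ft fun z => g0 (A z)) v) (e' : W u = (t : ℂ) • v') :
    (rho c v').map k = ENNReal.ofReal (((t * l ^ 2) ^ 2)⁻¹) • rho c v := by
  have hl := hc.pos
  have a := nu_W hW hk h hA u
  have m0 := (bd_ft g0_in.1).1
  have m1 : Measurable fun p => (ft g0 (k' p))⁻¹ := cont_k.measurable.comp hk'
  rw [e', Bs.nu, c.bt.nu_smul, Measure.map_smul, nu_eq (bd_ft (Two.test_conf hc g0_in.1)) e] at a
  have b := map_wd' (ρ := c.nu v') hk (meas_sq2 m1) (g := sq2 fun p => (ft g0 p)⁻¹)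
    (c := (t ^ 2)⁻¹ * t ^ 2) (.of_forall fun p => by simp [sq2, h2, ht.ne'])
  rw [ENNReal.ofReal_mul (by positivity), mul_smul, ← withDensity_smul_measure,
    show ENNReal.ofReal (t ^ 2) • (c.nu v').map k = ‖(t : ℂ)‖₊ ^ 2 • (c.nu v').map k by
      rw [ENNReal.ofReal, ← ENNReal.smul_def]
      congr 1
      ext
      simp [Real.coe_toNNReal _ (sq_nonneg t)], a,
    wd_sq2 _ (bd_ft (Two.test_conf hc g0_in.1)).1 m1] at b
  rw [rho, b, show (sq2 fun p => ft (fun z => g0 (A z)) p * (ft g0 (k' p))⁻¹) =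
    fun _ => ENNReal.ofReal (((l ^ 2) ^ 2)⁻¹) from funext fun p => by
      rw [sq2, ft_conf hc (q := k' p) fun z => by rw [← hA, h1], mul_assoc,
        mul_inv_cancel₀ (g0_ne _), mul_one, Complex.norm_real, Real.norm_eq_abs, sq_abs, inv_pow],
    withDensity_const, smul_smul, ← ENNReal.ofReal_mul (by positivity), mul_pow, mul_inv]

/-- covariant distributions -/
structure Cv (c : Bs D) (φ : Fn → Completion D) (x y : ℝ) : Prop where
  rel : ∀ f, In univ f → c.bt.Phi (ft g0) (φ f) = c.bt.Phi (ft f) (φ g0)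
  rot : ∀ w, Ga c.Q w (φ fun z => g0 (gap w z)) = φ g0
  sca : ∀ r s, 0 < r → 0 < s →
    Usc c.Q r s (φ fun z => g0 (scp r s z)) = ((r ^ x * s ^ y : ℝ) : ℂ) • φ g0
  perp : inner ℂ c.Om (φ g0) = 0

variable {φ : Fn → Completion D} {x y : ℝ}

theorem Cv.semi (h : Cv c φ x y) : Semi (rho c (φ g0)) (-2 * y - 4) (-2 * x - 4) where
  ga w := by
    have := rho_map (Grp.uni c.bR _ _ _) (conf_gap (-w)) one_pos (meas_gap (- -w)) (meas_gap (-w))
      (Grp.ga_ut c.bR (-w)) (md_gap_l (-w)) (fun p => by simp [gap_gap])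
      (fun p => by simp [gap_gap]) (h.rel _ (in_conf (conf_gap (-w)) g0_in))
      ((h.rot (-w)).trans (by simp : φ g0 = ((1 : ℝ) : ℂ) • φ g0))
    simpa using this
  sc r s hr hs := by
    have := rho_map (Grp.uni c.bR _ _ _) (conf_scp hs hr) (t := s ^ x * r ^ y) (by positivity)
      (meas_scp r s) (meas_scp r⁻¹ s⁻¹) (fun z => Grp.sc_ut c.bR z hs hr)
      (fun p z => md_scp_l p z) (fun p => by simp [scp_scp _ hr.le hs.le, hr.ne', hs.ne'])
      (fun p => by simp [scp_scp _ (inv_pos.2 hr).le (inv_pos.2 hs).le, hr.ne', hs.ne'])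
      (h.rel _ (in_conf (conf_scp hs hr) g0_in)) (h.sca s r hs hr)
    rw [this]
    congr 2
    rw [Real.rpow_sub hr, Real.rpow_sub hs, mul_comm (-2), mul_comm (-2), Real.rpow_mul hr.le,
      Real.rpow_mul hs.le, Real.rpow_neg (by positivity), Real.rpow_neg (by positivity),
      Real.rpow_two, Real.rpow_two, show (4 : ℝ) = (4 : ℕ) by norm_num, Real.rpow_natCast,
      Real.rpow_natCast]
    field_simp

lemma rho_ae {v : Completion D} (h : inner ℂ c.Om v = 0) :
    ∀ᵐ p ∂rho c v, 0 < be p ∧ 0 ≤ mu p :=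
  withDensity_absolutelyContinuous _ _ (by
    filter_upwards [c.ae_be h, Kin.cone c.ct v] with p h1 h2 using ⟨h1, h2.2⟩)

theorem Cv.zero (h : Cv c φ x y) (hy : y < -3 / 2) {f : Fn} (hf : IsTest f) {v : Completion D}
    (e : c.bt.Phi (ft g0) v = c.bt.Phi (ft f) (φ g0)) : v = 0 := by
  have a := nu_eq (bd_ft hf) e
  rw [h.semi.zero (rho_fin _ _) (rho_ae h.perp) (by linarith), withDensity_zero_left] at a
  have := c.bt.nu_univ v
  rw [show c.bt.nu v = 0 from a] at this
  simpa using this.symm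

/-- **Classification of the two point measures.** -/
theorem Cv.cls (h : Cv c φ x y) (hy : -3 / 2 < y) :
    ∃ κ : ℝ≥0, rho c (φ g0) = κ • mm (2 * x - 2 * y) (2 * y + 2) := by
  have := h.semi.cls (rho_fin _ _) (rho_ae h.perp) (by linarith)
  rwa [show -2 * y - 4 - (-2 * x - 4) = 2 * x - 2 * y by ring,
    show -(-2 * y - 4) - 2 = 2 * y + 2 by ring] at this

/-- the basic relation for tempered translation covariant distributions -/
theorem rel_clm (Λ : Sch →L[ℂ] Completion D) {f g : Sch} {u v : Completion D}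
    (hu : ∀ y, g y ≠ 0 → Λ (ST.tsl y f) = Ut c.Q y u)
    (hv : ∀ y, f y ≠ 0 → Λ (ST.tsl y g) = Ut c.Q y v) :
    c.bt.Phi (ft (ev g)) u = c.bt.Phi (ft (ev f)) v := by
  have key : ∀ {f g : Sch} {u : Completion D}, (∀ y, g y ≠ 0 → Λ (ST.tsl y f) = Ut c.Q y u) →
      c.bt.Phi (ft (ev g)) u = Λ (ST.cnv volume g f) := fun {f g u} hu => by
    rw [(ST.clm_cnv Λ g f).2]
    refine (c.bt.smear SN.isPair_mdot continuous_id g.integrable u).2.symm.trans ?_
    refine integral_congr_ae (.of_forall fun y => ?_)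
    by_cases hy : g y = 0
    · simp [hy]
    · simp [hu y hy]
  rw [key hu, key hv, ST.cnv_comm]

end rho

section vc

variable {K : V → ℂ} {S : Set V} {v w : Completion D}

/-- the two point measure of `v / K` -/
def rk (c : Bs D) (K : V → ℂ) (v : Completion D) : Measure V :=
  (c.nu v).withDensity (sq2 fun p => (K p)⁻¹)

lemma wt_fin (h : Wt K S) (v : Completion D) : FinOn (rk c K v) S :=
  fin_wd (h.cont.inv₀ fun p _ => h.ne p)

lemma wt_nu (h : Wt K S) (v : Completion D) : c.nu v = (rk c K v).withDensity (sq2 K) := by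
  rw [rk, wd_sq2 _ (minv h.bd.1) h.bd.1]
  simp only [inv_mul_cancel₀ (h.ne _), sq2_one, withDensity_one]

lemma nu_Phi' {F : V → ℂ} (hF : SN.Bd F) (v : Completion D) :
    c.nu (c.bt.Phi F v) = (c.nu v).withDensity (sq2 F) := c.bt.nu_Phi hF v

lemma nu_real (t : ℝ) (v : Completion D) :
    c.nu ((t : ℂ) • v) = ENNReal.ofReal (t ^ 2) • c.nu v := by
  rw [Bs.nu, c.bt.nu_smul, ENNReal.ofReal, ← ENNReal.smul_def]
  congr 1
  ext
  simp [Real.coe_toNNReal _ (sq_nonneg t)]

lemma eq_zero_of_nu (h : c.nu v = 0) : v = 0 := by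
  have := c.bt.nu_univ v
  rw [show c.bt.nu v = 0 from h] at this
  simpa using this.symm

/-- `Phi K` is injective -/
lemma Phi_inj (hK : SN.Bd K) (h0 : ∀ p, K p ≠ 0) (h : c.bt.Phi K v = c.bt.Phi K w) : v = w := by
  refine sub_eq_zero.1 (eq_zero_of_nu (c := c) ?_)
  rw [← wd_inv (c.nu (v - w)) hK.1 h0, ← nu_Phi' hK, map_sub, h, sub_self, Bs.nu, c.bt.nu_zero,
    withDensity_zero_left]

lemma rk_map (hK : Wt K S) {W : Completion D →L[ℂ] Completion D}
    (hW : W ∈ unitary (Completion D →L[ℂ] Completion D)) {A k : V → V} {t : ℝ} (ht : 0 < t)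
    (hk : Measurable k) (h : ∀ y, W * Ut c.Q y = Ut c.Q (A y) * W)
    (hA : ∀ p y, mdot (k p) y = mdot p (A y))
    (e : c.bt.Phi K (W v) = (t : ℂ) • c.bt.Phi (fun p => K (k p)) v) :
    (rk c K v).map k = ENNReal.ofReal ((t ^ 2)⁻¹) • rk c K v := by
  have a := nu_W hW hk h hA v
  have b := congrArg (fun u => (c.nu u).withDensity (sq2 fun p => (K p)⁻¹)) e
  simp only [nu_real, nu_Phi' hK.bd, nu_Phi' (hK.bd.comp hk), wd_inv _ hK.bd.1 hK.ne,
    withDensity_smul_measure] at b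
  rw [wd_sq2 _ (hK.bd.comp hk).1 (minv hK.bd.1)] at b
  simp only [mul_comm (K (k _))] at b
  rw [← wd_sq2 _ (minv hK.bd.1) (hK.bd.comp hk).1] at b
  rw [b, Measure.map_smul] at a
  have m := map_wd (rk c K v) hk (meas_sq2 hK.bd.1)
  have b2 := congrArg (fun m : Measure V => m.withDensity (sq2 fun p => (K p)⁻¹)) a
  simp only [withDensity_smul_measure] at b2
  rw [show ((c.nu v).withDensity (sq2 fun p => (K p)⁻¹)).withDensity (sq2 fun p => K (k p)) =
    (rk c K v).withDensity fun p => sq2 K (k p) from rfl, m, wd_inv _ hK.bd.1 hK.ne] at b2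
  conv_rhs => rw [rk, ← b2, smul_smul, ← ENNReal.ofReal_mul (by positivity),
    inv_mul_cancel₀ (by positivity), ENNReal.ofReal_one, one_smul]

/-- `v / K` is invariant under the null rotations and homogeneous under the scalings -/
structure Vc (c : Bs D) (K : V → ℂ) (v : Completion D) (x y : ℝ) : Prop where
  ga : ∀ w, c.bt.Phi K (Ga c.Q w v) = c.bt.Phi (fun p => K (gap (-w) p)) v
  sc : ∀ r s, 0 < r → 0 < s → c.bt.Phi K (Usc c.Q r s v) =
    ((r ^ x * s ^ y : ℝ) : ℂ) • c.bt.Phi (fun p => K (scp s r p)) v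

variable {x y x' y' : ℝ}

theorem Vc.semi (h : Vc c K v x y) (hK : Wt K S) : Semi (rk c K v) (-2 * y) (-2 * x) where
  ga w := by
    have := rk_map hK (Grp.uni c.bR _ _ _) one_pos (meas_gap (- -w)) (Grp.ga_ut c.bR (-w))
      (md_gap_l (-w)) ((h.ga (-w)).trans (by simp))
    simpa using this
  sc r s hr hs := by
    rw [rk_map hK (Grp.uni c.bR _ _ _) (t := s ^ x * r ^ y) (by positivity) (meas_scp r s)
      (fun z => Grp.sc_ut c.bR z hs hr) (fun p z => md_scp_l p z) (h.sc s r hs hr)]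
    congr 2
    rw [mul_comm (-2), mul_comm (-2), Real.rpow_mul hr.le, Real.rpow_mul hs.le,
      Real.rpow_neg (by positivity), Real.rpow_neg (by positivity), Real.rpow_two, Real.rpow_two]
    field_simp

/-- the part in the open cone -/
theorem Vc.fc (h : Vc c K v x y) (hK : Wt K Fc) : ∃ κ : ℝ≥0, (c.nu v).restrict Fc =
    κ • (mm (2 * x - 2 * y) (2 * y - 2)).withDensity (sq2 K) := by
  obtain ⟨κ, e⟩ := (h.semi hK).eq_mm (wt_fin hK v)
  rw [show -2 * y - -2 * x = 2 * x - 2 * y by ring, show -(-2 * y) - 2 = 2 * y - 2 by ring] at e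
  exact ⟨κ, by rw [wt_nu hK v, restrict_withDensity meas_Fc, e]; exact withDensity_smul_measure _ _⟩

theorem Vc.low (h : Vc c K v x y) (hK : Wt K univ) (hy : y ≤ 1 / 2) :
    (c.nu v).restrict Fc = 0 := by
  rw [wt_nu hK v, restrict_withDensity meas_Fc,
    (h.semi hK).zero' (wt_fin (hK.mono (subset_univ _)) v) (by linarith), withDensity_zero_left]

theorem Vc.high (h : Vc c K v x y) (hK : Wt K univ) (hy : 1 / 2 < y) (hv : inner ℂ c.Om v = 0) :
    ∀ᵐ p ∂c.nu v, p ∈ Fc := by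
  obtain ⟨κ, e⟩ := (h.semi hK).cls (wt_fin (hK.mono (subset_univ _)) v)
    (withDensity_absolutelyContinuous _ _ (by
      filter_upwards [c.ae_be hv, Kin.cone c.ct v] with p h1 h2 using ⟨h1, h2.2⟩))
    (by linarith)
  rw [wt_nu hK v, e]
  exact ae_wd (Measure.smul_absolutelyContinuous (ae_wd (ae_fc _) _)) _

lemma Vc.add (h : Vc c K v x y) (h' : Vc c K w x y) (z : ℂ) : Vc c K (v + z • w) x y where
  ga u := by simp only [map_add, map_smul, h.ga, h'.ga]
  sc r s hr hs := by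
    simp only [map_add, map_smul, h.sc r s hr hs, h'.sc r s hr hs, smul_add]
    rw [smul_comm z]

lemma Ga_Phi (w : R2) {F : V → ℂ} (hF : SN.Bd F) (v : Completion D) :
    Ga c.Q w (c.bt.Phi F v) = c.bt.Phi (fun p => F (gap (-w) p)) (Ga c.Q w v) :=
  Phi_W (meas_gap _) (Grp.ga_ut c.bR w) (md_gap_l w) hF v

lemma Usc_Phi {r s : ℝ} (hr : 0 < r) (hs : 0 < s) {F : V → ℂ} (hF : SN.Bd F) (v : Completion D) :
    Usc c.Q r s (c.bt.Phi F v) = c.bt.Phi (fun p => F (scp s r p)) (Usc c.Q r s v) :=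
  Phi_W (meas_scp _ _) (fun z => Grp.sc_ut c.bR z hr hs) (fun p z => md_scp_l p z) hF v

/-- multiplication with homogeneous functions -/
lemma Vc.mul (h : Vc c K v x y) (hK : SN.Bd K) {M N : V → ℂ} (hN : SN.Bd N)
    (hM : SN.Bd fun p => M p * N p) (h1 : ∀ w p, M (gap w p) = M p) {a b : ℝ}
    (h2 : ∀ r s p, 0 < r → 0 < s → M (scp s r p) = (r ^ a * s ^ b : ℝ) * M p) :
    Vc c (fun p => K p * N p) (c.bt.Phi (fun p => M p * N p) v) (x + a) (y + b) where
  ga w := by
    have k := meas_gap (-w)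
    rw [Ga_Phi w hM, ← c.bt.mul_apply (hK.mul hN) (hM.comp k), ← c.bt.mul_apply
      ((hK.mul hN).comp k) hM, show (fun p => K p * N p * (M (gap (-w) p) * N (gap (-w) p))) =
        fun p => (N (gap (-w) p) * (M p * N p)) * K p from funext fun p => by rw [h1]; ring,
      c.bt.mul_apply ((hN.comp k).mul hM) hK, h.ga,
      ← c.bt.mul_apply ((hN.comp k).mul hM) (hK.comp k)]
    congr 2
    funext p
    ring
  sc r s hr hs := by
    have k := meas_scp s r
    rw [Usc_Phi hr hs hM, ← c.bt.mul_apply (hK.mul hN) (hM.comp k), ← c.bt.mul_apply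
      ((hK.mul hN).comp k) hM, show (fun p => K p * N p * (M (scp s r p) * N (scp s r p))) =
        fun p => (r ^ a * s ^ b : ℝ) * ((N (scp s r p) * (M p * N p)) * K p) from
          funext fun p => by rw [h2 r s p hr hs]; ring,
      c.bt.smul _ (((hN.comp k).mul hM).mul hK), ContinuousLinearMap.smul_apply,
      c.bt.mul_apply ((hN.comp k).mul hM) hK, h.sc r s hr hs, map_smul,
      ← c.bt.mul_apply ((hN.comp k).mul hM) (hK.comp k), smul_smul, Real.rpow_add hr,
      Real.rpow_add hs]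
    congr 1
    · push_cast; ring
    · congr 2
      funext p
      ring

/-- overlaps, equal weights -/
theorem overlap0 (h : Vc c K v x y) (h' : Vc c K w x y) (hK : Wt K Fc)
    (hv : ∀ᵐ p ∂c.nu v, p ∈ Fc) (hw : ∀ᵐ p ∂c.nu w, p ∈ Fc) : ∃ κ : ℂ, ∀ G, SN.Bd G →
      inner ℂ v (c.bt.Phi G w) =
        κ * ∫ p, G p ∂(mm (2 * x - 2 * y) (2 * y - 2)).withDensity (sq2 K) := by
  have key : ∀ z : ℂ, ∃ κ : ℝ≥0, ∀ G, SN.Bd G → inner ℂ (v + z • w) (c.bt.Phi G (v + z • w)) =
      κ * ∫ p, G p ∂(mm (2 * x - 2 * y) (2 * y - 2)).withDensity (sq2 K) := fun z => by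
    obtain ⟨κ, e⟩ := (h.add h' z).fc hK
    rw [restrict_eq_self_of_ae_mem (SN.Calc.ae_add hv (SN.Calc.ae_smul z hw))] at e
    refine ⟨κ, fun G hG => ?_⟩
    rw [c.bt.inner hG, show c.bt.nu (v + z • w) = _ from e, integral_smul_nnreal_measure]
    simp [NNReal.smul_def]
  choose κ hκ using key
  refine ⟨(κ 1 - κ (-1) - I * κ I + I * κ (-I)) / 4, fun G hG => ?_⟩
  have a1 := hκ 1 G hG
  have a2 := hκ (-1) G hG
  have a3 := hκ I G hG
  have a4 := hκ (-I) G hG
  simp only [map_add, map_smul, inner_add_left, inner_add_right, inner_smul_left, inner_smul_right,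
    map_one, map_neg, Complex.conj_I] at a1 a2 a3 a4
  linear_combination (a1 - a2 - I * a3 + I * a4) / 4 +
    (inner ℂ v (c.bt.Phi G w) - inner ℂ w (c.bt.Phi G v)) / 2 * Complex.I_sq

/-- removal of a weight -/
theorem lift {m : Measure V} {R F : V → ℂ} (hR : SN.Bd R) (hF : Integrable F m)
    (h : ∀ G, SN.Bd G → inner ℂ v (c.bt.Phi (fun p => G p * R p) w) = ∫ p, G p * R p * F p ∂m)
    (h1 : ∀ᵐ p ∂c.nu v, R p ≠ 0) (h2 : ∀ᵐ p ∂m, R p ≠ 0) {G : V → ℂ} (hG : SN.Bd G) :
    inner ℂ v (c.bt.Phi G w) = ∫ p, G p * F p ∂m := by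
  obtain ⟨C, hC0, hC⟩ := hG.nonneg_bound
  let A : ℕ → Set V := fun n => {p | 1 / ((n : ℝ) + 1) ≤ ‖R p‖}
  have hA : ∀ n, MeasurableSet (A n) := fun n => measurableSet_le measurable_const hR.1.norm
  have e : ∀ n, inner ℂ (c.bt.Phi (fun p => conj ((A n).indicator G p)) v) w =
      ∫ p, (A n).indicator G p * F p ∂m := fun n => by
    have e1 : ∀ p, (A n).indicator (fun p => G p / R p) p * R p = (A n).indicator G p := fun p => by
      by_cases hp : p ∈ A n
      · have : R p ≠ 0 := norm_pos_iff.1 (lt_of_lt_of_le (by positivity) hp)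
        simp [hp, this]
      · simp [hp]
    have := h ((A n).indicator fun p => G p / R p) ⟨(hG.1.div hR.1).indicator (hA n), C * (n + 1),
      fun p => by
        by_cases hp : p ∈ A n
        · rw [indicator_of_mem hp, norm_div, div_le_iff₀ (lt_of_lt_of_le (by positivity) hp)]
          have : 1 ≤ ((n : ℝ) + 1) * ‖R p‖ := (div_le_iff₀' (by positivity)).1 hp
          nlinarith [hC p]
        · rw [indicator_of_notMem hp, norm_zero]
          positivity⟩
    simp only [e1] at this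
    rw [← this, c.bt.adj' (hG.indicator (hA n))]
  have lim : ∀ p, R p ≠ 0 → Tendsto (fun n => (A n).indicator G p) atTop (𝓝 (G p)) := fun p hp =>
    tendsto_const_nhds.congr' (((tendsto_one_div_add_atTop_nhds_zero_nat (𝕜 := ℝ)).eventually
      (eventually_le_nhds (norm_pos_iff.2 hp))).mono fun n hn => (indicator_of_mem (show p ∈ A n from hn) G).symm)
  have bd : ∀ n p, ‖(A n).indicator G p‖ ≤ C := fun n p =>
    (norm_indicator_le_norm_self _ _).trans (hC p)
  have t1 := (c.bt.tendsto_Phi (fun n => (hG.indicator (hA n)).cj) hG.cj (K := C) (v := v)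
    (.of_forall fun n => .of_forall fun p => by simpa using bd n p)
    (h1.mono fun p hp => (Complex.continuous_conj.tendsto _).comp (lim p hp))).inner
    (𝕜 := ℂ) (tendsto_const_nhds (x := w))
  have t2 := tendsto_integral_of_dominated_convergence (μ := m)
    (F := fun n p => (A n).indicator G p * F p) (f := fun p => G p * F p) (fun p => C * ‖F p‖)
    (fun n => (hG.indicator (hA n)).1.aestronglyMeasurable.mul hF.1) (hF.norm.const_mul C)
    (fun n => .of_forall fun p => by rw [norm_mul]; gcongr; exact bd n p)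
    (h2.mono fun p hp => (lim p hp).mul_const _)
  rw [c.bt.adj' hG]
  exact tendsto_nhds_unique t1 (by simpa only [e] using t2)

lemma int_dn (hK : Measurable K) {a b : ℝ} {κ : ℝ≥0}
    (e : (c.nu v).restrict Fc = κ • (mm a b).withDensity (sq2 K)) (h : (c.nu v).restrict Fc ≠ 0) :
    IntegrableOn (dn K a b) Fc := by
  have hk : (κ : ℝ≥0∞) ≠ 0 := fun hz => h (by rw [e, ENNReal.coe_eq_zero.1 hz, zero_smul])
  refine ⟨(meas_dn hK a b).aestronglyMeasurable,
    (hasFiniteIntegral_iff_ofReal ((ae_fc _).mono fun p => dn_nonneg K a b)).2 ?_⟩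
  have := measure_lt_top ((c.nu v).restrict Fc) univ
  rw [e, mm_wd hK, Measure.smul_apply, withDensity_apply _ MeasurableSet.univ, restrict_univ,
    ENNReal.smul_def, smul_eq_mul] at this
  exact (ENNReal.mul_lt_top_iff.1 this).elim And.right fun h => h.elim (fun h => (hk h).elim)
    fun h => h ▸ ENNReal.zero_lt_top

lemma Vc.pfc (h : Vc c K v x y) (hK : SN.Bd K) : Vc c K (c.bt.P Fc v) x y := by
  have := h.mul hK (M := Fc.indicator fun _ => 1) (N := fun _ => 1) (.const 1)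
    (by simpa using SN.Bd.ind meas_Fc) (fun w p => by by_cases hp : p ∈ Fc <;> simp [hp, Fc_gap]) (a := 0)
    (b := 0) fun r s p hr hs => by by_cases hp : p ∈ Fc <;> simp [hp, Fc_scp hs hr]
  simpa [SN.Calc.P] using this

/-- **overlaps of covariant vectors** -/
theorem overlap' (h : Vc c K v x y) (h' : Vc c K w x' y') (hK : Wt K Fc)
    (hv : ∀ᵐ p ∂c.nu v, p ∈ Fc) : ∃ κ : ℂ,
      (κ ≠ 0 → (c.nu v).restrict Fc ≠ 0 ∧ (c.nu w).restrict Fc ≠ 0) ∧
      IntegrableOn (fun p => κ * dn K (x + x' - y - y') (y + y' - 2) p) Fc ∧ ∀ G, SN.Bd G →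
      inner ℂ v (c.bt.Phi G w) = ∫ p in Fc, G p * (κ * dn K (x + x' - y - y') (y + y' - 2) p) := by
  have pv : c.bt.P Fc v = v := (SN.Calc.P_eq_self meas_Fc).2 hv
  have red : ∀ G, SN.Bd G → inner ℂ v (c.bt.Phi G w) = inner ℂ v (c.bt.Phi G (c.bt.P Fc w)) :=
    fun G hG => by
      rw [SN.Calc.P, c.bt.comm hG (.ind meas_Fc), ← SN.Calc.P, ← SN.Calc.P_adj meas_Fc, pv]
  by_cases h0 : (c.nu v).restrict Fc = 0 ∨ (c.nu w).restrict Fc = 0
  · refine ⟨0, fun h => (h rfl).elim, by simp, fun G hG => ?_⟩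
    rcases h0 with h0 | h0
    · simp [eq_zero_of_nu ((restrict_eq_self_of_ae_mem hv).symm.trans h0)]
    · simp [red G hG, eq_zero_of_nu ((SN.Calc.nu_P meas_Fc w).trans h0)]
  push Not at h0
  have hF := hK
  obtain ⟨κ1, e1⟩ := h.fc hF
  obtain ⟨κ2, e2⟩ := h'.fc hF
  have i1 := int_dn hK.bd.1 e1 h0.1
  have i2 := int_dn hK.bd.1 e2 h0.2
  have i3 : IntegrableOn (dn K (x + x' - y - y') (y + y' - 2)) Fc := by
    refine (i1.add i2).mono' (meas_dn hK.bd.1 _ _).aestronglyMeasurable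
      ((ae_fc _).mono fun p hp => ?_)
    obtain ⟨h1, h2⟩ := (mem_Fc p).1 hp
    rw [Real.norm_of_nonneg (dn_nonneg _ _ _ hp), Pi.add_apply, dn, dn, dn, ← mul_add,
      show x + x' - y - y' = (x - y) + (x' - y') by ring,
      show y + y' - 2 = (y - 1) + (y' - 1) by ring, show 2 * x - 2 * y = (x - y) * 2 by ring,
      show 2 * x' - 2 * y' = (x' - y') * 2 by ring, show 2 * y - 2 = (y - 1) * 2 by ring,
      show 2 * y' - 2 = (y' - 1) * 2 by ring]
    simp only [Real.rpow_add h1, Real.rpow_add h2, Real.rpow_mul h1.le, Real.rpow_mul h2.le,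
      Real.rpow_two]
    gcongr
    have := mul_nonneg (mul_nonneg (Real.rpow_nonneg h1.le (x - y)) (Real.rpow_nonneg h2.le (y - 1)))
      (mul_nonneg (Real.rpow_nonneg h1.le (x' - y')) (Real.rpow_nonneg h2.le (y' - 1)))
    nlinarith [sq_nonneg (be p ^ (x - y) * mu p ^ (y - 1) - be p ^ (x' - y') * mu p ^ (y' - 1))]
  let M0 : V → ℝ := Fc.indicator fun p => be p ^ (x' - y' - x + y) * mu p ^ (y' - y)
  have hm : Measurable M0 := Measurable.indicator (by fun_prop) meas_Fc
  have M1 : ∀ p ∈ Fc, 0 < M0 p := fun p hp => by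
    obtain ⟨h1, h2⟩ := (mem_Fc p).1 hp
    simp only [M0, indicator_of_mem hp]
    positivity
  have M2 : ∀ p, 0 ≤ M0 p := fun p => by
    by_cases hp : p ∈ Fc
    · exact (M1 p hp).le
    · simp [M0, hp]
  have hN : SN.Bd fun p => (((1 + M0 p)⁻¹ : ℝ) : ℂ) := .ofReal (by fun_prop) (C := 1) fun p => by
    rw [abs_of_pos (by have := M2 p; positivity)]
    exact inv_le_one_of_one_le₀ (by linarith [M2 p])
  have hM : SN.Bd fun p => (M0 p : ℂ) * (((1 + M0 p)⁻¹ : ℝ) : ℂ) := by
    simp only [← Complex.ofReal_mul]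
    refine .ofReal (by fun_prop) (C := 1) fun p => ?_
    have := M2 p
    rw [abs_of_nonneg (by positivity), mul_inv_le_iff₀ (by positivity)]
    linarith
  have hW : Wt (fun p => (((1 + M0 p)⁻¹ : ℝ) : ℂ)) Fc := ⟨hN, fun p => by
    have := M2 p
    exact Complex.ofReal_ne_zero.2 (by positivity), Complex.continuous_ofReal.comp_continuousOn
      (ContinuousOn.inv₀ (continuousOn_const.add (ContinuousOn.congr
        (((by fun_prop : Continuous be).continuousOn.rpow_const fun p hp =>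
          .inl ((mem_Fc p).1 hp).1.ne').mul
        ((by fun_prop : Continuous mu).continuousOn.rpow_const fun p hp =>
          .inl ((mem_Fc p).1 hp).2.ne')) fun p hp => indicator_of_mem hp _))
        fun p _ => by have := M2 p; positivity)⟩
  have a1 := h.mul hK.bd hN hM (fun w p => by
      by_cases hp : p ∈ Fc <;> simp [M0, hp, Fc_gap, mu_gap])
    (a := x' - x) (b := y' - y) fun r s p hr hs => by
      by_cases hp : p ∈ Fc
      · obtain ⟨h1, h2⟩ := (mem_Fc p).1 hp
        simp only [M0, indicator_of_mem hp, indicator_of_mem ((Fc_scp hs hr).2 hp), be_scp,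
          mu_scp hs hr, Real.mul_rpow hr.le h1.le, Real.mul_rpow (mul_pos hs hr).le h2.le,
          Real.mul_rpow hs.le hr.le, ← Complex.ofReal_mul]
        rw [show r ^ (x' - x) = r ^ (x' - y' - x + y) * r ^ (y' - y) by
          rw [← Real.rpow_add hr]; congr 1; ring]
        congr 1
        ring
      · simp [M0, hp, Fc_scp hs hr]
  have a2 := (h'.pfc hK.bd).mul hK.bd (M := fun _ => 1) hN (by simpa using hN) (fun _ _ => rfl)
    (a := 0) (b := 0) fun r s p hr hs => by simp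
  simp only [add_sub_cancel, add_zero, one_mul] at a1 a2
  obtain ⟨κ, e⟩ := overlap0 a1 a2 (hF.mul hW) (c.bt.nu_Phi_ac hM v hv)
    (c.bt.nu_Phi_ac hN _ (by rw [SN.Calc.nu_P meas_Fc]; exact ae_fc _))
  have i4 : IntegrableOn (fun p => κ * dn K (x + x' - y - y') (y + y' - 2) p) Fc :=
    i3.ofReal.const_mul κ
  refine ⟨κ, fun _ => h0, i4, fun G hG => (red G hG).trans ?_⟩
  have hne : ∀ p ∈ Fc, (M0 p : ℂ) * (((1 + M0 p)⁻¹ : ℝ) : ℂ) * (((1 + M0 p)⁻¹ : ℝ) : ℂ) ≠ 0 :=
    fun p hp => mul_ne_zero (mul_ne_zero (Complex.ofReal_ne_zero.2 (M1 p hp).ne') (hW.ne p))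
      (hW.ne p)
  refine lift (hM.mul hN) i4 (fun G hG => ?_) (hv.mono hne) ((ae_fc _).mono hne) hG
  have := e G hG
  rw [c.bt.adj hM, ← c.bt.mul_apply hG hN, ← c.bt.mul_apply hM.cj (hG.mul hN),
    integral_mm (hF.mul hW).bd.1, ← integral_const_mul] at this
  refine Eq.trans (by congr 3; funext p; simp; ring) (this.trans ?_)
  refine integral_congr_ae ((ae_fc _).mono fun p hp => ?_)
  obtain ⟨h1, h2⟩ := (mem_Fc p).1 hp
  simp only [dn, norm_mul, Complex.norm_real, Real.norm_eq_abs, mul_pow, sq_abs]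
  rw [show 2 * x' - 2 * y' = (x' - y' - x + y) + (x + x' - y - y') by ring,
    show 2 * y' - 2 = (y' - y) + (y + y' - 2) by ring, Real.rpow_add h1, Real.rpow_add h2]
  simp only [M0, indicator_of_mem hp]
  push_cast
  ring

theorem overlap (h : Vc c K v x y) (h' : Vc c K w x' y') (hK : Wt K univ)
    (hv : ∀ᵐ p ∂c.nu v, p ∈ Fc) : ∃ κ : ℂ, (κ ≠ 0 → 1 / 2 < y ∧ 1 / 2 < y') ∧
      IntegrableOn (fun p => κ * dn K (x + x' - y - y') (y + y' - 2) p) Fc ∧ ∀ G, SN.Bd G →
      inner ℂ v (c.bt.Phi G w) = ∫ p in Fc, G p * (κ * dn K (x + x' - y - y') (y + y' - 2) p) :=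
  (overlap' h h' (hK.mono (subset_univ Fc)) hv).imp fun κ e => ⟨fun h0 =>
    ⟨lt_of_not_ge fun hy => (e.1 h0).1 (h.low hK hy),
      lt_of_not_ge fun hy => (e.1 h0).2 (h'.low hK hy)⟩, e.2⟩

end vc

section zc

variable {φ φ' : Fn → Completion D} {x y : ℝ}

/-- local extension to Schwartz space -/
lemma cov2_loc (h : c.Cov2 φ x y) {K : Set V} (hK : IsCompact K) :
    ∃ Λ : Sch →L[ℂ] Completion D, ∀ g : Sch, (∀ z ∉ K, g z = 0) → Λ g = φ (ev g) := by
  obtain ⟨χ, h1, -, h2, -⟩ := Ap.ex_chi hK isOpen_univ (subset_univ _)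
  have hd := Ap.dc_cx h1
  have ht := Ap.cs_temp hd
  let M : Sch →L[ℂ] Sch := SchwartzMap.smulLeftCLM ℂ fun z => (χ z : ℂ)
  have hM : ∀ g z, M g z = χ z * g z := fun g z => SchwartzMap.smulLeftCLM_apply_apply ht g z
  have hs : ∀ g, tsupport (M g) ⊆ tsupport χ := fun g =>
    Ap.tsupp_of_zero fun z hz => by simp [hM, hz]
  have hi : ∀ g, In univ (ev (M g)) := fun g =>
    ⟨⟨_, rfl⟩, h1.2.of_isClosed_subset (isClosed_tsupport _) (hs g), subset_univ _⟩
  have lin : ∀ (f g : Sch) (a : ℂ), φ (ev (M (f + a • g))) = φ (ev (M f)) + a • φ (ev (M g)) :=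
    fun f g a => by
      rw [← h.lin _ _ a (hi f) (hi g), map_add, map_smul]
      rfl
  have h0 : φ (ev (M 0)) = 0 := by simpa using lin 0 0 1
  let L : Sch →ₗ[ℂ] Completion D :=
    { toFun := fun g => φ (ev (M g))
      map_add' := fun f g => by simpa using lin f g 1
      map_smul' := fun a g => by simpa only [h0, zero_add, RingHom.id_apply] using lin 0 g a }
  obtain ⟨m, C, hC⟩ := h.bd _ h1.2
  have hc : Continuous L := continuous_of_continuousAt_zero L (by
    rw [ContinuousAt, map_zero]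
    refine squeeze_zero_norm (fun g => hC (M g) (hs g)) ?_
    simp only [Api4.sn_eq]
    simpa using (((ST.continuous_sn m).comp M.continuous).tendsto 0).const_mul C)
  refine ⟨⟨L, hc⟩, fun g hg => congrArg (fun u => φ (ev u)) (SchwartzMap.ext fun z => ?_)⟩
  by_cases hz : z ∈ K
  · rw [hM, (h2 z hz).self_of_nhds, Complex.ofReal_one, one_mul]
  · rw [hM, hg z hz, mul_zero]

lemma cov2_rel (h : c.Cov2 φ x y) {f g : Fn} (hf : In univ f) (hg : In univ g) :
    c.bt.Phi (ft g) (φ f) = c.bt.Phi (ft f) (φ g) := by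
  obtain ⟨Λ, hΛ⟩ := cov2_loc h (hf.2.1.isCompact.add hg.2.1.isCompact)
  obtain ⟨f, rfl⟩ := hf.1
  obtain ⟨g, rfl⟩ := hg.1
  have tr : ∀ (u : Sch) (y : V), In univ (ev u) → φ (ev (ST.tsl y u)) = Ut c.Q y (φ (ev u)) :=
    fun u y hu => by
      rw [← h.tra y _ (show In univ (ev (ST.tsl y u)) from
        in_iff.2 (Api4.dc_sub_const (in_iff.1 hu) y))]
      simp [ev, ST.tsl_apply]
  refine rel_clm Λ (fun y hy => (hΛ _ fun z hz => by_contra fun h0 => hz ?_).trans (tr f y hf))
    fun y hy => (hΛ _ fun z hz => by_contra fun h0 => hz ?_).trans (tr g y hg)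
  · exact ⟨z - y, subset_tsupport _ h0, y, subset_tsupport _ hy, sub_add_cancel z y⟩
  · exact ⟨y, subset_tsupport _ hy, z - y, subset_tsupport _ h0, add_sub_cancel y z⟩

lemma cov2_cv (h : c.Cov2 φ x y) : Cv c φ x y :=
  ⟨fun _ hf => cov2_rel h hf g0_in, fun w => h.rot w _ g0_in,
    fun r s hr hs => h.sca r s _ hr hs g0_in, h.perp _ g0_in⟩

theorem Cv.vc (h : Cv c φ x y) : Vc c (ft g0) (φ g0) (x + 2) (y + 2) where
  ga w := by
    have b := wt_g0.bd
    have e := congrArg (Ga c.Q w) (h.rel _ (in_conf (conf_gap w) g0_in))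
    rw [Ga_Phi w b, h.rot, Ga_Phi w (bd_ft (Two.test_conf (conf_gap w) g0_in.1))] at e
    simpa [ft_gap, gap_gap] using e.symm
  sc r s hr hs := by
    have b := wt_g0.bd
    have e := congrArg (Usc c.Q r s) (h.rel _ (in_conf (conf_scp hr hs) g0_in))
    rw [Usc_Phi hr hs b, h.sca r s hr hs,
      Usc_Phi hr hs (bd_ft (Two.test_conf (conf_scp hr hs) g0_in.1)), map_smul] at e
    simp only [ft_scp hr hs, scp_scp _ (inv_pos.2 hs).le (inv_pos.2 hr).le, inv_mul_cancel₀ hr.ne',
      inv_mul_cancel₀ hs.ne', scp_one] at e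
    rw [c.bt.smul _ b, ContinuousLinearMap.smul_apply] at e
    rw [show ((r ^ (x + 2) * s ^ (y + 2) : ℝ) : ℂ) = ((r * s) ^ 2 : ℝ) * (r ^ x * s ^ y : ℝ) by
      rw [Real.rpow_add hr, Real.rpow_add hs, Real.rpow_two, Real.rpow_two]; push_cast; ring,
      mul_smul, e, smul_smul, ← Complex.ofReal_mul, mul_inv_cancel₀ (by positivity),
      Complex.ofReal_one, one_smul]

/-- from the reference vectors to all test functions -/
theorem transfer {v w v' w' : Completion D} {m : Measure V} {K F F' H : V → ℂ} (hK : SN.Bd K)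
    (h0 : ∀ p, K p ≠ 0) (hF : SN.Bd F) (hF' : SN.Bd F') (e : c.bt.Phi K v' = c.bt.Phi F v)
    (e' : c.bt.Phi K w' = c.bt.Phi F' w)
    (h : ∀ G, SN.Bd G → inner ℂ v (c.bt.Phi G w) = ∫ p, G p * (conj (K p) * K p * H p) ∂m)
    (hi : Integrable (fun p => H p * (conj (F p) * F' p)) m) {G : V → ℂ} (hG : SN.Bd G) :
    inner ℂ v' (c.bt.Phi G w') = ∫ p, G p * (H p * (conj (F p) * F' p)) ∂m := by
  have hne : ∀ p, conj (K p) * K p ≠ 0 := fun p => mul_ne_zero (by simpa using h0 p) (h0 p)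
  refine lift (hK.cj.mul hK) hi (fun G hG => ?_) (.of_forall hne) (.of_forall hne) hG
  rw [show (fun p => G p * (conj (K p) * K p)) = fun p => conj (K p) * (G p * K p) from
    funext fun p => by ring, c.bt.mul_apply hK.cj (hG.mul hK), ← c.bt.adj hK, e,
    c.bt.mul_apply hG hK, e', c.bt.adj hF, ← c.bt.mul_apply hG hF',
    ← c.bt.mul_apply hF.cj (hG.mul hF'), h _ (hF.cj.mul (hG.mul hF'))]
  exact integral_congr_ae (.of_forall fun p => by ring)

theorem zc_zer (h : c.Cov2 φ x y) (hy : y < -3 / 2) {f : Fn} (hf : In univ f) : φ f = 0 :=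
  (cov2_cv h).zero hy hf.1 (cov2_rel h hf g0_in)

theorem zc_cls (h : c.Cov2 φ (-1) (-1)) (h' : c.Cov2 φ' (-1) (-1)) : ∃ κ : ℂ, ∀ f f', In univ f →
    In univ f' → inner ℂ (φ f) (φ' f') = κ * ∫ p in Fc, conj (ft f p) * ft f' p := by
  have a := (cov2_cv h).vc
  obtain ⟨κ, -, -, e⟩ := overlap a (cov2_cv h').vc wt_g0
    (a.high wt_g0 (by norm_num) (h.perp _ g0_in))
  refine ⟨κ, fun f f' hf hf' => ?_⟩
  have := transfer (H := fun _ => κ) wt_g0.bd g0_ne (bd_ft hf.1) (bd_ft hf'.1)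
    (cov2_rel h hf g0_in) (cov2_rel h' hf' g0_in) (fun G hG => (e G hG).trans
      (integral_congr_ae (.of_forall fun p => by
        simp only [SN.conj_mul_self, dn]; norm_num [mul_comm])))
    ((SN.integrable_conj_mul (memLp_ft hf.1 Fc) (memLp_ft hf'.1 Fc)).const_mul κ) (.const 1)
  simpa [c.bt.one, integral_const_mul] using this

end zc

end

end Vale.Agent.P352L.Two
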