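import Vale.Agent.P352X.R.LIE
import Vale.Agent.P352X.R.KER
import Vale.Agent.P352X.R.NULL
import Vale.Agent.P352X.R.GFF
import Vale.Agent.P352X.R.UQ
import Vale.Agent.P352X.R.SYM
import Vale.Agent.P352L.R.GRP
import Vale.Agent.P352L.R.GEN
import Vale.Agent.P352L.R.BAS
import Vale.Agent.P352L.R.JC
import Vale.Agent.P352L.R.CH

/-!
# P352L: levels 0 and 1 hold for every context
-/

set_option linter.all false

namespace Vale.Agent.P352L

variable {D : Type*} [NormedAddCommGroup D] [InnerProductSpace ℂ D]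

theorem t0_thm (c : Ctx D) : T0 c :=
  ⟨P352X.lie_row, P352X.ker_row, P352X.null_row, P352X.gff_row, P352X.uq_row, P352X.sym_row,
    grp_row c⟩

theorem t1_thm (c : Ctx D) : T1 c :=
  have t := t0_thm c
  ⟨t, gen_row c t, bas_row c t, jc_row c t, ch_row c t⟩

end Vale.Agent.P352L
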