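import Vale.Agent.P352L.W1
import Vale.Agent.P352L.Two0
import Vale.Agent.P352L.R.KD
import Vale.Agent.P352L.R.GOOD
import Vale.Agent.P352L.R.F2
import Vale.Agent.P352L.R.PW
import Vale.Agent.P352L.R.MIR
import Vale.Agent.P352L.R.KT
import Vale.Agent.P352L.R.WK
import Vale.Agent.P352L.R.A2

/-!
# P352L: the tools that keep their form hold for every context
-/

set_option linter.all false

namespace Vale.Agent.P352L

variable {D : Type*} [NormedAddCommGroup D] [InnerProductSpace ℂ D]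

theorem zc_thm (c : Base D) : ZC c :=
  let b : Two.Bs D := ⟨c.Q, c.A, c.bt, c.bR, c.bV⟩
  have e : ∀ {φ x y}, c.Cov2 φ x y → b.Cov2 φ x y := fun h =>
    ⟨h.lin, h.bd, h.tra, h.rot, h.sca, h.perp⟩
  ⟨fun _ _ _ h hy _ hf => Two.zc_zer (e h) hy hf, fun _ _ h h' => Two.zc_cls (e h) (e h')⟩

theorem ta_row (c : Ctx D) : TA c :=
  have t := t1_thm c
  have a : All T1 c := fun _ => t1_thm _
  ⟨t, zc_thm _, kd_row c t, good_row c t, f2_row c a, pw_row c a, pwg_row c a, mir_row c a,
    kt_row c t, wk_row c, a2_row c t⟩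

end Vale.Agent.P352L
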