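import Vale.Agent.P352L.CK.Fld
import Vale.Agent.P352L.Slot
import Vale.Agent.P352L.Z.El
import Vale.Agent.P352X.Api2d

/-!
# P352L: the field `W` and the products with legs `W`
-/

set_option linter.all false

open MeasureTheory Filter Topology
open scoped ContDiff SchwartzMap

namespace Vale.Agent.P352L

open Vale.Agent.P352X
open Vale.Agent.P352 Vale.Agent.P352.GF Vale.Agent.P352.BW Vale.Agent.P352.H246
open Vale.Agent.P352.H496 Vale.Agent.P352.H755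
open UniformSpace (Completion)
open Complex (I)
open CK

noncomputable section

variable {D : Type*} [NormedAddCommGroup D] [InnerProductSpace ℂ D] {c : Ctx D} {f g : Fn}
  {s r : ℝ} {L : Ix → V}

namespace Wa

/-! ## the field -/

theorem Wf_sum (F : Sch) (v : D) :
    c.Wf (ev F) v = ∑ I : I2, c.T I.1 I.2 (ev (hD i0 I F)) v := by
  simp only [Ctx.Wf, Tf_eq, ev_hD]

theorem Wv_sum (F : Sch) : c.Wv (ev F) =
    ∑ I : I2, ((c.T I.1 I.2 (ev (hD i0 I F)) c.Q.vac : D) : Completion D) := by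
  rw [Ctx.Wv, Wf_sum]
  exact map_sum (Completion.toComplL (𝕜 := ℂ)) _ _

theorem Thf_eq (hf : IsTest f) (v : D) : c.Thf f v = c.Tf (fun m n x => (gm (m, n) : ℂ) * f x) v := by
  simp only [Ctx.Tf, P352X.Grp.fld_smul (T_fld c _ _) _ hf, Ctx.Thf, GF.tr]
  simp [gm, bas, apply_ite Complex.ofReal, ite_smul]

theorem Wf_eq (hf : IsTest f) (v : D) :
    c.Wf f v = c.Thf (Z.daa f) v + (3 : ℂ) • c.Tf (hk va va (box f)) v := by
  have d := Ap.test_dv va (Ap.test_dv va hf)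
  rw [Thf_eq d, ← Tf_lin 3 (fun _ _ => Ap.sw_cmul _ d) (tsT_hk (Ap.test_box hf) _ _), Ctx.Wf]
  congr 1
  funext m n x
  simp only [hW, hk, la]
  push_cast
  ring

theorem Wv_eq (hf : IsTest f) : c.Wv f = c.Th (Z.daa f) + (3 : ℂ) • c.Tv (hk va va (box f)) := by
  rw [Ctx.Wv, Wf_eq hf, Completion.coe_add, Completion.coe_smul]
  rfl

/-- `f ↦ W(f) v` -/
def WL (c : Ctx D) (v : D) : Sch →L[ℂ] Completion D := TL c v ∘L hWS

theorem WL_apply (v : D) (F : Sch) : WL c v F = (c.Wf (ev F) v : D) := by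
  rw [WL, ContinuousLinearMap.comp_apply, TL_apply, evT_hWS, Ctx.Wf]

theorem WL_vac (F : Sch) : WL c c.Q.vac F = c.Wv (ev F) := WL_apply _ F

theorem WL_sch (hf : IsTest f) : WL c c.Q.vac (sch f) = c.Wv f := by rw [WL_vac, Ap.ev_sch hf]

theorem Wv_smul (a : ℂ) (hf : IsTest f) : c.Wv (fun x => a * f x) = a • c.Wv f := by
  rw [← WL_sch hf, ← WL_sch (Ap.sw_cmul a hf), Ap.sch_cmul a hf, map_smul]

theorem Wv_sub (hf : IsTest f) (hg : IsTest g) : c.Wv (fun x => f x - g x) = c.Wv f - c.Wv g := by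
  rw [← WL_sch hf, ← WL_sch hg, ← WL_sch (Ap.sw_sub hf hg), Ap.sch_sub hf hg, map_sub]

theorem Wv_bd : ∃ (m : ℕ) (C : ℝ), 0 ≤ C ∧ ∀ F : Sch, ‖c.Wv (ev F)‖ ≤ C * sn m F := by
  simpa only [WL_vac] using norm_clm (WL c c.Q.vac)

theorem afs_W (G : GRP c) {O : Set V} (hf : In O f) : T.Afs (c.N O) (c.Wf f) (c.Wf (bar f)) := by
  have := G.afft O _ (inT_hW hf)
  rwa [show (fun m n => bar (hW f m n)) = _ from barT_hW hf.1] at this

theorem pr_W (G : GRP c) {O : Set V} (hf : In O f) : Pr (c.N O) c.Om (c.Wv f) (c.Wv (bar f)) :=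
  .of_afs (afs_W G hf) _

/-! ## covariance -/

theorem cp_sim (hs : 0 < s) (hL : IsLor L) (a : V) (F : Sch) :
    ev (cp (conf_sim hs hL).cle a F) = fun x => ev F (sim s L a x) :=
  funext fun x => (cp_apply _ _ _ _).trans (congrArg F (sim_zero a x).symm)

theorem Wf_cov0 (hs : 0 < s) (hL : IsLor L) (hr : sim s L 0 va = r • va) (a : V) (hf : IsTest f)
    (v : D) : c.Q.U s L a (c.Wf (fun x => f (sim s L a x)) v) =
      ((r ^ 2 : ℝ) : ℂ) • (c.sh (Real.log s)).Wf f (c.Q.U s L a v) := by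
  obtain ⟨F, rfl⟩ := hf
  have e : ∀ (K : I2) (G : Sch), c.T K.1 K.2 (ev G) v = Grp.fC (T_fld c K.1 K.2) v G :=
    fun _ _ => rfl
  rw [← cp_sim hs hL, Wf_sum, Wf_sum]
  simp only [fun m n G => c.covT m n s L a (ev G) v hs hL ⟨G, rfl⟩]
  simp only [← cp_sim hs hL,
    hD_sim (e := i0) (e' := i0) (A := (conf_sim hs hL).cle) hs hL hr (fun _ => rfl), e,
    ← ueI_apply hs hL, map_sum, map_smul, Finset.smul_sum]
  rw [Finset.sum_comm]
  refine Finset.sum_congr rfl fun I _ => ?_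
  rw [Fintype.sum_prod_type]
  simp only [L2, Complex.ofReal_mul]
  rfl

/-- `W` is exactly covariant under the similitudes that fix the direction `a` -/
theorem Wf_cov (w : WX c) (hs : 0 < s) (hL : IsLor L) (hr : sim s L 0 va = r • va) (a : V)
    (hf : IsTest f) (v : D) : c.Q.U s L a (c.Wf (fun x => f (sim s L a x)) v) =
      ((r ^ 2 : ℝ) : ℂ) • c.Wf f (c.Q.U s L a v) := by rw [Wf_cov0 hs hL hr a hf, Wf_sh w _ hf]

theorem Wf_cov1 (hL : IsLor L) (hr : sim 1 L 0 va = r • va) (a : V) (hf : IsTest f) (v : D) :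
    c.Q.U 1 L a (c.Wf (fun x => f (sim 1 L a x)) v) =
      ((r ^ 2 : ℝ) : ℂ) • c.Wf f (c.Q.U 1 L a v) := by
  rw [Wf_cov0 one_pos hL hr a hf, c.sh_log_one]

theorem Wv_ug (G : GRP c) (w : WX c) (hs : 0 < s) (hL : IsLor L) (hr : sim s L 0 va = r • va)
    (a : V) (hf : IsTest f) :
    Ug c.Q s L a (c.Wv fun x => f (sim s L a x)) = ((r ^ 2 : ℝ) : ℂ) • c.Wv f := by
  rw [Ctx.Wv, G.coe _ _ _ _ hs hL, Wf_cov w hs hL hr a hf, c.Q.U_vac _ _ _ hs hL,
    Completion.coe_smul, Ctx.Wv]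

theorem Wv_ug1 (G : GRP c) (hL : IsLor L) (hr : sim 1 L 0 va = r • va) (a : V) (hf : IsTest f) :
    Ug c.Q 1 L a (c.Wv fun x => f (sim 1 L a x)) = ((r ^ 2 : ℝ) : ℂ) • c.Wv f := by
  rw [Ctx.Wv, G.coe _ _ _ _ one_pos hL, Wf_cov1 hL hr a hf, c.Q.U_vac _ _ _ one_pos hL,
    Completion.coe_smul, Ctx.Wv]

theorem gap_va (u : R2) : gap u va = (1 : ℝ) • va := null_ext (by simp) (by simp) (by simp)

theorem scp_va (r s : ℝ) : scp r s va = r • va := null_ext (by simp) (by simp) (by simp)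

theorem Wv_ga (G : GRP c) (u : R2) (hf : IsTest f) :
    Ga c.Q u (c.Wv fun x => f (gap u x)) = c.Wv f := by
  simpa only [Ga, (G.lga u).2, one_pow, Complex.ofReal_one, one_smul] using
    Wv_ug1 G (G.lga u).1 (((G.lga u).2 _).trans (gap_va u)) 0 hf

theorem Wv_sc (G : GRP c) (w : WX c) (hr : 0 < r) (hs : 0 < s) (hf : IsTest f) :
    Usc c.Q r s (c.Wv fun x => f (scp r s x)) = ((r ^ 2 : ℝ) : ℂ) • c.Wv f := by
  simpa only [Usc, (G.lsc r s hr hs).2] using Wv_ug G w (Real.sqrt_pos.2 (mul_pos hr hs))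
    (G.lsc r s hr hs).1 (((G.lsc r s hr hs).2 _).trans (scp_va r s)) 0 hf

/-- boosts do not change the member -/
theorem Wv_bo (G : GRP c) (t : ℝ) (hf : IsTest f) :
    Bo c.Q t (c.Wv fun x => f (scp (Real.exp t) (Real.exp (-t)) x)) =
      ((Real.exp t ^ 2 : ℝ) : ℂ) • c.Wv f := by
  have h := G.lsc _ _ (Real.exp_pos t) (Real.exp_pos (-t))
  rw [P352X.Gen.sq1] at h
  rw [Bo, Usc, P352X.Gen.sq1]
  simpa only [h.2] using Wv_ug1 G h.1 ((h.2 _).trans (scp_va _ _)) 0 hf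

theorem cp_jr (F : Sch) : ev (cp conf_jr.cle 0 F) = fun x => ev F (jr x) :=
  funext fun x => (cp_apply _ _ _ _).trans (congrArg F (add_zero _))

theorem hW_jr (hf : IsTest f) (m n : Ix) (x : V) :
    hW (fun z => f (jr z)) m n x = ((sj m * sj n : ℝ) : ℂ) * hW f m n (jr x) := by
  obtain ⟨F, rfl⟩ := hf
  rw [← cp_jr, ← ev_hD (m, n), ← ev_hD (m, n),
    hD_jr (e := i0) (e' := i0) (A := conf_jr.cle) (fun _ => rfl)]
  rw [← congrFun (cp_jr (hD i0 (m, n) F)) x]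
  rfl

theorem J_Wf (j : JC c) (hf : IsTest f) {v v' : D} (h : c.J v = v') :
    c.J (c.Wf f v : D) = (c.Wf (bar fun z => f (jr z)) v' : D) := by
  have t := Ap.test_conf0 conf_jr hf
  have e : ∀ F (u : D), ((c.Tf F u : D) : Completion D) =
      ∑ I : I2, ((c.T I.1 I.2 (F I.1 I.2) u : D) : Completion D) := fun F u => by
    rw [Tf_eq]
    exact map_sum (Completion.toComplL (𝕜 := ℂ)) _ _
  rw [Ctx.Wf, Ctx.Wf, ← barT_hW t, e, e, map_sum]
  refine Finset.sum_congr rfl fun I _ => ?_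
  rw [j.jt _ _ _ _ _ (test_hW hf _ _) h, ← P352X.Grp.fld_smul (T_fld c _ _) _
    (Ap.test_bar (Ap.test_conf0 conf_jr (test_hW hf _ _)))]
  congr 2
  funext x
  simp only [barT, bar, hW_jr hf, star_mul', Complex.star_def, Complex.conj_ofReal]

theorem J_Wv (j : JC c) (hf : IsTest f) : c.J (c.Wv f) = c.Wv (bar fun z => f (jr z)) :=
  J_Wf j hf c.J_Om

/-! ## generators -/

theorem gn_ut (G : GRP c) (y : V) (hf : IsTest f) :
    Gn (fun t => Ut c.Q (t • y)) (c.Wv f) (I • c.Wv (dv y f)) := by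
  rw [← WL_sch hf, ← WL_sch (Ap.test_dv y hf)]
  refine Z.gn_of_cov (G.ugT y) _ (Ft := fun t => sch fun x => f (x + t • y))
    (lie_row.der V (fun _ => 1) (fun t => t • y) 0 y _ _ _ (hasDerivAt_const _ _)
      (by simpa using (hasDerivAt_id (0 : ℝ)).smul_const y) rfl (zero_smul _ _)
      (.of_forall fun t x => ?_) fun x => ?_) fun t => ?_
  · rw [Ap.sch_apply (test_tsl hf _), Ap.sch_apply hf]
    rfl
  · rw [Ap.sch_apply (Ap.test_dv y hf), Ap.coe_sch hf, Ap.dv_eq (Ap.sw_diff hf x)]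
    simp
  · rw [WL_sch (test_tsl hf _), WL_sch hf, Wv_tr G _ hf]

theorem gn_pa (G : GRP c) (hf : IsTest f) : Gn (Pa c.Q) (c.Wv f) (I • c.Wv (dv va f)) :=
  gn_ut G va hf

theorem gn_pb (G : GRP c) (hf : IsTest f) : Gn (Pb c.Q) (c.Wv f) (I • c.Wv (dv vb f)) :=
  gn_ut G vb hf

theorem gn_mi (G : GRP c) (i : Fin 2) (hf : IsTest f) :
    Gn (Mi c.Q i) (c.Wv f) (I • c.Wv (Mc i f)) := by
  set A : V →L[ℝ] V := (-mdL (ex i)).smulRight va + beL.smulRight (ex i)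
  set B : V →L[ℝ] V := ((1 / 2 : ℝ) • beL).smulRight va
  have e : ∀ (t : ℝ) x, (1 + t • A + t ^ 2 • B : V →L[ℝ] V) x = gap (t • e2 i) x := fun t x =>
    null_ext (by simp [A, B, md_ex, d2_smul, d2_smul_l]; ring) (by simp [A, B])
      (by simp [A, B, smul_smul, mul_comm])
  rw [← WL_sch hf, ← WL_sch (Ap.test_Mc i hf)]
  refine Z.gn_of_cov (G.ugM i) _ (Ft := fun t => sch fun x => f (gap (t • e2 i) x))
    (lie_row.der V (fun t => 1 + t • A + t ^ 2 • B) (fun _ => 0) A 0 _ _ _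
      (by simpa using ((((hasDerivAt_id (0 : ℝ)).smul_const A).const_add 1).fun_add
        (((hasDerivAt_id (0 : ℝ)).fun_pow 2).smul_const B))) (hasDerivAt_const _ _) (by simp) rfl
      (.of_forall fun t x => ?_) fun x => ?_) fun t => ?_
  · rw [Ap.sch_apply (test_conf (conf_gap _) hf), Ap.sch_apply hf, add_zero, e]
  · rw [Ap.sch_apply (Ap.test_Mc i hf), Ap.coe_sch hf, Mc, Ap.dv_eq (Ap.sw_diff hf x),
      Ap.dv_eq (Ap.sw_diff hf x)]
    simp [A, md_ex]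
  · rw [WL_sch (test_conf (conf_gap _) hf), WL_sch hf, Mi, Wv_ga G _ hf]

/-! ## the link with the isometry -/

theorem daa_box (hf : IsTest f) : Z.daa (box f) = box (Z.daa f) := by
  obtain ⟨F, rfl⟩ := hf
  simp only [Z.daa, ← ev_bD, ← ev_dD, (itw_dD i0 va).bD]

theorem _root_.Vale.Agent.P352L.Ctx.Elt.wv {ell c0} (E : c.Elt ell c0) (hf : IsTest f) :
    c.Wv f = Z.Thv ell (Z.daa f) := by
  have d := Ap.test_dv va (Ap.test_dv va hf)
  have h := E.taa 0 _ (Ap.test_box hf)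
  have m := memLp_mu_ft d Fc
  have k := E.el.lin _ _ (-1) m m
  have k0 := E.el.lin _ _ (-1) (m.sub m) m
  rw [c.sh_zero, daa_box hf, funext (ft_box d)] at h
  simp only [neg_one_mul, neg_one_smul, add_neg_cancel] at k
  simp only [sub_self, k, zero_add, neg_one_mul, neg_one_smul, Pi.zero_def] at k0
  simp only [neg_mul, k0] at h
  rw [Wv_eq hf, Ctx.Th, Ctx.Thf, ← c.hl.trace _ d, ← smul_add, add_comm, ← h, Z.Thv, smul_neg,
    neg_smul]

/-! ## slabs -/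

theorem slab (k : KD c) {b1 b2 : ℝ} (hb : b2 < 0 ∨ 0 < b1) : ∃ (m : ℕ) (C : ℝ), 0 ≤ C ∧ ∀ F : Sch,
    tsupport F ⊆ {z | b1 ≤ be z ∧ be z ≤ b2} → Dm c.SK (c.Wv (ev F)) ∧
      Dm c.SK (gen c.SK (c.Wv (ev F))) ∧ ‖gen c.SK (c.Wv (ev F))‖ ≤ C * sn m F ∧
      ‖gen c.SK (gen c.SK (c.Wv (ev F)))‖ ≤ C * sn m F := by
  obtain ⟨m, C, h⟩ := k.slab b1 b2 hb
  obtain ⟨m', C', C0, h'⟩ := snT_hWS m
  refine ⟨m', |C| * C', by positivity, fun F hF => ?_⟩
  have b : ∀ n, ‖bas n (eta n)‖ ≤ 1 := fun n => (pi_norm_le_iff_of_nonneg zero_le_one).2 fun i => by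
    simp only [bas, eta]
    split_ifs <;> simp
  have q := fun I : I2 => h (bas I.1 (eta I.1)) (bas I.2 (eta I.2)) (hD i0 I F)
    ((tsupport_hD _ _ _).trans hF)
  have e : c.Wv (ev F) =
      ∑ I : I2, c.Tv (hk (bas I.1 (eta I.1)) (bas I.2 (eta I.2)) (ev (hD i0 I F))) := by
    simp only [Wv_sum, Ctx.Tv, hk_bas _ (Ap.test_ev _)]
  have z : ∀ u : I2 → Completion D, (∀ I, ‖u I‖ ≤ C * ‖bas I.1 (eta I.1)‖ * ‖bas I.2 (eta I.2)‖ *
      sn m (hD i0 I F)) → ‖∑ I, u I‖ ≤ |C| * C' * sn m' F := fun u hu => by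
    refine (norm_sum_le _ _).trans ((Finset.sum_le_sum (g := fun I => |C| * sn m (hD i0 I F))
      fun I _ => (hu I).trans (mul_le_mul_of_nonneg_right ?_ (Lie.sn_nonneg _ _))).trans ?_)
    · calc _ ≤ |C| * ‖bas I.1 (eta I.1)‖ * ‖bas I.2 (eta I.2)‖ := by gcongr; exact le_abs_self C
        _ ≤ |C| * 1 * 1 := by gcongr <;> exact b _
        _ = _ := by ring
    · rw [← Finset.mul_sum, mul_assoc]
      exact mul_le_mul_of_nonneg_left (h' F) (abs_nonneg C)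
  rw [e, gen_sum _ fun I _ => (q I).1, gen_sum _ fun I _ => (q I).2.1]
  exact ⟨Dm.sum _ fun I _ => (q I).1, Dm.sum _ fun I _ => (q I).2.1, z _ fun I => (q I).2.2.1,
    z _ fun I => (q I).2.2.2⟩

/-! ## products -/

theorem ww0_apply (w : I2 → I2 → S2 →L[ℂ] Completion D) (F : S2) :
    ww0 w F = ∑ I, ∑ J, ((la I.1 * la I.2 : ℝ) : ℂ) • w I J (hD i2 J F) := by
  simp only [ww0, ContinuousLinearMap.sum_apply, ContinuousLinearMap.smul_apply,
    ContinuousLinearMap.comp_apply]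

theorem tw_apply (J : I2) (F : S3) : c.tw J F = ∑ I, ∑ K, c.t I J K (hD j1 I (hD j3 K F)) := by
  simp only [Ctx.tw, ContinuousLinearMap.sum_apply, ContinuousLinearMap.comp_apply,
    ContinuousLinearMap.mul_apply]

theorem tw0_apply (F : S3) : c.tw0 F = ∑ J : I2, ((la J.1 * la J.2 : ℝ) : ℂ) * c.tw J F := by
  simp only [Ctx.tw0, ContinuousLinearMap.sum_apply, ContinuousLinearMap.smul_apply, smul_eq_mul]

theorem twh_apply (F : S3) : c.twh F = ∑ J : I2, (gm J : ℂ) * c.tw J F := by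
  simp only [Ctx.twh, ContinuousLinearMap.sum_apply, ContinuousLinearMap.smul_apply, smul_eq_mul]

theorem tww_apply (F : S3) : c.tww F = ∑ J, c.tw J (hD j2 J F) := by
  simp only [Ctx.tww, ContinuousLinearMap.sum_apply, ContinuousLinearMap.comp_apply]

/-- `W = Θ ∂_a² + 3 T_aa □` in the middle leg -/
theorem tww_eq (F : S3) :
    c.tww F = c.twh (dD (j2 va) (dD (j2 va) F)) + 3 * c.tw0 (bD j2 F) := by
  simp only [tww_apply, twh_apply, tw0_apply, hD, ContinuousLinearMap.add_apply,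
    ContinuousLinearMap.smul_apply, ContinuousLinearMap.mul_apply, map_add, map_smul, smul_eq_mul,
    Finset.sum_add_distrib, Finset.mul_sum]
  congr 1
  refine Finset.sum_congr rfl fun J _ => ?_
  push_cast
  ring

section tp

variable [Fact c.tp]

omit [Fact c.tp] in
theorem sub2 {G G' : S2} (h : tsupport G' ⊆ tsupport G) :
    Prod.fst '' tsupport G' ∪ Prod.snd '' tsupport G' ⊆
      Prod.fst '' tsupport G ∪ Prod.snd '' tsupport G :=
  Set.union_subset_union (Set.image_mono h) (Set.image_mono h)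

/-- the first leg is the latest -/
theorem tw_fac1 (J : I2) (f : Sch) (G : S2) (F : S3) (h : ∀ x y z, F (x, y, z) = f x * G (y, z))
    (l : Late (tsupport f) (Prod.fst '' tsupport G ∪ Prod.snd '' tsupport G)) :
    c.tw J F = inner ℂ (c.Wv (bar (ev f))) (∑ K, c.wp J K (hD i2 K G)) := by
  obtain rfl := eq_tens (f := f) (g := G) fun x y => h x y.1 y.2
  have e : c.Wv (bar (ev f)) =
      ∑ I : I2, ((c.T I.1 I.2 (bar (ev (hD i0 I f))) c.Q.vac : D) : Completion D) := by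
    rw [Ctx.Wv, Ctx.Wf, ← barT_hW (Ap.test_ev f), Tf_eq]
    simp only [barT, ev_hD]
    exact map_sum (Completion.toComplL (𝕜 := ℂ)) _ _
  rw [tw_apply, e, sum_inner]
  refine Finset.sum_congr rfl fun I _ => ?_
  rw [inner_sum]
  refine Finset.sum_congr rfl fun K _ => ?_
  rw [hD_j3, hD_j1]
  exact c.hTP.fac1 _ _ _ _ _ _ _ (fun _ _ _ => rfl) (Ap.late_mono l (tsupport_hD _ _ _)
    (sub2 (tsupport_hD _ _ _)))

/-- the third leg is the earliest -/
theorem tw_fac3 (J : I2) (G G' : S2) (f : Sch) (F : S3) (h : ∀ x y z, F (x, y, z) = G (x, y) * f z)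
    (h' : ∀ x, G' x = star (G x))
    (l : Late (Prod.fst '' tsupport G ∪ Prod.snd '' tsupport G) (tsupport f)) :
    c.tw J F = inner ℂ (∑ I, c.wm I J (hD i1 I G')) (c.Wv (ev f)) := by
  obtain rfl : F = tn3 G f := SchwartzMap.ext fun z => (h _ _ _).trans (tn3_apply _ _ _ _ _).symm
  rw [tw_apply, Wv_sum, sum_inner]
  refine Finset.sum_congr rfl fun I _ => ?_
  rw [inner_sum]
  refine Finset.sum_congr rfl fun K _ => ?_
  rw [hD_t3, hD_t1]
  exact c.hTP.fac3 _ _ _ _ _ _ _ _ (tn3_apply _ _) (hD_star h' _ _) (Ap.late_mono l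
    (sub2 (tsupport_hD _ _ _)) (tsupport_hD _ _ _))

theorem tw0_fac1 (f : Sch) (G : S2) (F : S3) (h : ∀ x y z, F (x, y, z) = f x * G (y, z))
    (l : Late (tsupport f) (Prod.fst '' tsupport G ∪ Prod.snd '' tsupport G)) :
    c.tw0 F = inner ℂ (c.Wv (bar (ev f))) (ww0 c.wp G) := by
  simp only [tw0_apply, tw_fac1 _ f G F h l, ww0_apply, ← Finset.smul_sum, inner_sum (s := .univ)
    (f := fun I : I2 => ((la I.1 * la I.2 : ℝ) : ℂ) • _), inner_smul_right]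

omit [Fact c.tp] in
theorem sum5 (x : ℂ) (l : I2 → I2 → ℂ) (J : I2) (u : I2 → I2 → I2 → I2 → I2 → ℂ) :
    x * ∑ I, ∑ K, ∑ I', ∑ J', ∑ K', l I' I * l J' J * l K' K * u I' J' K' I K =
      ∑ J', l J' J * ∑ I', ∑ K', x * ∑ I, ∑ K, l I' I * l K' K * u I' J' K' I K := by
  simp only [Finset.mul_sum, ← Fintype.sum_prod_type']
  exact Fintype.sum_equiv ⟨fun p => (p.2.2.2.1, p.2.2.1, p.2.2.2.2, p.1, p.2.1),
    fun p => (p.2.2.2.1, p.2.2.2.2, p.2.1, p.1, p.2.2.1), fun _ => rfl, fun _ => rfl⟩ _ _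
    fun p => by simp only [Equiv.coe_fn_mk]; ring

/-- covariance of `⟨T(W T^J W)⟩` -/
theorem tw_cov (hs : 0 < s) (hL : IsLor L) (hr : sim s L 0 va = r • va) (a : V) (J : I2)
    (F G : S3) (h : ∀ x y z, G (x, y, z) = F (sim s L a x, sim s L a y, sim s L a z))
    (h0 : s = 1 ∨ ∀ x, (x, x, x) ∉ tsupport F) :
    ((r ^ 4 : ℝ) : ℂ) * (c.sh (Real.log s)).tw J F = ∑ J', L2 L J' J * c.tw J' G := by
  set B := (conf_sim hs hL).cle
  have p : ∀ (H : S3) x y z, cp (c3 B) (a, a, a) H (x, y, z) =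
      H (sim s L a x, sim s L a y, sim s L a z) := fun H x y z => by
    simp only [cp_c3, B, Conf.cle_apply, ← sim_zero]
  obtain rfl : G = cp (c3 B) (a, a, a) F :=
    SchwartzMap.ext fun z => (h _ _ _).trans (p _ _ _ _).symm
  have q : ∀ I K, (c.sh (Real.log s)).t I J K (hD j1 I (hD j3 K F)) = _ := fun I K =>
    c.hTP.cov c.tau s L a I J K _ _ hs hL (p _) (h0.imp id fun u x v =>
      u x (tsupport_hD _ _ _ (tsupport_hD _ _ _ v)))
  have k : ∀ I' J' K', c.t I' J' K' (hD j1 I' (hD j3 K' (cp (c3 B) (a, a, a) F))) =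
      ((r ^ 4 : ℝ) : ℂ) * ∑ I, ∑ K, L2 L I' I * L2 L K' K *
        c.t I' J' K' (cp (c3 B) (a, a, a) (hD j1 I (hD j3 K F))) := fun I' J' K' => by
    generalize c.t I' J' K' = t
    simp only [hD_sim hs hL hr (c3_j3 B), hD_sim hs hL hr (c3_j1 B), map_smul, map_sum,
      smul_eq_mul, Finset.mul_sum]
    rw [Finset.sum_comm]
    refine Finset.sum_congr rfl fun _ _ => Finset.sum_congr rfl fun _ _ => ?_
    push_cast
    ring
  simp only [tw_apply, q, k]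
  exact sum5 _ _ _ _

omit [Fact c.tp] in
theorem L2_gm (hL : IsLor L) (K : I2) : ∑ I, L2 L K I * (gm I : ℂ) = gm K := by
  rw [gm, ← hL.1, GF.mdot]
  simp [Fintype.sum_prod_type, L2, gm, bas, apply_ite Complex.ofReal, mul_comm, mul_left_comm,
    mul_assoc]

omit [Fact c.tp] in
theorem L2_aa (hs : 0 < s) (hL : IsLor L) (hr : sim s L 0 va = r • va) (K : I2) :
    ((r ^ 2 : ℝ) : ℂ) * ∑ I, L2 L K I * ((la I.1 * la I.2 : ℝ) : ℂ) =
      ((s ^ 2 : ℝ) : ℂ) * ((la K.1 * la K.2 : ℝ) : ℂ) := by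
  have a : ∀ n, r * ∑ m, L n m * la m = s * la n := fun n => by
    have := (conf_sim hs hL).md (bas n 1) va
    rw [hr, md_smul, md_bas1, GF.mdot] at this
    refine mul_left_cancel₀ hs.ne' ?_
    rw [← mul_assoc s s, ← sq, la, ← this, mul_left_comm, Finset.mul_sum]
    simp only [sim_bas, la, mul_comm, mul_left_comm, mul_assoc]
  simp only [L2, ← Complex.ofReal_mul, ← Complex.ofReal_sum]
  rw [show s ^ 2 * (la K.1 * la K.2) = s * la K.1 * (s * la K.2) by ring, ← a, ← a,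
    mul_mul_mul_comm, Finset.sum_mul_sum, Fintype.sum_prod_type, sq]
  simp only [mul_mul_mul_comm]

theorem twh_cov (hs : 0 < s) (hL : IsLor L) (hr : sim s L 0 va = r • va) (a : V)
    (F G : S3) (h : ∀ x y z, G (x, y, z) = F (sim s L a x, sim s L a y, sim s L a z))
    (h0 : s = 1 ∨ ∀ x, (x, x, x) ∉ tsupport F) :
    ((r ^ 4 : ℝ) : ℂ) * (c.sh (Real.log s)).twh F = c.twh G := by
  simp only [twh_apply, Finset.mul_sum, mul_left_comm ((r ^ 4 : ℝ) : ℂ),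
    tw_cov hs hL hr a _ F G h h0]
  rw [Finset.sum_comm]
  simp only [← mul_assoc, ← Finset.sum_mul, mul_comm (gm _ : ℂ) (L2 _ _ _), L2_gm hL]

theorem tw0_cov (hs : 0 < s) (hL : IsLor L) (hr : sim s L 0 va = r • va) (a : V)
    (F G : S3) (h : ∀ x y z, G (x, y, z) = F (sim s L a x, sim s L a y, sim s L a z))
    (h0 : s = 1 ∨ ∀ x, (x, x, x) ∉ tsupport F) :
    ((r ^ 6 : ℝ) : ℂ) * (c.sh (Real.log s)).tw0 F = ((s ^ 2 : ℝ) : ℂ) * c.tw0 G := by
  rw [show ((r ^ 6 : ℝ) : ℂ) = ((r ^ 2 : ℝ) : ℂ) * ((r ^ 4 : ℝ) : ℂ) by push_cast; ring, mul_assoc,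
    tw0_apply, tw0_apply, Finset.mul_sum, Finset.mul_sum _ _ ((s ^ 2 : ℝ) : ℂ)]
  simp only [mul_left_comm ((r ^ 4 : ℝ) : ℂ), tw_cov hs hL hr a _ F G h h0, Finset.mul_sum _ _
    ((la _ * la _ : ℝ) : ℂ)]
  rw [Finset.sum_comm, Finset.mul_sum]
  simp only [← mul_assoc, ← Finset.sum_mul, mul_comm _ (L2 _ _ _), L2_aa hs hL hr]

theorem tw0_fac3 (G G' : S2) (f : Sch) (F : S3) (h : ∀ x y z, F (x, y, z) = G (x, y) * f z)
    (h' : ∀ x y, G' (x, y) = star (G (y, x)))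
    (l : Late (Prod.fst '' tsupport G ∪ Prod.snd '' tsupport G) (tsupport f)) :
    c.tw0 F = inner ℂ (ww0 c.wm G') (c.Wv (ev f)) := by
  set A := ContinuousLinearEquiv.prodComm ℝ V V
  have p : ∀ (H : S2) x y, cp A 0 H (x, y) = H (y, x) := fun H x y => by
    rw [cp_apply, add_zero]
    rfl
  rw [tw0_apply, ww0_apply, sum_inner]
  refine Finset.sum_congr rfl fun J _ => ?_
  rw [tw_fac3 J G (cp A 0 G') f F h (fun x => (p _ _ _).trans (h' _ _)) l, ← Finset.smul_sum,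
    inner_smul_left, Complex.conj_ofReal]
  congr 2
  refine Finset.sum_congr rfl fun I _ => ?_
  rw [(itw_cp (e := i2) (fun _ => rfl) 0).hD]
  exact (c.hTP.tm.swap _ _ _ _ _ _ (p _)).symm

end tp

end Wa

end

end Vale.Agent.P352L
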